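import Vale.Agent.P002.Defs

/-!
# P002 TASK D: generic matrices
-/

namespace Vale.Agent.P002

open Matrix

variable {g r : ℕ}

/-- There are countably many algebraically independent complex numbers. -/
theorem exists_algIndep (σ : Type) [Finite σ] : ∃ c : σ → ℂ, AlgebraicIndependent ℤ c := by
  obtain ⟨s, hs⟩ := exists_isTranscendenceBasis ℤ ℂ
  have hR : Cardinal.mk ℤ ≤ Cardinal.aleph0 := le_of_eq Cardinal.mk_int
  have hK : Cardinal.aleph0 < Cardinal.mk ℂ := by
    rw [Cardinal.mk_complex]; exact Cardinal.aleph0_lt_continuum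
  have h1 := IsAlgClosed.cardinal_eq_cardinal_transcendence_basis_of_aleph0_lt' _ hs hR hK
  have h2 : Infinite s := by
    rw [Cardinal.infinite_iff, ← h1]
    exact hK.le
  obtain ⟨n, ⟨e⟩⟩ := Finite.exists_equiv_fin σ
  refine ⟨fun x => ((Infinite.natEmbedding s (e x : ℕ) : s) : ℂ), ?_⟩
  exact hs.1.comp (fun x => Infinite.natEmbedding s (e x : ℕ)) fun x y hxy =>
    e.injective (Fin.ext ((Infinite.natEmbedding s).injective hxy))

/-- TASK D (1): generic complex matrices exist. -/
theorem exists_generic (r : ℕ) :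
    ∃ C : Mat r ℂ, AlgebraicIndependent ℤ fun p : Fin r × Fin r => C p.1 p.2 := by
  obtain ⟨c, hc⟩ := exists_algIndep (Fin r × Fin r)
  exact ⟨Matrix.of fun i j => c (i, j), hc⟩

/-- TASK D (2): generic matrices are invertible. -/
theorem generic_isUnit {C : Mat r ℂ}
    (hC : AlgebraicIndependent ℤ fun p : Fin r × Fin r => C p.1 p.2) : IsUnit C := by
  rw [Matrix.isUnit_iff_isUnit_det, isUnit_iff_ne_zero]
  intro h
  have h1 : (MvPolynomial.aeval fun p : Fin r × Fin r => C p.1 p.2)
      (det (mvPolynomialX (Fin r) (Fin r) ℤ)) = 0 := by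
    rw [AlgHom.map_det, mvPolynomialX_mapMatrix_aeval, h]
  exact det_mvPolynomialX_ne_zero (Fin r) ℤ (hC (h1.trans (map_zero _).symm))

/-- TASK D (3): a generic matrix times an integer matrix of nonzero determinant is generic. -/
theorem generic_mul_int {C : Mat r ℂ}
    (hC : AlgebraicIndependent ℤ fun p : Fin r × Fin r => C p.1 p.2)
    (P : Mat r ℤ) (hP : P.det ≠ 0) :
    AlgebraicIndependent ℤ fun p : Fin r × Fin r =>
      (C * P.map (Int.castRingHom ℂ)) p.1 p.2 := by
  rw [algebraicIndependent_iff]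
  intro f hf
  -- the substituted polynomial
  obtain ⟨G, hG⟩ : ∃ G : MvPolynomial (Fin r × Fin r) ℤ, G =
      MvPolynomial.aeval (fun p : Fin r × Fin r =>
        (mvPolynomialX (Fin r) (Fin r) ℤ *
          P.map (Int.castRingHom (MvPolynomial (Fin r × Fin r) ℤ)) :
            Mat r (MvPolynomial (Fin r × Fin r) ℤ)) p.1 p.2) f := ⟨_, rfl⟩
  have key : ∀ {S : Type} [CommRing S] (M : Mat r S),
      MvPolynomial.aeval (fun p : Fin r × Fin r => M p.1 p.2) G =
        MvPolynomial.aeval (fun p : Fin r × Fin r => (M * P.map (Int.castRingHom S)) p.1 p.2) f := by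
    intro S _ M
    rw [hG]
    rw [← AlgHom.comp_apply, MvPolynomial.comp_aeval]
    congr 2
    funext p
    simp only [Matrix.mul_apply, mvPolynomialX_apply, Matrix.map_apply, map_sum, map_mul,
      MvPolynomial.aeval_X, Int.coe_castRingHom, map_intCast]
  have hG0 : G = 0 := (algebraicIndependent_iff.1 hC) G ((key C).trans hf)
  -- pass to the rationals
  have hQ : MvPolynomial.map (Int.castRingHom ℚ) f = 0 := by
    refine MvPolynomial.funext fun x => ?_
    obtain ⟨N, hN⟩ : ∃ N : Mat r ℚ, N = Matrix.of fun i j => x (i, j) := ⟨_, rfl⟩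
    have hPu : IsUnit (P.map (Int.castRingHom ℚ)).det := by
      rw [isUnit_iff_ne_zero]
      have : (P.map (Int.castRingHom ℚ)).det = ((P.det : ℤ) : ℚ) := by
        exact ((Int.castRingHom ℚ).map_det P).symm
      rw [this]
      exact Int.cast_ne_zero.2 hP
    have h1 := key (N * (P.map (Int.castRingHom ℚ))⁻¹)
    rw [Matrix.mul_assoc, Matrix.nonsing_inv_mul _ hPu, Matrix.mul_one, hG0, map_zero] at h1
    rw [MvPolynomial.eval_map, map_zero]
    have h2 : (fun p : Fin r × Fin r => N p.1 p.2) = x := by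
      funext p; rw [hN]; rfl
    rw [h2] at h1
    exact h1.symm
  have hinj := MvPolynomial.map_injective (σ := Fin r × Fin r) (Int.castRingHom ℚ)
    (RingHom.injective_int _)
  exact hinj (hQ.trans (map_zero _).symm)

/-- TASK D (4): genericity lifts. -/
theorem generic_lift {S T : Type*} [CommRing S] [CommRing T] (θ : S →+* T) (C : Mat r S)
    (hC : AlgebraicIndependent ℤ fun p : Fin r × Fin r => (C.map θ) p.1 p.2) :
    AlgebraicIndependent ℤ fun p : Fin r × Fin r => C p.1 p.2 :=
  AlgebraicIndependent.of_comp θ.toIntAlgHom hC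

end Vale.Agent.P002
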