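import Mathlib

/-! TASK G: arc lemma. -/

namespace Vale.Agent.P002

theorem coeff_zero_aeval {σ : Type*} (Ψ : MvPolynomial σ ℂ) (c : σ → PowerSeries ℂ) :
    PowerSeries.coeff 0 (MvPolynomial.aeval c Ψ) =
      MvPolynomial.eval (fun i => PowerSeries.coeff 0 (c i)) Ψ := by
  induction Ψ using MvPolynomial.induction_on with
  | C a => simp
  | add p q hp hq => rw [map_add, map_add, map_add, hp, hq]
  | mul_X p i hp => simp at hp ⊢

theorem coeff_one_aeval {σ : Type*} [Fintype σ] (Ψ : MvPolynomial σ ℂ)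
    (c : σ → PowerSeries ℂ) :
    PowerSeries.coeff 1 (MvPolynomial.aeval c Ψ) =
      ∑ i, MvPolynomial.eval (fun i => PowerSeries.coeff 0 (c i)) (MvPolynomial.pderiv i Ψ) *
        PowerSeries.coeff 1 (c i) := by
  classical
  induction Ψ using MvPolynomial.induction_on with
  | C a => 
    rw [MvPolynomial.aeval_C]
    simp
  | add p q hp hq =>
    rw [map_add, map_add, hp, hq, ← Finset.sum_add_distrib]
    refine Finset.sum_congr rfl fun i _ => ?_
    rw [map_add, map_add, add_mul]
  | mul_X p i hp =>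
    rw [map_mul, MvPolynomial.aeval_X, PowerSeries.coeff_one_mul,
      ← PowerSeries.coeff_zero_eq_constantCoeff_apply,
      ← PowerSeries.coeff_zero_eq_constantCoeff_apply, coeff_zero_aeval, hp, Finset.sum_mul]
    have : ∀ j, MvPolynomial.eval (fun i => PowerSeries.coeff 0 (c i))
        (MvPolynomial.pderiv j (p * MvPolynomial.X i)) * PowerSeries.coeff 1 (c j) =
        MvPolynomial.eval (fun i => PowerSeries.coeff 0 (c i)) (MvPolynomial.pderiv j p) *
          PowerSeries.coeff 1 (c j) * PowerSeries.coeff 0 (c i) +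
        (if j = i then PowerSeries.coeff 1 (c j) *
          MvPolynomial.eval (fun i => PowerSeries.coeff 0 (c i)) p else 0) := by
      intro j
      rw [Derivation.leibniz, MvPolynomial.pderiv_X]
      simp only [smul_eq_mul, map_add, map_mul, MvPolynomial.eval_X]
      by_cases hji : j = i
      · subst hji
        rw [if_pos rfl, Pi.single_eq_same, map_one]
        ring
      · rw [if_neg hji, Pi.single_eq_of_ne (Ne.symm hji), map_zero]
        ring
    simp only [this]
    rw [Finset.sum_add_distrib, Finset.sum_ite_eq' Finset.univ i]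
    simp

/-- telescoping -/
theorem sub_mem_pow_mul {A B : Type*} [CommRing A] [CommRing B] [Algebra ℂ A] [Algebra ℂ B]
    (α β : A →ₐ[ℂ] B) (m : Ideal A)
    (N J : Ideal B) (hα : ∀ a ∈ m, α a ∈ N) (hβ : ∀ a ∈ m, β a ∈ N) (h : ∀ a, α a - β a ∈ J)
    (n : ℕ) : ∀ q ∈ m ^ (n + 1), α q - β q ∈ N ^ n * J := by
  induction n with
  | zero =>
    intro q _
    rw [pow_zero, Ideal.one_eq_top, Ideal.top_mul]
    exact h q
  | succ n ih =>
    intro q hq
    rw [pow_succ] at hq
    refine Submodule.mul_induction_on hq ?_ ?_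
    · intro a ha b hb
      have e : α (a * b) - β (a * b) = (α a - β a) * α b + β a * (α b - β b) := by
        rw [map_mul, map_mul]; ring
      rw [e]
      refine Ideal.add_mem _ ?_ ?_
      · have := Ideal.mul_mem_mul (ih a ha) (hα b hb)
        rw [pow_succ, mul_assoc, mul_comm N J, ← mul_assoc]
        exact this
      · refine Ideal.mul_mem_mul ?_ (h b)
        have : m ^ (n + 1) ≤ (N ^ (n + 1)).comap (β : A →+* B) := by
          refine le_trans (Ideal.pow_right_mono (I := m) (J := N.comap (β : A →+* B)) hβ (n + 1)) ?_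
          exact Ideal.le_comap_pow (β : A →+* B) (n + 1)
        exact this ha
    · intro a b ha hb
      have e : α (a + b) - β (a + b) = (α a - β a) + (α b - β b) := by
        rw [map_add, map_add]; ring
      rw [e]
      exact Ideal.add_mem _ ha hb

theorem map_pow_mem {A B : Type*} [CommRing A] [CommRing B] [Algebra ℂ A] [Algebra ℂ B]
    (θ : A →ₐ[ℂ] B) (m : Ideal A) (N : Ideal B) (h : ∀ a ∈ m, θ a ∈ N) (k : ℕ) :
    ∀ a ∈ m ^ k, θ a ∈ N ^ k := by
  intro a ha
  have : m ^ k ≤ (N ^ k).comap (θ : A →+* B) := by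
    refine le_trans (Ideal.pow_right_mono (I := m) (J := N.comap (θ : A →+* B)) h k) ?_
    exact Ideal.le_comap_pow (θ : A →+* B) k
  exact this ha

theorem algHom_sub_mem {σ B : Type*} [CommRing B] [Algebra ℂ B]
    (α β : MvPolynomial σ ℂ →ₐ[ℂ] B) (J : Ideal B)
    (h : ∀ i, α (MvPolynomial.X i) - β (MvPolynomial.X i) ∈ J) (a : MvPolynomial σ ℂ) :
    α a - β a ∈ J := by
  have : (Ideal.Quotient.mkₐ ℂ J).comp α = (Ideal.Quotient.mkₐ ℂ J).comp β := by
    apply MvPolynomial.algHom_ext
    intro i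
    exact Ideal.Quotient.eq.mpr (h i)
  exact Ideal.Quotient.eq.mp (DFunLike.congr_fun this a)

open MvPolynomial in
/-- linear part -/
theorem sub_linear_mem {σ : Type*} [Fintype σ] (q : MvPolynomial σ ℂ) :
    q - C (eval 0 q) - ∑ i, C (eval 0 (pderiv i q)) * X i ∈ idealOfVars σ ℂ ^ 2 := by
  classical
  induction q using MvPolynomial.induction_on with
  | C a => simp
  | add p q hp hq =>
    have := Ideal.add_mem _ hp hq
    convert this using 1
    simp only [map_add, add_mul, Finset.sum_add_distrib]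
    ring
  | mul_X p j hp =>
    have h1 : ∑ i, C (eval 0 (pderiv i (p * X j))) * X i = C (eval 0 p) * X j := by
      rw [Finset.sum_eq_single j]
      · rw [Derivation.leibniz, pderiv_X_self]
        simp
      · intro i _ hi
        rw [Derivation.leibniz, pderiv_X_of_ne hi.symm]
        simp
      · simp
    rw [h1, map_mul, eval_X]
    have h2 : p * X j - C (eval 0 p * (0 : σ → ℂ) j) - C (eval 0 p) * X j =
        (p - C (eval 0 p)) * X j := by
      simp; ring
    rw [h2, pow_two]
    refine Ideal.mul_mem_mul ?_ (Ideal.subset_span ⟨j, rfl⟩)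
    have h3 := (mem_pow_idealOfVars_iff' 1 (p - C (eval 0 p))).mpr (by
      intro x hx
      have hx0 : x = 0 := by
        rw [← Finsupp.degree_eq_zero_iff]; omega
      subst hx0
      rw [coeff_sub, coeff_zero_C, ← constantCoeff_eq, ← eval_zero, sub_self])
    rwa [pow_one] at h3


open MvPolynomial in
theorem mem_pow_succ_of_lines {σ : Type*} [Fintype σ] (q : MvPolynomial σ ℂ) (k : ℕ)
    (hq : q ∈ idealOfVars σ ℂ ^ k)
    (h : ∀ x : σ → ℂ, PowerSeries.coeff k
      (aeval (fun i => PowerSeries.C (x i) * PowerSeries.X : σ → PowerSeries ℂ) q) = 0) :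
    q ∈ idealOfVars σ ℂ ^ (k + 1) := by
  classical
  have hcoeff : ∀ (x : σ → ℂ) (p : MvPolynomial σ ℂ), PowerSeries.coeff k
      (aeval (fun i => PowerSeries.C (x i) * PowerSeries.X : σ → PowerSeries ℂ) p) =
      eval x (homogeneousComponent k p) := by
    intro x p
    induction p using MvPolynomial.induction_on' with
    | monomial d a =>
      rw [aeval_monomial]
      have h1 : d.prod (fun i n => (PowerSeries.C (x i) * PowerSeries.X : PowerSeries ℂ) ^ n) =
          PowerSeries.C (d.prod fun i n => x i ^ n) * PowerSeries.X ^ d.degree := by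
        have hdeg : d.degree = ∑ i ∈ d.support, d i := rfl
        rw [Finsupp.prod, Finsupp.prod, hdeg, map_prod, ← Finset.prod_pow_eq_pow_sum,
          ← Finset.prod_mul_distrib]
        refine Finset.prod_congr rfl fun i _ => ?_
        rw [mul_pow, map_pow]
      rw [h1]
      have h2 : homogeneousComponent k (monomial d a : MvPolynomial σ ℂ) =
          if d.degree = k then monomial d a else 0 := by
        by_cases hd : d.degree = k
        · rw [if_pos hd]
          exact homogeneousComponent_eq_self (isHomogeneous_monomial a hd)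
        · rw [if_neg hd]
          apply homogeneousComponent_eq_zero'
          intro e he
          rw [mem_support_iff, coeff_monomial] at he
          by_cases hde : d = e
          · subst hde; exact hd
          · rw [if_neg hde] at he; exact absurd rfl he
      rw [h2]
      have h3 : (algebraMap ℂ (PowerSeries ℂ) a) = PowerSeries.C a := rfl
      rw [h3, ← mul_assoc, ← map_mul, PowerSeries.coeff_C_mul, PowerSeries.coeff_X_pow]
      by_cases hd : d.degree = k
      · rw [if_pos hd, if_pos hd.symm, eval_monomial, mul_one]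
      · rw [if_neg hd, if_neg (Ne.symm hd), map_zero, mul_zero]
    | add p q hp hq => rw [map_add, map_add, map_add, map_add, hp, hq]
  have h0 : homogeneousComponent k q = 0 := by
    apply MvPolynomial.funext
    intro x
    rw [← hcoeff, h x, map_zero]
  rw [mem_pow_idealOfVars_iff'] at hq ⊢
  intro x hx
  by_cases hxk : x.degree = k
  · have := congrArg (coeff x) h0
    rwa [coeff_homogeneousComponent, if_pos hxk, coeff_zero] at this
  · exact hq x (by omega)



/-- linear forms as polynomials -/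
noncomputable def linPoly {σ : Type*} [Fintype σ] [DecidableEq σ] :
    ((σ → ℂ) →ₗ[ℂ] ℂ) →ₗ[ℂ] MvPolynomial σ ℂ where
  toFun := fun ψ => ∑ i, MvPolynomial.C (ψ (Pi.single i 1)) * MvPolynomial.X i
  map_add' := by
    intro a b
    simp only [LinearMap.add_apply, map_add, add_mul, Finset.sum_add_distrib]
  map_smul' := by
    intro c a
    simp only [LinearMap.smul_apply, smul_eq_mul, map_mul, RingHom.id_apply,
      Finset.smul_sum, MvPolynomial.smul_eq_C_mul, mul_assoc]

theorem linPoly_apply {σ : Type*} [Fintype σ] [DecidableEq σ] (ψ : (σ → ℂ) →ₗ[ℂ] ℂ) :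
    linPoly ψ = ∑ i, MvPolynomial.C (ψ (Pi.single i 1)) * MvPolynomial.X i := rfl

theorem exists_proj {σ ι : Type*} [Fintype σ] [DecidableEq σ] [Finite ι]
    (φ : ι → ((σ → ℂ) →ₗ[ℂ] ℂ)) :
    ∃ P : (σ → ℂ) →ₗ[ℂ] (σ → ℂ), (∀ v j, φ j (P v) = 0) ∧
      ∀ i, MvPolynomial.X i - linPoly ((LinearMap.proj i).comp P) ∈
        Ideal.span (Set.range fun j => linPoly (φ j)) := by
  let K : Submodule ℂ (σ → ℂ) := ⨅ j, LinearMap.ker (φ j)
  have hK : ∀ u, u ∈ K ↔ ∀ j, φ j u = 0 := by
    intro u
    simp [K]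
  obtain ⟨K', hKK'⟩ := Submodule.exists_isCompl K
  refine ⟨K.projection K' hKK', ?_, ?_⟩
  · intro v
    rw [← hK]
    exact (K.projectionOnto K' hKK' v).2
  · intro i
    have h1 : (LinearMap.proj i : (σ → ℂ) →ₗ[ℂ] ℂ) - (LinearMap.proj i).comp
        (K.projection K' hKK') ∈ Submodule.span ℂ (Set.range φ) := by
      apply mem_span_of_iInf_ker_le_ker
      intro u hu
      rw [LinearMap.mem_ker, LinearMap.sub_apply, LinearMap.comp_apply,
        (Submodule.projection_eq_self_iff hKK' u).mpr hu, sub_self]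
    have h2 : MvPolynomial.X i - linPoly ((LinearMap.proj i).comp (K.projection K' hKK')) =
        linPoly ((LinearMap.proj i : (σ → ℂ) →ₗ[ℂ] ℂ) -
        (LinearMap.proj i).comp (K.projection K' hKK')) := by
      rw [map_sub]
      congr 1
      rw [linPoly_apply, Finset.sum_eq_single i]
      · simp
      · intro b _ hb
        simp [hb.symm]
      · simp
    rw [h2]
    have h3 := Submodule.mem_map_of_mem (f := linPoly) h1
    rw [Submodule.map_span, ← Set.range_comp] at h3
    exact Submodule.span_le_restrictScalars ℂ (MvPolynomial σ ℂ) _ h3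

theorem idealOfVars_map_le {σ A : Type*} [CommRing A] [Algebra ℂ A]
    (α : MvPolynomial σ ℂ →ₐ[ℂ] A) (N : Ideal A) (h : ∀ i, α (MvPolynomial.X i) ∈ N) :
    ∀ a ∈ MvPolynomial.idealOfVars σ ℂ, α a ∈ N := by
  intro a ha
  have : MvPolynomial.idealOfVars σ ℂ ≤ N.comap (α : MvPolynomial σ ℂ →+* A) := by
    rw [MvPolynomial.idealOfVars, Ideal.span_le]
    rintro _ ⟨i, rfl⟩
    exact h i
  exact this ha

/-- a function in the `k`-th power of the maximal ideal, evaluated along an arc -/
theorem coeff_arc {σ : Type*} [Fintype σ] (H : MvPolynomial σ ℂ) (k : ℕ)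
    (hH : H ∈ MvPolynomial.idealOfVars σ ℂ ^ (k + 1)) (u : σ → ℂ) (c : σ → PowerSeries ℂ)
    (hc0 : ∀ i, PowerSeries.coeff 0 (c i) = 0) (hc1 : ∀ i, PowerSeries.coeff 1 (c i) = u i)
    (hcH : MvPolynomial.aeval c H = 0) :
    PowerSeries.coeff (k + 1) (MvPolynomial.aeval
      (fun i => PowerSeries.C (u i) * PowerSeries.X : σ → PowerSeries ℂ) H) = 0 := by
  let α : MvPolynomial σ ℂ →ₐ[ℂ] PowerSeries ℂ :=
    MvPolynomial.aeval (fun i => PowerSeries.C (u i) * PowerSeries.X)
  let β : MvPolynomial σ ℂ →ₐ[ℂ] PowerSeries ℂ := MvPolynomial.aeval c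
  let N : Ideal (PowerSeries ℂ) := Ideal.span {PowerSeries.X}
  have hmem : α H - β H ∈ N ^ k * N ^ 2 := by
    refine sub_mem_pow_mul α β (MvPolynomial.idealOfVars σ ℂ) N (N ^ 2) ?_ ?_ ?_ k H hH
    · refine idealOfVars_map_le α N ?_
      intro i
      simp only [α, MvPolynomial.aeval_X]
      exact Ideal.mul_mem_left _ _ (Ideal.subset_span rfl)
    · refine idealOfVars_map_le β N ?_
      intro i
      simp only [β, MvPolynomial.aeval_X]
      rw [Ideal.mem_span_singleton, PowerSeries.X_dvd_iff,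
        ← PowerSeries.coeff_zero_eq_constantCoeff_apply]
      exact hc0 i
    · intro b
      refine algHom_sub_mem α β (N ^ 2) ?_ b
      intro i
      simp only [α, β, MvPolynomial.aeval_X, N]
      rw [Ideal.span_singleton_pow, Ideal.mem_span_singleton, PowerSeries.X_pow_dvd_iff]
      intro n hn
      interval_cases n
      · rw [map_sub, hc0 i]; simp
      · rw [map_sub, hc1 i, PowerSeries.coeff_C_mul, PowerSeries.coeff_one_X, mul_one,
          sub_self]
  have hβ : β H = 0 := hcH
  rw [hβ, sub_zero, ← pow_add, Ideal.span_singleton_pow, Ideal.mem_span_singleton,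
    PowerSeries.X_pow_dvd_iff] at hmem
  exact hmem (k + 1) (by omega)

theorem aeval_lin {σ : Type*} [Fintype σ] [DecidableEq σ] (P : (σ → ℂ) →ₗ[ℂ] (σ → ℂ))
    (x : σ → ℂ) (H : MvPolynomial σ ℂ) :
    MvPolynomial.aeval (fun i => PowerSeries.C (x i) * PowerSeries.X : σ → PowerSeries ℂ)
      (MvPolynomial.aeval (fun i => linPoly ((LinearMap.proj i).comp P)) H) =
    MvPolynomial.aeval (fun i => PowerSeries.C (P x i) * PowerSeries.X : σ → PowerSeries ℂ) H := by
  rw [← AlgHom.comp_apply, MvPolynomial.comp_aeval]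
  congr 2
  funext i
  rw [linPoly_apply, map_sum]
  have hx : P x i = ∑ l, P (Pi.single l 1) i * x l := by
    conv_lhs => rw [← Finset.univ_sum_single x, map_sum, Finset.sum_apply]
    refine Finset.sum_congr rfl fun l _ => ?_
    have : (Pi.single l (x l) : σ → ℂ) = x l • Pi.single l 1 := by
      rw [← Pi.single_smul, smul_eq_mul, mul_one]
    rw [this, map_smul, Pi.smul_apply, smul_eq_mul, mul_comm]
  rw [hx, map_sum, Finset.sum_mul]
  refine Finset.sum_congr rfl fun l _ => ?_
  rw [map_mul, MvPolynomial.aeval_X, map_mul, ← mul_assoc]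
  congr 2
  exact MvPolynomial.aeval_C _ _

open MvPolynomial in
theorem arc_step {σ ι : Type*} [Fintype σ] [Finite ι] (Ψ : ι → MvPolynomial σ ℂ)
    (f : MvPolynomial σ ℂ) (hp : ∀ j, eval 0 (Ψ j) = 0)
    (harc : ∀ u : σ → ℂ,
      (∀ j, ∑ i, eval 0 (pderiv i (Ψ j)) * u i = 0) →
      ∃ c : σ → PowerSeries ℂ, (∀ i, PowerSeries.coeff 0 (c i) = 0) ∧
        (∀ i, PowerSeries.coeff 1 (c i) = u i) ∧ aeval c f = 0 ∧
        ∀ j, aeval c (Ψ j) = 0) (k : ℕ) :
    f ∈ Ideal.span (Set.range Ψ) ⊔ idealOfVars σ ℂ ^ (k + 1) := by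
  classical
  set I := Ideal.span (Set.range Ψ) with hI
  set m := idealOfVars σ ℂ with hm
  have hXm : ∀ i, (X i : MvPolynomial σ ℂ) ∈ m := fun i => Ideal.subset_span ⟨i, rfl⟩
  induction k with
  | zero =>
    obtain ⟨c, hc0, -, hcf, -⟩ := harc 0 (by simp)
    have h1 := coeff_zero_aeval f c
    rw [hcf, map_zero] at h1
    have h2 : (fun i => PowerSeries.coeff 0 (c i)) = (0 : σ → ℂ) := funext hc0
    rw [h2] at h1
    refine Ideal.mem_sup_right ?_
    rw [mem_pow_idealOfVars_iff']
    intro x hx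
    have hx0 : x = 0 := by
      rw [← Finsupp.degree_eq_zero_iff]; omega
    subst hx0
    rw [← constantCoeff_eq, ← eval_zero]
    exact h1.symm
  | succ k ih =>
    obtain ⟨a, ha, H, hH, rfl⟩ := Submodule.mem_sup.mp ih
    let φ : ι → ((σ → ℂ) →ₗ[ℂ] ℂ) := fun j =>
      ∑ i, (eval 0 (pderiv i (Ψ j))) • LinearMap.proj i
    have hφ : ∀ j u, φ j u = ∑ i, eval 0 (pderiv i (Ψ j)) * u i := by
      intro j u
      simp [φ]
    obtain ⟨P, hP1, hXY⟩ := exists_proj φ
    set J : Ideal (MvPolynomial σ ℂ) := Ideal.span (Set.range fun j => linPoly (φ j)) with hJdef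
    let θ : MvPolynomial σ ℂ →ₐ[ℂ] MvPolynomial σ ℂ :=
      aeval fun i => linPoly ((LinearMap.proj i).comp P)
    have hθX : ∀ i, θ (X i) = linPoly ((LinearMap.proj i).comp P) := fun i => aeval_X _ _
    have hθJ : ∀ a, (AlgHom.id ℂ (MvPolynomial σ ℂ)) a - θ a ∈ J := by
      intro a
      refine algHom_sub_mem _ θ J (fun i => ?_) a
      rw [hθX]
      exact hXY i
    have hθm : ∀ a ∈ m, θ a ∈ m := by
      refine idealOfVars_map_le θ m ?_
      intro i
      rw [hθX, linPoly_apply]
      exact Ideal.sum_mem _ fun l _ => Ideal.mul_mem_left _ _ (hXm l)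
    have h1 : H - θ H ∈ m ^ k * J :=
      sub_mem_pow_mul (AlgHom.id ℂ (MvPolynomial σ ℂ)) θ m m J (fun a h => h) hθm hθJ k H hH
    have hJ : J ≤ I ⊔ m ^ 2 := by
      rw [hJdef, Ideal.span_le]
      rintro _ ⟨j, rfl⟩
      have h2 := sub_linear_mem (Ψ j)
      rw [hp j, map_zero, sub_zero] at h2
      have h3 : linPoly (φ j) = ∑ i, C (eval 0 (pderiv i (Ψ j))) * X i := by
        rw [linPoly_apply]
        refine Finset.sum_congr rfl fun i _ => ?_
        rw [hφ, Finset.sum_eq_single i]
        · simp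
        · intro b _ hb
          simp [hb]
        · simp
      rw [← h3] at h2
      have h4 : linPoly (φ j) = Ψ j - (Ψ j - linPoly (φ j)) := by ring
      rw [SetLike.mem_coe]
      change linPoly (φ j) ∈ _
      rw [h4]
      exact Ideal.sub_mem _ (Ideal.mem_sup_left (Ideal.subset_span ⟨j, rfl⟩))
        (Ideal.mem_sup_right h2)
    have h5 : H - θ H ∈ I ⊔ m ^ (k + 1 + 1) := by
      have h6 : m ^ k * J ≤ I ⊔ m ^ (k + 1 + 1) := by
        refine (Ideal.mul_mono_right hJ).trans ?_
        rw [Ideal.mul_sup]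
        refine sup_le_sup Ideal.mul_le_right ?_
        rw [← pow_add]
      exact h6 h1
    have h7 : θ H ∈ m ^ (k + 1 + 1) := by
      apply mem_pow_succ_of_lines
      · exact map_pow_mem θ m m hθm (k + 1) H hH
      · intro x
        obtain ⟨c, hc0, hc1, hcf, hcΨ⟩ := harc (P x) (fun j => by
          rw [← hφ]; exact hP1 x j)
        have hca : aeval c a = 0 := by
          have : I ≤ RingHom.ker (aeval c : MvPolynomial σ ℂ →ₐ[ℂ] PowerSeries ℂ) := by
            rw [hI, Ideal.span_le]
            rintro _ ⟨j, rfl⟩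
            exact hcΨ j
          exact this ha
        have hcH : aeval c H = 0 := by
          rw [map_add, hca, zero_add] at hcf
          exact hcf
        rw [aeval_lin]
        exact coeff_arc H k hH (P x) c hc0 hc1 hcH
    have h8 : a + H = a + (H - θ H) + θ H := by rw [add_assoc, sub_add_cancel]
    rw [h8]
    exact Ideal.add_mem _ (Ideal.add_mem _ (Ideal.mem_sup_left ha) h5) (Ideal.mem_sup_right h7)


open MvPolynomial in
theorem arc_lemma_zero {σ ι : Type*} [Fintype σ] [Finite ι] (Ψ : ι → MvPolynomial σ ℂ)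
    (f : MvPolynomial σ ℂ) (hp : ∀ j, eval 0 (Ψ j) = 0)
    (harc : ∀ u : σ → ℂ,
      (∀ j, ∑ i, eval 0 (pderiv i (Ψ j)) * u i = 0) →
      ∃ c : σ → PowerSeries ℂ, (∀ i, PowerSeries.coeff 0 (c i) = 0) ∧
        (∀ i, PowerSeries.coeff 1 (c i) = u i) ∧ aeval c f = 0 ∧
        ∀ j, aeval c (Ψ j) = 0) :
    ∃ h : MvPolynomial σ ℂ, eval 0 h ≠ 0 ∧ h * f ∈ Ideal.span (Set.range Ψ) := by
  set I := Ideal.span (Set.range Ψ) with hI
  set m := idealOfVars σ ℂ with hm
  have hall : ∀ k, f ∈ I ⊔ m ^ k := by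
    intro k
    cases k with
    | zero => simp
    | succ k => exact arc_step Ψ f hp harc k
  let M := MvPolynomial σ ℂ ⧸ I
  let mk : MvPolynomial σ ℂ →ₗ[MvPolynomial σ ℂ] M := Submodule.mkQ I
  have hx : mk f ∈ (⨅ i : ℕ, m ^ i • ⊤ : Submodule (MvPolynomial σ ℂ) M) := by
    rw [Submodule.mem_iInf]
    intro k
    obtain ⟨a, ha, b, hb, hab⟩ := Submodule.mem_sup.mp (hall k)
    have h1 : mk f = b • mk 1 := by
      rw [← hab, map_add, ← map_smul, smul_eq_mul, mul_one]
      have : mk a = 0 := (Submodule.Quotient.mk_eq_zero I).mpr ha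
      rw [this, zero_add]
    rw [h1]
    exact Submodule.smul_mem_smul hb trivial
  obtain ⟨r, hr⟩ := (Ideal.mem_iInf_smul_pow_eq_bot_iff m (mk f)).mp hx
  refine ⟨1 - (r : MvPolynomial σ ℂ), ?_, ?_⟩
  · have h0 : eval 0 (r : MvPolynomial σ ℂ) = 0 := by
      have := (mem_pow_idealOfVars_iff' 1 (r : MvPolynomial σ ℂ)).mp (by
        rw [pow_one]; exact r.2) 0 (by simp)
      rw [← constantCoeff_eq, ← eval_zero] at this
      exact this
    rw [map_sub, map_one, h0, sub_zero]
    exact one_ne_zero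
  · have h2 : mk ((1 - (r : MvPolynomial σ ℂ)) * f) = 0 := by
      have : (1 - (r : MvPolynomial σ ℂ)) * f = f - (r : MvPolynomial σ ℂ) • f := by
        rw [sub_mul, one_mul, smul_eq_mul]
      rw [this, map_sub, map_smul, hr, sub_self]
    exact (Submodule.Quotient.mk_eq_zero I).mp h2

/-- translation of variables -/
noncomputable def transl {σ : Type*} (p : σ → ℂ) : MvPolynomial σ ℂ →ₐ[ℂ] MvPolynomial σ ℂ :=
  MvPolynomial.aeval fun i => MvPolynomial.X i + MvPolynomial.C (p i)

theorem transl_X {σ : Type*} (p : σ → ℂ) (i : σ) :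
    transl p (MvPolynomial.X i) = MvPolynomial.X i + MvPolynomial.C (p i) :=
  MvPolynomial.aeval_X _ _

theorem transl_C {σ : Type*} (p : σ → ℂ) (a : ℂ) :
    transl p (MvPolynomial.C a) = MvPolynomial.C a :=
  MvPolynomial.aeval_C _ _

theorem transl_neg_transl {σ : Type*} (p : σ → ℂ) (q : MvPolynomial σ ℂ) :
    transl (-p) (transl p q) = q := by
  induction q using MvPolynomial.induction_on with
  | C a => rw [transl_C, transl_C]
  | add a b ha hb => rw [map_add, map_add, ha, hb]
  | mul_X a i ha =>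
    rw [map_mul, map_mul, ha, transl_X, map_add, transl_X, transl_C, Pi.neg_apply, map_neg,
      neg_add_cancel_right]

theorem eval_transl {σ : Type*} (p p' : σ → ℂ) (q : MvPolynomial σ ℂ) :
    MvPolynomial.eval p' (transl p q) = MvPolynomial.eval (p' + p) q := by
  induction q using MvPolynomial.induction_on with
  | C a => rw [transl_C, MvPolynomial.eval_C, MvPolynomial.eval_C]
  | add a b ha hb => rw [map_add, map_add, map_add, ha, hb]
  | mul_X a i ha =>
    rw [map_mul, map_mul, map_mul, ha, transl_X, map_add, MvPolynomial.eval_X,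
      MvPolynomial.eval_C, MvPolynomial.eval_X, Pi.add_apply]

theorem pderiv_transl {σ : Type*} (p : σ → ℂ) (q : MvPolynomial σ ℂ) (i : σ) :
    MvPolynomial.pderiv i (transl p q) = transl p (MvPolynomial.pderiv i q) := by
  classical
  induction q using MvPolynomial.induction_on with
  | C a => rw [transl_C, MvPolynomial.pderiv_C, map_zero]
  | add a b ha hb => rw [map_add, map_add, map_add, map_add, ha, hb]
  | mul_X a j ha =>
    rw [map_mul, Derivation.leibniz, Derivation.leibniz, ha, transl_X, map_add,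
      MvPolynomial.pderiv_C, add_zero, smul_eq_mul, smul_eq_mul, smul_eq_mul, smul_eq_mul,
      map_add, map_mul, map_mul, transl_X]
    congr 2
    by_cases hij : i = j
    · subst hij
      rw [MvPolynomial.pderiv_X_self, map_one]
    · rw [MvPolynomial.pderiv_X_of_ne (Ne.symm hij), map_zero]

theorem aeval_transl {σ : Type*} (p : σ → ℂ) (c : σ → PowerSeries ℂ) (q : MvPolynomial σ ℂ) :
    MvPolynomial.aeval (fun i => c i - PowerSeries.C (p i)) (transl p q) =
      MvPolynomial.aeval c q := by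
  induction q using MvPolynomial.induction_on with
  | C a => rw [transl_C, MvPolynomial.aeval_C, MvPolynomial.aeval_C]
  | add a b ha hb => rw [map_add, map_add, map_add, ha, hb]
  | mul_X a i ha =>
    have h1 : (MvPolynomial.aeval fun i => c i - PowerSeries.C (p i))
        (MvPolynomial.C (p i) : MvPolynomial σ ℂ) = PowerSeries.C (p i) :=
      MvPolynomial.aeval_C _ _
    rw [map_mul, map_mul, map_mul, ha, transl_X, map_add, MvPolynomial.aeval_X,
      MvPolynomial.aeval_X, h1, sub_add_cancel]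

theorem arc_lemma {σ ι : Type*} [Fintype σ] [Finite ι] (Ψ : ι → MvPolynomial σ ℂ)
    (f : MvPolynomial σ ℂ) (p : σ → ℂ) (hp : ∀ j, MvPolynomial.eval p (Ψ j) = 0)
    (harc : ∀ u : σ → ℂ,
      (∀ j, ∑ i, MvPolynomial.eval p (MvPolynomial.pderiv i (Ψ j)) * u i = 0) →
      ∃ c : σ → PowerSeries ℂ, (∀ i, PowerSeries.coeff 0 (c i) = p i) ∧
        (∀ i, PowerSeries.coeff 1 (c i) = u i) ∧ MvPolynomial.aeval c f = 0 ∧
        ∀ j, MvPolynomial.aeval c (Ψ j) = 0) :
    ∃ h : MvPolynomial σ ℂ, MvPolynomial.eval p h ≠ 0 ∧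
      h * f ∈ Ideal.span (Set.range Ψ) := by
  obtain ⟨h, hh0, hhf⟩ := arc_lemma_zero (fun j => transl p (Ψ j)) (transl p f)
    (fun j => by rw [eval_transl, zero_add, hp j])
    (by
      intro u hu
      obtain ⟨c, hc0, hc1, hcf, hcΨ⟩ := harc u (fun j => by
        rw [← hu j]
        refine Finset.sum_congr rfl fun i _ => ?_
        rw [pderiv_transl, eval_transl, zero_add])
      refine ⟨fun i => c i - PowerSeries.C (p i), ?_, ?_, ?_, ?_⟩
      · intro i
        rw [map_sub, hc0 i]
        simp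
      · intro i
        rw [map_sub, hc1 i, PowerSeries.coeff_C]
        simp
      · rw [aeval_transl, hcf]
      · intro j
        rw [aeval_transl, hcΨ])
  refine ⟨transl (-p) h, ?_, ?_⟩
  · rw [eval_transl, add_neg_cancel]
    exact hh0
  · have h1 := Ideal.mem_map_of_mem (transl (-p)) hhf
    rw [Ideal.map_span, map_mul, transl_neg_transl, ← Set.range_comp] at h1
    have h2 : (transl (-p)) ∘ (fun j => transl p (Ψ j)) = Ψ := by
      funext j
      exact transl_neg_transl p (Ψ j)
    rwa [h2] at h1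

end Vale.Agent.P002
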