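import Vale.Agent.P002.Defs

namespace Vale.Agent.P002

open Matrix

variable {r : ℕ}

/-- Polynomials vanishing on the scaled integral unimodular matrices. -/
def VanT (f : MvPolynomial (Fin r × Fin r) ℂ) : Prop :=
  ∀ (c : ℂˣ) (X : SpecialLinearGroup (Fin r) ℤ),
    MvPolynomial.eval (fun p => (c : ℂ) * ((X.1 p.1 p.2 : ℤ) : ℂ)) f = 0

/-- The Zariski closure of the scaled integral unimodular matrices. -/
def ZT (M : Mat r ℂ) : Prop :=
  ∀ f : MvPolynomial (Fin r × Fin r) ℂ, VanT f →
    MvPolynomial.eval (fun p => M p.1 p.2) f = 0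

/-- Substitution of `A * M` for `M`. -/
noncomputable def lsub (A : Mat r ℂ) :
    MvPolynomial (Fin r × Fin r) ℂ →ₐ[ℂ] MvPolynomial (Fin r × Fin r) ℂ :=
  MvPolynomial.aeval fun p => ∑ k, MvPolynomial.C (A p.1 k) * MvPolynomial.X (k, p.2)

theorem eval_lsub (A M : Mat r ℂ) (f : MvPolynomial (Fin r × Fin r) ℂ) :
    MvPolynomial.eval (fun p => M p.1 p.2) (lsub A f) =
      MvPolynomial.eval (fun p => (A * M) p.1 p.2) f := by
  induction f using MvPolynomial.induction_on with
  | C a => simp [lsub]
  | add f g hf hg => simp [map_add, hf, hg]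
  | mul_X f p hf =>
    rw [map_mul, map_mul, map_mul, hf]
    congr 1
    simp [lsub, Matrix.mul_apply]

theorem ZT.scalar_mul {M : Mat r ℂ} (hM : ZT M) (c : ℂˣ) : ZT ((c : ℂ) • M) := by
  intro f hf
  have h1 : VanT (lsub ((c : ℂ) • (1 : Mat r ℂ)) f) := by
    intro c' X
    have := eval_lsub ((c : ℂ) • (1 : Mat r ℂ))
      (Matrix.of fun i j => (c' : ℂ) * ((X.1 i j : ℤ) : ℂ)) f
    simp only [Matrix.of_apply] at this
    rw [this]
    have h2 := hf (c * c') X
    rw [← h2]
    congr 2
    ext p
    simp [mul_assoc]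
  have h2 := hM _ h1
  rw [eval_lsub] at h2
  rw [← h2]
  congr 2
  simp

theorem ZT.transvection_int {M : Mat r ℂ} (hM : ZT M) {i j : Fin r} (hij : i ≠ j) (m : ℤ) :
    ZT (transvection i j (m : ℂ) * M) := by
  intro f hf
  have h1 : VanT (lsub (transvection i j (m : ℂ)) f) := by
    intro c' X
    have := eval_lsub (transvection i j (m : ℂ))
      (Matrix.of fun i j => (c' : ℂ) * ((X.1 i j : ℤ) : ℂ)) f
    simp only [Matrix.of_apply] at this
    rw [this]
    have h2 := hf c' (SpecialLinearGroup.transvection hij m * X)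
    rw [← h2]
    congr 2
    ext p
    have h3 : (SpecialLinearGroup.transvection hij m * X).1 =
      transvection i j m * X.1 := rfl
    rw [h3]
    by_cases hp : p.1 = i
    · rw [hp, transvection_mul_apply_same, transvection_mul_apply_same]
      simp only [Matrix.of_apply]
      push_cast
      ring
    · rw [transvection_mul_apply_of_ne _ _ _ _ hp, transvection_mul_apply_of_ne _ _ _ _ hp]
      simp only [Matrix.of_apply]
  have h2 := hM _ h1
  rw [eval_lsub] at h2
  exact h2

/-- A polynomial along a transvection. -/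
noncomputable def linePoly (M : Mat r ℂ) (i j : Fin r) (f : MvPolynomial (Fin r × Fin r) ℂ) :
    Polynomial ℂ :=
  MvPolynomial.aeval (fun p => Polynomial.C (M p.1 p.2) +
    if p.1 = i then Polynomial.X * Polynomial.C (M j p.2) else 0) f

theorem eval_linePoly (M : Mat r ℂ) (i j : Fin r)
    (f : MvPolynomial (Fin r × Fin r) ℂ) (t : ℂ) :
    (linePoly M i j f).eval t =
      MvPolynomial.eval (fun p => (transvection i j t * M) p.1 p.2) f := by
  induction f using MvPolynomial.induction_on with
  | C a => simp [linePoly]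
  | add f g hf hg =>
    rw [map_add, ← hf, ← hg]
    simp [linePoly]
  | mul_X f p hf =>
    rw [map_mul, ← hf]
    have : linePoly M i j (f * MvPolynomial.X p) = linePoly M i j f *
        (Polynomial.C (M p.1 p.2) +
          if p.1 = i then Polynomial.X * Polynomial.C (M j p.2) else 0) := by
      simp [linePoly]
    rw [this, Polynomial.eval_mul]
    congr 1
    rw [MvPolynomial.eval_X]
    by_cases hp : p.1 = i
    · rw [if_pos hp, hp, transvection_mul_apply_same]
      simp only [Polynomial.eval_add, Polynomial.eval_mul, Polynomial.eval_C, Polynomial.eval_X]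
    · rw [if_neg hp, transvection_mul_apply_of_ne _ _ _ _ hp]
      simp

theorem ZT.transvection {M : Mat r ℂ} (hM : ZT M) {i j : Fin r} (hij : i ≠ j) (t : ℂ) :
    ZT (Matrix.transvection i j t * M) := by
  intro f hf
  have h0 : linePoly M i j f = 0 := by
    apply Polynomial.eq_zero_of_infinite_isRoot
    apply Set.Infinite.mono (s := Set.range fun m : ℤ => (m : ℂ))
    · rintro _ ⟨m, rfl⟩
      change (linePoly M i j f).eval (m : ℂ) = 0
      rw [eval_linePoly]
      exact hM.transvection_int hij m f hf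
    · exact Set.infinite_range_of_injective Int.cast_injective
  rw [← eval_linePoly, h0, Polynomial.eval_zero]

theorem tmul (i j : Fin r) (s : ℂ) (M : Mat r ℂ) (a b : Fin r) :
    (Matrix.transvection i j s * M) a b = M a b + if a = i then s * M j b else 0 := by
  by_cases ha : a = i
  · rw [if_pos ha, ha, transvection_mul_apply_same]
  · rw [if_neg ha, transvection_mul_apply_of_ne _ _ _ _ ha, add_zero]

/-- Whitehead's identity. -/
theorem whitehead {i j : Fin r} (hij : i ≠ j) (s : ℂ) (hs : s ≠ 0) (M : Mat r ℂ) :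
    diagonal (fun k => if k = i then s else if k = j then s⁻¹ else 1) * M =
      Matrix.transvection i j (s - 1) * (Matrix.transvection j i 1 *
        (Matrix.transvection i j (s⁻¹ - 1) * (Matrix.transvection j i (-s) * M))) := by
  have hji : j ≠ i := hij.symm
  ext a b
  rw [diagonal_mul]
  simp only [tmul]
  by_cases ha : a = i
  · subst ha
    simp only [if_true, if_neg hij, if_neg hji]
    field_simp
    ring
  · by_cases ha' : a = j
    · subst ha'
      simp only [if_true, if_neg hij, if_neg hji]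
      field_simp
      ring
    · simp only [if_neg ha, if_neg ha', one_mul, add_zero]

/-- Left multiplication by `A` preserves the closure. -/
def QT (A : Mat r ℂ) : Prop := ∀ M, ZT M → ZT (A * M)

theorem QT.mul {A B : Mat r ℂ} (hA : QT A) (hB : QT B) : QT (A * B) := by
  intro M hM
  rw [Matrix.mul_assoc]
  exact hA _ (hB _ hM)

theorem QT.transvection {i j : Fin r} (hij : i ≠ j) (t : ℂ) : QT (Matrix.transvection i j t) :=
  fun _ hM => hM.transvection hij t

theorem QT.scalar (c : ℂˣ) : QT ((c : ℂ) • (1 : Mat r ℂ)) := by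
  intro M hM
  rw [Matrix.smul_mul, Matrix.one_mul]
  exact hM.scalar_mul c

theorem QT.one : QT (1 : Mat r ℂ) := by
  intro M hM
  rwa [Matrix.one_mul]

theorem QT.white {i j : Fin r} (hij : i ≠ j) (s : ℂ) (hs : s ≠ 0) :
    QT (diagonal (fun k => if k = i then s else if k = j then s⁻¹ else 1)) := by
  intro M hM
  rw [whitehead hij s hs]
  exact (((hM.transvection hij.symm _).transvection hij _).transvection hij.symm _).transvection
    hij _

theorem QT.diag_aux (i₀ : Fin r) (s : Fin r → ℂ) (hs : ∀ i, s i ≠ 0) (t : Finset (Fin r))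
    (ht : i₀ ∉ t) :
    QT (diagonal (fun k => if k = i₀ then (∏ i ∈ t, s i)⁻¹ else if k ∈ t then s k else 1)) := by
  induction t using Finset.induction_on with
  | empty =>
    have : (diagonal (fun k => if k = i₀ then (∏ i ∈ (∅ : Finset (Fin r)), s i)⁻¹ else
        if k ∈ (∅ : Finset (Fin r)) then s k else 1)) = (1 : Mat r ℂ) := by
      rw [← diagonal_one]
      congr 1
      ext k
      simp
    rw [this]
    exact QT.one
  | insert a t ha ih =>
    have h1 : a ≠ i₀ := fun h => ht (h ▸ Finset.mem_insert_self a t)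
    have h2 : i₀ ∉ t := fun h => ht (Finset.mem_insert_of_mem h)
    have h3 := (QT.white h1 (s a) (hs a)).mul (ih h2)
    rw [diagonal_mul_diagonal] at h3
    refine (congrArg (fun d : Fin r → ℂ => QT (diagonal d)) (funext fun k => ?_)).mpr h3
    by_cases hk : k = i₀
    · subst hk
      rw [if_pos rfl, if_neg (Ne.symm h1), if_pos rfl, if_pos rfl, Finset.prod_insert ha, mul_inv]
    · rw [if_neg hk, if_neg hk, if_neg hk]
      by_cases hka : k = a
      · subst hka
        rw [if_pos (Finset.mem_insert_self k t), if_pos rfl, if_neg ha, mul_one]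
      · rw [if_neg hka, one_mul]
        congr 1
        simp [hka]

theorem QT.diag (hr : 0 < r) (s : Fin r → ℂ) (hs : ∀ i, s i ≠ 0) (hp : ∏ i, s i = 1) :
    QT (diagonal s) := by
  have h := QT.diag_aux ⟨0, hr⟩ s hs (Finset.univ.erase ⟨0, hr⟩) (Finset.notMem_erase _ _)
  refine (congrArg (fun d : Fin r → ℂ => QT (diagonal d)) (funext fun k => ?_)).mpr h
  by_cases hk : k = ⟨0, hr⟩
  · subst hk
    rw [if_pos rfl]
    rw [← Finset.mul_prod_erase Finset.univ s (Finset.mem_univ ⟨0, hr⟩)] at hp
    exact eq_inv_of_mul_eq_one_left hp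
  · rw [if_neg hk, if_pos (Finset.mem_erase.mpr ⟨hk, Finset.mem_univ k⟩)]

theorem QT.of_det_ne_zero (hr : 0 < r) (M : Mat r ℂ) (hM : M.det ≠ 0) : QT M := by
  refine diagonal_transvection_induction QT M ?_ ?_ ?_
  · intro D hD
    obtain ⟨c, hc⟩ := IsAlgClosed.exists_pow_nat_eq M.det hr
    have hc0 : c ≠ 0 := by
      rintro rfl
      rw [zero_pow hr.ne'] at hc
      exact hM hc.symm
    have hD' : ∏ i, D i = c ^ r := by
      rw [hc, ← hD, det_diagonal]
    have hDi : ∀ i, D i ≠ 0 := by
      intro i hi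
      apply pow_ne_zero r hc0
      rw [← hD']
      exact Finset.prod_eq_zero (Finset.mem_univ i) hi
    have h1 : (diagonal D : Mat r ℂ) =
        ((Units.mk0 c hc0 : ℂˣ) : ℂ) • (1 : Mat r ℂ) * diagonal (fun i => c⁻¹ * D i) := by
      rw [Matrix.smul_mul, Matrix.one_mul, ← diagonal_smul]
      congr 1
      ext i
      simp [hc0]
    rw [h1]
    refine (QT.scalar _).mul (QT.diag hr _ (fun i => mul_ne_zero (inv_ne_zero hc0) (hDi i)) ?_)
    rw [Finset.prod_mul_distrib, hD', Finset.prod_const, Finset.card_univ, Fintype.card_fin,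
      ← mul_pow, inv_mul_cancel₀ hc0, one_pow]
  · intro t
    exact QT.transvection t.hij t.c
  · intro A B hA hB
    exact hA.mul hB

theorem ZT.one : ZT (1 : Mat r ℂ) := by
  intro f hf
  have := hf 1 1
  rw [← this]
  congr 2
  ext p
  have h : (1 : SpecialLinearGroup (Fin r) ℤ).1 = 1 := rfl
  rw [h, Matrix.one_apply, Matrix.one_apply]
  split <;> simp

theorem ZT.of_det_ne_zero (M : Mat r ℂ) (hM : M.det ≠ 0) : ZT M := by
  rcases Nat.eq_zero_or_pos r with hr | hr
  · subst hr
    have : M = 1 := Subsingleton.elim _ _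
    rw [this]
    exact ZT.one
  · have h := QT.of_det_ne_zero hr M hM 1 ZT.one
    rwa [Matrix.mul_one] at h

theorem scaledSL_dense (f : MvPolynomial (Fin r × Fin r) ℂ)
    (hf : ∀ (c : ℂˣ) (X : SpecialLinearGroup (Fin r) ℤ),
      MvPolynomial.eval (fun p => (c : ℂ) * ((X.1 p.1 p.2 : ℤ) : ℂ)) f = 0) : f = 0 := by
  have h1 : f * (mvPolynomialX (Fin r) (Fin r) ℂ).det = 0 := by
    apply MvPolynomial.funext
    intro x
    rw [map_mul, map_zero]
    have h2 : MvPolynomial.eval x (mvPolynomialX (Fin r) (Fin r) ℂ).det =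
        (Matrix.of fun i j => x (i, j)).det := by
      rw [RingHom.map_det]
      congr 1
      ext i j
      simp [mvPolynomialX]
    by_cases h3 : (Matrix.of fun i j => x (i, j)).det = 0
    · rw [h2, h3, mul_zero]
    · have h4 := ZT.of_det_ne_zero _ h3 f hf
      simp only [Matrix.of_apply] at h4
      have h5 : (fun p : Fin r × Fin r => x (p.1, p.2)) = x := rfl
      rw [h5] at h4
      rw [h4, zero_mul]
  rcases mul_eq_zero.mp h1 with h | h
  · exact h
  · exact absurd h (det_mvPolynomialX_ne_zero (Fin r) ℂ)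

variable {g : ℕ}

/-- The version for several matrices. -/
theorem multi_dense (P : MvPolynomial (Fin g × Fin r × Fin r) ℂ)
    (hP : ∀ (c : Fin g → ℂˣ) (X : Fin g → SpecialLinearGroup (Fin r) ℤ),
      MvPolynomial.eval (fun p => (c p.1 : ℂ) * (((X p.1).1 p.2.1 p.2.2 : ℤ) : ℂ)) P = 0) :
    P = 0 := by
  have key : ∀ (t : Finset (Fin g)) (M : Fin g → Mat r ℂ),
      (∀ i, i ∉ t → ∃ (c : ℂˣ) (X : SpecialLinearGroup (Fin r) ℤ), ∀ a b,
        M i a b = (c : ℂ) * ((X.1 a b : ℤ) : ℂ)) →
      MvPolynomial.eval (fun p => M p.1 p.2.1 p.2.2) P = 0 := by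
    intro t
    induction t using Finset.induction_on with
    | empty =>
      intro M hM
      choose c X h using fun i => hM i (Finset.notMem_empty i)
      rw [← hP c X]
      congr 2
      ext p
      exact h p.1 p.2.1 p.2.2
    | insert a t ha ih =>
      intro M hM
      obtain ⟨Pa, hPa⟩ : ∃ Pa : MvPolynomial (Fin r × Fin r) ℂ, Pa =
        MvPolynomial.aeval (fun p : Fin g × Fin r × Fin r =>
          if p.1 = a then MvPolynomial.X p.2 else MvPolynomial.C (M p.1 p.2.1 p.2.2)) P :=
        ⟨_, rfl⟩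
      have h1 : ∀ N : Mat r ℂ, MvPolynomial.eval (fun p => N p.1 p.2) Pa =
          MvPolynomial.eval (fun p => (Function.update M a N) p.1 p.2.1 p.2.2) P := by
        intro N
        rw [hPa]
        clear hP ih hM hPa
        induction P using MvPolynomial.induction_on with
        | C x => simp
        | add f g hf hg => simp only [map_add, hf, hg]
        | mul_X f p hf =>
          rw [map_mul, map_mul, map_mul, hf]
          congr 1
          rw [MvPolynomial.aeval_X, MvPolynomial.eval_X]
          by_cases hp : p.1 = a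
          · rw [if_pos hp, MvPolynomial.eval_X, hp, Function.update_self]
          · rw [if_neg hp, MvPolynomial.eval_C, Function.update_of_ne hp]
      have h2 : Pa = 0 := by
        refine scaledSL_dense Pa fun c X => ?_
        have h3 := h1 (Matrix.of fun i j => (c : ℂ) * ((X.1 i j : ℤ) : ℂ))
        simp only [Matrix.of_apply] at h3
        rw [h3]
        apply ih
        intro i hi
        by_cases hia : i = a
        · subst hia
          refine ⟨c, X, fun x y => ?_⟩
          rw [Function.update_self]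
          rfl
        · rw [Function.update_of_ne hia]
          apply hM
          rw [Finset.mem_insert]
          push Not
          exact ⟨hia, hi⟩
      have h3 := h1 (M a)
      rw [Function.update_eq_self] at h3
      rw [← h3, h2, map_zero]
  apply MvPolynomial.funext
  intro x
  rw [map_zero]
  exact key Finset.univ (fun i => Matrix.of fun a b => x (i, a, b))
    (fun i hi => absurd (Finset.mem_univ i) hi)

theorem single_mem_adjoin (d : Fin r → ℂ) (hd : Function.Injective d) (i : Fin r) :
    Matrix.single i i (1 : ℂ) ∈ Algebra.adjoin ℂ {(diagonal d : Mat r ℂ)} := by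
  have h1 : (Pi.single i 1 : Fin r → ℂ) ∈ Algebra.adjoin ℂ {d} := by
    have h2 : (∏ k ∈ Finset.univ.erase i, (d i - d k)) ≠ 0 := by
      rw [Finset.prod_ne_zero_iff]
      intro k hk
      rw [sub_ne_zero]
      exact fun h => (Finset.ne_of_mem_erase hk) (hd h).symm
    have h3 : (Pi.single i 1 : Fin r → ℂ) = (∏ k ∈ Finset.univ.erase i, (d i - d k))⁻¹ •
        ∏ k ∈ Finset.univ.erase i, (d - algebraMap ℂ (Fin r → ℂ) (d k)) := by
      ext j
      rw [Pi.smul_apply, Finset.prod_apply]
      by_cases hj : j = i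
      · subst hj
        rw [Pi.single_eq_same]
        simp only [Pi.sub_apply, Pi.algebraMap_apply, Algebra.algebraMap_self, RingHom.id_apply,
          smul_eq_mul]
        rw [inv_mul_cancel₀ h2]
      · rw [Pi.single_eq_of_ne hj]
        have h4 : ∏ c ∈ Finset.univ.erase i, (d - (algebraMap ℂ (Fin r → ℂ)) (d c)) j = 0 := by
          refine Finset.prod_eq_zero (Finset.mem_erase.mpr ⟨hj, Finset.mem_univ j⟩) ?_
          simp
        rw [h4, smul_zero]
    rw [h3]
    apply Subalgebra.smul_mem
    apply Subalgebra.prod_mem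
    intro k _
    apply Subalgebra.sub_mem
    · exact Algebra.subset_adjoin rfl
    · exact Subalgebra.algebraMap_mem _ _
  have h2 : (diagonalAlgHom ℂ : (Fin r → ℂ) →ₐ[ℂ] Mat r ℂ) (Pi.single i 1) ∈
      (Algebra.adjoin ℂ {d}).map (diagonalAlgHom ℂ) := Subalgebra.mem_map.mpr ⟨_, h1, rfl⟩
  rw [AlgHom.map_adjoin, Set.image_singleton] at h2
  have h3 : (diagonalAlgHom ℂ : (Fin r → ℂ) →ₐ[ℂ] Mat r ℂ) (Pi.single i 1) =
      Matrix.single i i (1 : ℂ) := by
    rw [diagonalAlgHom_apply, diagonal_single]
  rw [h3] at h2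
  exact h2

theorem adjoin_pair (A : Fin g → Mat r ℂ) (i₀ i₁ : Fin g)
    (h0 : A i₀ = diagonal fun k : Fin r => ((k : ℕ) : ℂ)) (h1 : A i₁ = Matrix.of fun _ _ => 1) :
    Algebra.adjoin ℂ (Set.range A) = ⊤ := by
  have hd : Function.Injective fun k : Fin r => ((k : ℕ) : ℂ) := by
    intro a b hab
    exact Fin.ext (Nat.cast_injective hab)
  have hs : ∀ i, Matrix.single i i (1 : ℂ) ∈ Algebra.adjoin ℂ (Set.range A) := by
    intro i
    refine Algebra.adjoin_mono ?_ (single_mem_adjoin _ hd i)
    rintro _ rfl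
    exact ⟨i₀, h0⟩
  have hJ : (Matrix.of fun _ _ => 1 : Mat r ℂ) ∈ Algebra.adjoin ℂ (Set.range A) :=
    Algebra.subset_adjoin ⟨i₁, h1⟩
  have hij : ∀ i j, Matrix.single i j (1 : ℂ) ∈ Algebra.adjoin ℂ (Set.range A) := by
    intro i j
    have : Matrix.single i j (1 : ℂ) =
        Matrix.single i i (1 : ℂ) * (Matrix.of fun _ _ => 1 : Mat r ℂ) * Matrix.single j j 1 := by
      rw [Matrix.single_mul_mul_single]
      simp
    rw [this]
    exact Subalgebra.mul_mem _ (Subalgebra.mul_mem _ (hs i) hJ) (hs j)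
  rw [eq_top_iff]
  intro M _
  rw [matrix_eq_sum_single M]
  refine Subalgebra.sum_mem _ fun i _ => Subalgebra.sum_mem _ fun j _ => ?_
  have : Matrix.single i j (M i j) = M i j • Matrix.single i j (1 : ℂ) := by
    rw [Matrix.smul_single, smul_eq_mul, mul_one]
  rw [this]
  exact Subalgebra.smul_mem _ (hij i j) _

/-- A polynomial condition that implies generation of the full matrix algebra. -/
theorem exists_generating_poly (hg : 2 ≤ g) :
    ∃ h : MvPolynomial (Fin g × Fin r × Fin r) ℂ, h ≠ 0 ∧ ∀ A : Fin g → Mat r ℂ,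
      MvPolynomial.eval (fun p => A p.1 p.2.1 p.2.2) h ≠ 0 →
        Algebra.adjoin ℂ (Set.range A) = ⊤ := by
  obtain ⟨B, hB⟩ : ∃ B : Fin g → Mat r ℂ, Algebra.adjoin ℂ (Set.range B) = ⊤ := by
    refine ⟨fun i => if (i : ℕ) = 0 then diagonal fun k : Fin r => ((k : ℕ) : ℂ) else
      Matrix.of fun _ _ => 1, ?_⟩
    refine adjoin_pair _ ⟨0, by omega⟩ ⟨1, by omega⟩ ?_ ?_
    · simp
    · simp
  have hspan : Submodule.span ℂ (Set.range (FreeMonoid.lift B)) = ⊤ := by
    have h1 : Submodule.span ℂ (Submonoid.closure (Set.range B) : Set (Mat r ℂ)) = ⊤ := by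
      rw [← Algebra.adjoin_eq_span, hB, Algebra.top_toSubmodule]
    rw [← h1]
    congr 1
    rw [← FreeMonoid.mrange_lift]
    rfl
  obtain ⟨κ, a, _, hsp, hli⟩ := exists_linearIndependent' ℂ (FreeMonoid.lift B)
  rw [hspan] at hsp
  let b : Module.Basis κ ℂ (Mat r ℂ) := Module.Basis.mk hli hsp.ge
  let e : κ ≃ Fin r × Fin r := b.indexEquiv (Matrix.stdBasis ℂ (Fin r) (Fin r))
  let w : Fin r × Fin r → FreeMonoid (Fin g) := a ∘ e.symm
  have hw : LinearIndependent ℂ (fun k => FreeMonoid.lift B (w k)) :=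
    hli.comp e.symm e.symm.injective
  let G : Fin g → Matrix (Fin r) (Fin r) (MvPolynomial (Fin g × Fin r × Fin r) ℂ) :=
    fun i => Matrix.of fun a b => MvPolynomial.X (i, a, b)
  let Mk : Matrix (Fin r × Fin r) (Fin r × Fin r) (MvPolynomial (Fin g × Fin r × Fin r) ℂ) :=
    Matrix.of fun k p => (FreeMonoid.lift G (w k)) p.1 p.2
  have hev : ∀ A : Fin g → Mat r ℂ,
      MvPolynomial.eval (fun p => A p.1 p.2.1 p.2.2) Mk.det =
        (Matrix.of fun k p : Fin r × Fin r => (FreeMonoid.lift A (w k)) p.1 p.2).det := by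
    intro A
    rw [RingHom.map_det]
    congr 1
    ext k p
    have h1 : ∀ u : FreeMonoid (Fin g),
        (MvPolynomial.eval (fun p : Fin g × Fin r × Fin r => A p.1 p.2.1 p.2.2)).mapMatrix
          (FreeMonoid.lift G u) = FreeMonoid.lift A u := by
      intro u
      induction u using FreeMonoid.inductionOn' with
      | one => simp
      | of_mul x xs ih =>
        rw [map_mul, map_mul, map_mul, ih]
        congr 1
        rw [FreeMonoid.lift_eval_of, FreeMonoid.lift_eval_of]
        ext i j
        simp [G]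
    have h2 := congrFun (congrFun (h1 (w k)) p.1) p.2
    exact h2
  refine ⟨Mk.det, ?_, ?_⟩
  · intro h0
    have h1 := hev B
    rw [h0, map_zero] at h1
    obtain ⟨v, hv, hv'⟩ := Matrix.exists_vecMul_eq_zero_iff.mpr h1.symm
    apply hv
    have h2 : ∑ k, v k • FreeMonoid.lift B (w k) = 0 := by
      ext i j
      have h3 := congrFun hv' (i, j)
      rw [Matrix.sum_apply]
      simpa [Matrix.vecMul, dotProduct] using h3
    have h3 := (Fintype.linearIndependent_iff.mp hw) v h2
    ext k
    exact h3 k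
  · intro A hA
    rw [hev A] at hA
    have hli' : LinearIndependent ℂ (fun k => FreeMonoid.lift A (w k)) := by
      rw [Fintype.linearIndependent_iff]
      intro v hv k
      by_contra hk
      apply hA
      apply Matrix.exists_vecMul_eq_zero_iff.mp
      refine ⟨v, fun h => hk (congrFun h k), ?_⟩
      ext p
      have h3 := congrFun (congrFun hv p.1) p.2
      rw [Matrix.sum_apply] at h3
      simpa [Matrix.vecMul, dotProduct] using h3
    have hsp' : Submodule.span ℂ (Set.range fun k => FreeMonoid.lift A (w k)) = ⊤ := by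
      apply hli'.span_eq_top_of_card_eq_finrank'
      rw [Module.finrank_matrix]
      simp
    have h4 : Submodule.span ℂ (Set.range fun k => FreeMonoid.lift A (w k)) ≤
        Subalgebra.toSubmodule (Algebra.adjoin ℂ (Set.range A)) := by
      rw [Submodule.span_le]
      rintro _ ⟨k, rfl⟩
      have h5 : FreeMonoid.lift A (w k) ∈ Submonoid.closure (Set.range A) := by
        rw [← FreeMonoid.mrange_lift]
        exact ⟨w k, rfl⟩
      change FreeMonoid.lift A (w k) ∈ Algebra.adjoin ℂ (Set.range A)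
      exact (Submonoid.closure_le (S := (Algebra.adjoin ℂ (Set.range A)).toSubsemiring.toSubmonoid)).mpr
        Algebra.subset_adjoin h5
    rw [hsp'] at h4
    rw [eq_top_iff]
    intro M _
    exact h4 (Submodule.mem_top (x := M))

theorem evalW_baseChange {S T : Type*} [CommRing S] [CommRing T] [Algebra ℂ S] [Algebra ℂ T]
    (θ : S →ₐ[ℂ] T) (x : F g →* (Mat r S)ˣ) (f : MvPolynomial (F g × Fin r × Fin r) ℂ) :
    evalW (baseChange θ.toRingHom x) f = θ (evalW x f) := by
  unfold evalW
  rw [← AlgHom.comp_apply, MvPolynomial.comp_aeval]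
  rfl

theorem baseChange_handlebody {S T : Type*} [CommRing S] [CommRing T] (θ : S →+* T)
    (A : Fin g → (Mat r S)ˣ) (A' : Fin g → (Mat r T)ˣ)
    (h : ∀ i, (A' i : Mat r T) = (A i : Mat r S).map θ) :
    baseChange θ (handlebody A) = handlebody A' := by
  unfold handlebody baseChange
  ext k : 1
  rw [MonoidHom.comp_apply, FreeGroup.lift_apply_of, FreeGroup.lift_apply_of]
  by_cases hk : k.2 = true
  · rw [if_pos hk, if_pos hk, map_one]
  · rw [if_neg hk, if_neg hk]
    apply Units.ext
    rw [h]
    rfl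

/-- The matrices of variables. -/
noncomputable def gm (g r : ℕ) (i : Fin g) :
    Matrix (Fin r) (Fin r) (MvPolynomial (Fin g × Fin r × Fin r) ℂ) :=
  Matrix.of fun a b => MvPolynomial.X (i, a, b)

/-- The product of the determinants of the matrices of variables. -/
noncomputable def gdelta (g r : ℕ) : MvPolynomial (Fin g × Fin r × Fin r) ℂ :=
  ∏ i, (gm g r i).det

/-- The coordinate ring of `GL_r ^ g`. -/
abbrev GU (g r : ℕ) : Type := Localization.Away (gdelta g r)

theorem gm_det_isUnit (i : Fin g) :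
    IsUnit ((gm g r i).map (algebraMap (MvPolynomial (Fin g × Fin r × Fin r) ℂ) (GU g r))) := by
  rw [Matrix.isUnit_iff_isUnit_det]
  have h1 : ((gm g r i).map (algebraMap (MvPolynomial (Fin g × Fin r × Fin r) ℂ)
      (GU g r))).det = algebraMap _ (GU g r) (gm g r i).det := by
    rw [RingHom.map_det]
    rfl
  rw [h1]
  refine IsLocalization.Away.isUnit_of_dvd (gdelta g r) ?_
  exact Finset.dvd_prod_of_mem _ (Finset.mem_univ i)

/-- The universal tuple of invertible matrices. -/
noncomputable def gun (g r : ℕ) (i : Fin g) : (Mat r (GU g r))ˣ := (gm_det_isUnit i).unit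

theorem gun_univ {T : Type*} [CommRing T] [Algebra ℂ T] (A : Fin g → (Mat r T)ˣ) :
    ∃ φ : GU g r →ₐ[ℂ] T, (∀ p : MvPolynomial (Fin g × Fin r × Fin r) ℂ,
      φ (algebraMap (MvPolynomial (Fin g × Fin r × Fin r) ℂ) (GU g r) p) =
      MvPolynomial.aeval (fun p : Fin g × Fin r × Fin r => (A p.1 : Mat r T) p.2.1 p.2.2) p) ∧
      ∀ f, evalW (handlebody A) f = φ (evalW (handlebody (gun g r)) f) := by
  have hu : IsUnit (MvPolynomial.aeval
      (fun p : Fin g × Fin r × Fin r => (A p.1 : Mat r T) p.2.1 p.2.2) (gdelta g r)) := by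
    unfold gdelta
    rw [map_prod, IsUnit.prod_iff]
    intro i _
    have h1 : MvPolynomial.aeval
        (fun p : Fin g × Fin r × Fin r => (A p.1 : Mat r T) p.2.1 p.2.2) (gm g r i).det =
          (A i : Mat r T).det := by
      rw [AlgHom.map_det]
      congr 1
      ext a b
      simp [gm]
    rw [h1]
    exact (Matrix.isUnit_iff_isUnit_det _).mp (A i).isUnit
  refine ⟨IsLocalization.Away.liftAlgHom (gdelta g r) hu, fun p => ?_, fun f => ?_⟩
  · rw [IsLocalization.Away.liftAlgHom_apply, IsLocalization.Away.lift_eq]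
    rfl
  · rw [← evalW_baseChange]
    congr 1
    rw [baseChange_handlebody _ _ A]
    intro i
    ext a b
    have h1 : (gun g r i : Mat r (GU g r)) a b =
        algebraMap (MvPolynomial (Fin g × Fin r × Fin r) ℂ) (GU g r)
          (MvPolynomial.X (i, a, b)) := rfl
    rw [Matrix.map_apply, h1]
    change _ = (IsLocalization.Away.liftAlgHom (gdelta g r) hu) _
    rw [IsLocalization.Away.liftAlgHom_apply, IsLocalization.Away.lift_eq]
    change _ = MvPolynomial.aeval _ _
    rw [MvPolynomial.aeval_X]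

theorem inZ_handlebody (hg : 2 ≤ g) {D : Set (F g →* (Mat r ℂ)ˣ)}
    (hD : ∀ (c : Fin g → ℂˣ) (X : Fin g → SpecialLinearGroup (Fin r) ℤ),
      Algebra.adjoin ℂ (Set.range fun i => (slU (Int.castRingHom ℂ) (X i) : Mat r ℂ)) = ⊤ →
      handlebody (fun i => scalarU (c i) * slU (Int.castRingHom ℂ) (X i)) ∈ D)
    {S : Type*} [CommRing S] [Algebra ℂ S] (A : Fin g → (Mat r S)ˣ) :
    InZ D (handlebody A) := by
  intro f hf
  obtain ⟨h, h0, hgen⟩ := exists_generating_poly (g := g) (r := r) hg
  obtain ⟨n, a, ha⟩ := IsLocalization.Away.surj (gdelta g r) (evalW (handlebody (gun g r)) f)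
  have ha0 : a * h = 0 := by
    apply multi_dense
    intro c X
    rw [map_mul]
    by_cases hh : MvPolynomial.eval (fun p : Fin g × Fin r × Fin r =>
        (c p.1 : ℂ) * (((X p.1).1 p.2.1 p.2.2 : ℤ) : ℂ)) h = 0
    · rw [hh, mul_zero]
    · have h1 := hgen (fun i => Matrix.of fun a b => (c i : ℂ) * (((X i).1 a b : ℤ) : ℂ)) hh
      have h2 : ∀ i, (Matrix.of fun a b => (c i : ℂ) * (((X i).1 a b : ℤ) : ℂ) : Mat r ℂ) =
          (c i : ℂ) • (slU (Int.castRingHom ℂ) (X i) : Mat r ℂ) := by
        intro i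
        ext a b
        rfl
      have h3 : Algebra.adjoin ℂ (Set.range fun i =>
          (slU (Int.castRingHom ℂ) (X i) : Mat r ℂ)) = ⊤ := by
        rw [eq_top_iff, ← h1]
        apply Algebra.adjoin_le
        rintro _ ⟨i, rfl⟩
        have h8 : (slU (Int.castRingHom ℂ) (X i) : Mat r ℂ) ∈ Algebra.adjoin ℂ
            (Set.range fun i => (slU (Int.castRingHom ℂ) (X i) : Mat r ℂ)) :=
          Algebra.subset_adjoin (Set.mem_range_self i)
        have h9 := Subalgebra.smul_mem _ h8 (c i : ℂ)
        rw [← h2] at h9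
        exact h9
      have h4 := hf _ (hD c X h3)
      obtain ⟨φ, hφ1, hφ2⟩ := gun_univ
        (fun i => scalarU (c i) * slU (Int.castRingHom ℂ) (X i) : Fin g → (Mat r ℂ)ˣ)
      rw [hφ2] at h4
      have h5 := congrArg φ ha
      rw [map_mul, h4, zero_mul, hφ1] at h5
      have h6 : MvPolynomial.eval (fun p : Fin g × Fin r × Fin r =>
          (c p.1 : ℂ) * (((X p.1).1 p.2.1 p.2.2 : ℤ) : ℂ)) a = 0 := by
        rw [h5, MvPolynomial.aeval_def, Algebra.algebraMap_self, ← MvPolynomial.eval₂_id]
        congr 1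
        ext p
        change _ = (((algebraMap ℂ (Mat r ℂ)) (c p.1)) *
          (slU (Int.castRingHom ℂ) (X p.1) : Mat r ℂ)) p.2.1 p.2.2
        rw [← Algebra.smul_def, Matrix.smul_apply]
        rfl
      rw [h6, zero_mul]
  have ha1 : a = 0 := by
    rcases mul_eq_zero.mp ha0 with h1 | h1
    · exact h1
    · exact absurd h1 h0
  rw [ha1, map_zero] at ha
  have h7 : evalW (handlebody (gun g r)) f = 0 := by
    have hu : IsUnit (algebraMap (MvPolynomial (Fin g × Fin r × Fin r) ℂ) (GU g r)
        (gdelta g r) ^ n) := (IsLocalization.Away.algebraMap_isUnit (gdelta g r)).pow n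
    exact (hu.mul_left_eq_zero).mp ha
  obtain ⟨φ, _, hφ2⟩ := gun_univ A
  rw [hφ2, h7, map_zero]

end Vale.Agent.P002
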