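import Mathlib.LinearAlgebra.Matrix.SchurComplement
import Mathlib.LinearAlgebra.Matrix.MvPolynomial
import Mathlib.Algebra.MvPolynomial.CommRing
import Mathlib.RingTheory.Localization.FractionRing
import Mathlib.Tactic.FieldSimp
import Mathlib.Tactic.Ring
import Mathlib.Tactic.LinearCombination

/-! Determinant lemma for rank one updates over any commutative ring. -/

namespace Vale.Agent.P002

open Matrix

variable {ι : Type*} [Fintype ι] [DecidableEq ι]

theorem det_add_vecMulVec_field {K : Type*} [Field K] (N : Matrix ι ι K) (u v : ι → K)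
    (hN : det N ≠ 0) :
    det (N + vecMulVec u v) = det N + v ⬝ᵥ (adjugate N *ᵥ u) := by
  have hu : IsUnit N.det := isUnit_iff_ne_zero.2 hN
  have h1 : vecMulVec u v = replicateCol Unit u * replicateRow Unit v := by
    ext i j; simp [vecMulVec_apply, mul_apply]
  rw [h1, det_add_replicateCol_mul_replicateRow hu]
  have h2 : (1 + replicateRow Unit v * N⁻¹ * replicateCol Unit u).det
      = 1 + v ⬝ᵥ (N⁻¹ *ᵥ u) := by
    rw [det_unique]
    simp [mul_apply, dotProduct, mulVec, Finset.sum_mul, Finset.mul_sum]
    rw [Finset.sum_comm]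
    simp [mul_assoc]
  rw [h2, inv_def, Ring.inverse_eq_inv']
  simp only [smul_mulVec, dotProduct_smul, smul_eq_mul]
  field_simp

/-- The rank one update formula is natural under ring homomorphisms. -/
theorem rank_one_map {R S : Type*} [CommRing R] [CommRing S] (φ : R →+* S) (M : Matrix ι ι R)
    (u v : ι → R) :
    φ (det (M + vecMulVec u v) - (det M + v ⬝ᵥ (adjugate M *ᵥ u))) =
      det (M.map φ + vecMulVec (fun i => φ (u i)) fun i => φ (v i)) -
        (det (M.map φ) + (fun i => φ (v i)) ⬝ᵥ (adjugate (M.map φ) *ᵥ fun i => φ (u i))) := by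
  have hadj : adjugate (M.map φ) = (adjugate M).map φ := by
    have := RingHom.map_adjugate φ M
    exact this.symm
  rw [map_sub, map_add, RingHom.map_det, RingHom.map_det, hadj]
  congr 1
  · congr 1
    ext i j
    simp [vecMulVec_apply]
  · congr 1
    simp [dotProduct, mulVec, map_sum]

theorem det_add_vecMulVec' {R : Type*} [CommRing R] (M : Matrix ι ι R) (u v : ι → R) :
    det (M + vecMulVec u v) = det M + v ⬝ᵥ (adjugate M *ᵥ u) := by
  let P := MvPolynomial ((ι × ι) ⊕ (ι ⊕ ι)) ℤ
  let K := FractionRing P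
  let M0 : Matrix ι ι P := Matrix.of fun i j => MvPolynomial.X (Sum.inl (i, j))
  let u0 : ι → P := fun i => MvPolynomial.X (Sum.inr (Sum.inl i))
  let v0 : ι → P := fun i => MvPolynomial.X (Sum.inr (Sum.inr i))
  have hM0 : M0.det ≠ 0 := by
    let ρ : MvPolynomial (ι × ι) ℤ →ₐ[ℤ] P := MvPolynomial.rename Sum.inl
    have h1 : M0 = (mvPolynomialX ι ι ℤ).map ρ := by
      ext1 i j
      exact (MvPolynomial.rename_X _ _).symm
    have h2 : M0.det = ρ (mvPolynomialX ι ι ℤ).det := by
      rw [h1]
      exact (RingHom.map_det ρ.toRingHom _).symm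
    rw [h2]
    intro h3
    have hinj : Function.Injective ρ := MvPolynomial.rename_injective _ Sum.inl_injective
    exact det_mvPolynomialX_ne_zero ι ℤ (hinj (h3.trans (map_zero ρ).symm))
  have hzero : det (M0 + vecMulVec u0 v0) - (det M0 + v0 ⬝ᵥ (adjugate M0 *ᵥ u0)) = 0 := by
    apply FaithfulSMul.algebraMap_injective P K
    rw [rank_one_map (algebraMap P K), map_zero, sub_eq_zero]
    apply det_add_vecMulVec_field
    have : det (M0.map (algebraMap P K)) = algebraMap P K M0.det :=
      (RingHom.map_det (algebraMap P K) M0).symm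
    rw [this]
    intro h
    exact hM0 (FaithfulSMul.algebraMap_injective P K (h.trans (map_zero _).symm))
  let e : P →+* R := MvPolynomial.eval₂Hom (Int.castRingHom R)
    (Sum.elim (fun p => M p.1 p.2) (Sum.elim u v))
  have h := congrArg e hzero
  rw [rank_one_map e, map_zero, sub_eq_zero] at h
  have h1 : M0.map e = M := by
    ext1 i j
    exact MvPolynomial.eval₂Hom_X' _ _ _
  have h2 : (fun i => e (u0 i)) = u := by
    funext i
    exact MvPolynomial.eval₂Hom_X' _ _ _
  have h3 : (fun i => e (v0 i)) = v := by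
    funext i
    exact MvPolynomial.eval₂Hom_X' _ _ _
  rw [h1, h2, h3] at h
  exact h

end Vale.Agent.P002
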