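import Vale.Agent.P002.Defs

namespace Vale.Agent.P002

open Matrix

variable {r : ℕ} {R : Type*} [CommRing R]

/-- Krylov matrix with columns `A ^ j v`. -/
def kry (A : Mat r R) (v : Fin r → R) : Mat r R :=
  Matrix.of fun i j => ((A ^ (j : ℕ)) *ᵥ v) i

theorem kry_mulVec_single (A : Mat r R) (v : Fin r → R) (j : Fin r) :
    kry A v *ᵥ Pi.single j 1 = (A ^ (j : ℕ)) *ᵥ v := by
  ext i
  simp [kry]

theorem mul_kry (M A : Mat r R) (v : Fin r → R) (A' : Mat r R) (h : M * A = A' * M) :
    M * kry A v = kry A' (M *ᵥ v) := by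
  ext i j
  have h2 : ∀ n : ℕ, M * A ^ n = A' ^ n * M := by
    intro n
    induction n with
    | zero => simp
    | succ n ih => rw [pow_succ, ← mul_assoc, ih, mul_assoc, h, ← mul_assoc, ← pow_succ]
  have h1 : (M * kry A v) i j = (M *ᵥ ((A ^ (j : ℕ)) *ᵥ v)) i := by
    simp [Matrix.mul_apply, mulVec, dotProduct, kry]
  rw [h1, mulVec_mulVec, h2, ← mulVec_mulVec]
  rfl

/-- Two Krylov matrices with the same characteristic polynomial. -/
theorem krylov_comm (A A' : Mat r R) (v w : Fin r → R) (hc : A.charpoly = A'.charpoly)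
    (B : Mat r R) (hB : B * kry A v = kry A' w) (hu : IsUnit (kry A v)) :
    B * A = A' * B := by
  nontriviality R
  -- `B p(A) v = p(A') w` for all polynomials `p`
  have key1 : ∀ p : Polynomial R, p.degree < (r : WithBot ℕ) →
      B *ᵥ (Polynomial.aeval A p *ᵥ v) = Polynomial.aeval A' p *ᵥ w := by
    intro p hp
    have hd : p.natDegree < r ∨ p = 0 := by
      by_cases h0 : p = 0
      · exact Or.inr h0
      · left
        rwa [← Polynomial.natDegree_lt_iff_degree_lt h0] at hp
    rcases hd with hd | rfl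
    swap
    · simp
    rw [Polynomial.aeval_eq_sum_range' hd, Polynomial.aeval_eq_sum_range' hd]
    rw [Matrix.sum_mulVec, Matrix.sum_mulVec, Matrix.mulVec_sum]
    apply Finset.sum_congr rfl
    intro n hn
    rw [Finset.mem_range] at hn
    rw [smul_mulVec, smul_mulVec, mulVec_smul]
    congr 1
    have h1 := kry_mulVec_single A v ⟨n, hn⟩
    have h2 := kry_mulVec_single A' w ⟨n, hn⟩
    simp only at h1 h2
    rw [← h1, ← h2, mulVec_mulVec, hB]
  have key2 : ∀ p : Polynomial R,
      B *ᵥ (Polynomial.aeval A p *ᵥ v) = Polynomial.aeval A' p *ᵥ w := by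
    intro p
    have hm := Matrix.charpoly_monic A
    have hm' := Matrix.charpoly_monic A'
    have e1 := Polynomial.modByMonic_add_div p A.charpoly
    have hdeg : (p %ₘ A.charpoly).degree < (r : WithBot ℕ) := by
      have := Polynomial.degree_modByMonic_lt p hm
      rwa [Matrix.charpoly_degree_eq_dim, Fintype.card_fin] at this
    have e2 : Polynomial.aeval A p = Polynomial.aeval A (p %ₘ A.charpoly) := by
      conv_lhs => rw [← e1]
      rw [map_add, map_mul, Matrix.aeval_self_charpoly, zero_mul, add_zero]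
    have e3 : Polynomial.aeval A' p = Polynomial.aeval A' (p %ₘ A.charpoly) := by
      conv_lhs => rw [← e1]
      rw [map_add, map_mul, hc, Matrix.aeval_self_charpoly, zero_mul, add_zero]
    rw [e2, e3]
    exact key1 _ hdeg
  have hcancel : (B * A) * kry A v = (A' * B) * kry A v := by
    have h : ∀ j : Fin r, ((B * A) * kry A v) *ᵥ Pi.single j 1 =
        ((A' * B) * kry A v) *ᵥ Pi.single j 1 := by
      intro j
      rw [← mulVec_mulVec, ← mulVec_mulVec, ← mulVec_mulVec, ← mulVec_mulVec, kry_mulVec_single,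
        mulVec_mulVec v A (A ^ (j : ℕ))]
      have k1 := key2 (Polynomial.X ^ (j : ℕ))
      have k2 := key2 (Polynomial.X ^ ((j : ℕ) + 1))
      simp only [map_pow, Polynomial.aeval_X] at k1 k2
      rw [k1, ← pow_succ', k2, pow_succ', mulVec_mulVec]
    ext i j
    have := congrFun (h j) i
    simpa using this
  exact hu.mul_right_cancel hcancel

end Vale.Agent.P002
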