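import Vale.Agent.P002.Defs
import Vale.Agent.P002.DetRank1
import Vale.Agent.P002.Krylov

namespace Vale.Agent.P002

open Matrix

variable {r : ℕ} {R : Type*} [CommRing R]

/-- `τ - M` with `τ` a natural number. -/
def tm (n : ℕ) (M : Mat r R) : Mat r R := (n : R) • (1 : Mat r R) - M

/-- Matrix of the linear system; `C` stands for the inverse of the commutator. -/
def sysM (C Y : Mat r R) : Mat r R :=
  Matrix.of fun i j => if (i : ℕ) = 0 then ((1 : Fin r → R) ᵥ* adjugate Y) j
    else ((1 : Fin r → R) ᵥ* (adjugate (tm i Y) - adjugate (tm i (C * Y)) * C)) j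

/-- Right-hand side of the linear system. -/
def sysR (C Y : Mat r R) (θ : R) : Fin r → R :=
  fun i => if (i : ℕ) = 0 then θ - det Y else det (tm i Y) - det (tm i (C * Y))

theorem tm_add (n : ℕ) (Y : Mat r R) (c : Fin r → R) :
    tm n (Y + vecMulVec c 1) = tm n Y + vecMulVec (-c) 1 := by
  unfold tm
  ext i j
  simp
  ring

theorem sys_det (hr : 0 < r) (C Y : Mat r R) (θ : R) (c : Fin r → R)
    (h : sysM C Y *ᵥ c = sysR C Y θ) : det (Y + vecMulVec c 1) = θ := by
  have h0 := congrFun h ⟨0, hr⟩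
  simp only [sysM, sysR, mulVec, dotProduct, Matrix.of_apply, if_true] at h0
  rw [det_add_vecMulVec']
  have h1 : (1 : Fin r → R) ⬝ᵥ adjugate Y *ᵥ c = ∑ x, ((1 : Fin r → R) ᵥ* adjugate Y) x * c x := by
    rw [dotProduct_mulVec]
    rfl
  rw [h1, h0]
  ring

theorem sys_tm (C Y : Mat r R) (θ : R) (c : Fin r → R)
    (h : sysM C Y *ᵥ c = sysR C Y θ) (i : Fin r) (hi : (i : ℕ) ≠ 0) :
    det (tm i (Y + vecMulVec c 1)) = det (tm i (C * (Y + vecMulVec c 1))) := by
  have h0 := congrFun h i
  simp only [sysM, sysR, mulVec, dotProduct, Matrix.of_apply, if_neg hi] at h0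
  have e1 : C * (Y + vecMulVec c 1) = C * Y + vecMulVec (C *ᵥ c) 1 := by
    rw [mul_add, mul_vecMulVec]
  rw [e1, tm_add, tm_add, det_add_vecMulVec', det_add_vecMulVec']
  have h1 : ∑ x, ((1 : Fin r → R) ᵥ* (adjugate (tm i Y) - adjugate (tm i (C * Y)) * C)) x * c x
      = (1 : Fin r → R) ⬝ᵥ adjugate (tm i Y) *ᵥ c
        - (1 : Fin r → R) ⬝ᵥ adjugate (tm i (C * Y)) *ᵥ (C *ᵥ c) := by
    rw [mulVec_mulVec, ← dotProduct_sub, ← sub_mulVec, dotProduct_mulVec]
    rfl
  rw [h1] at h0
  simp only [mulVec_neg, dotProduct_neg]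
  linear_combination -h0

theorem eval_charpoly_tm (M : Mat r R) (n : ℕ) :
    M.charpoly.eval (n : R) = det (tm n M) := by
  rw [Matrix.eval_charpoly]
  congr 1
  unfold tm
  rw [scalar_apply]
  ext i j
  by_cases hij : i = j
  · subst hij; simp
  · simp [hij]

theorem charpoly_eq_of_tm [IsDomain R] [CharZero R] (A A' : Mat r R)
    (h0 : det A = det A') (h : ∀ i : Fin r, (i : ℕ) ≠ 0 → det (tm i A) = det (tm i A')) :
    A.charpoly = A'.charpoly := by
  have hdeg : (A.charpoly - A'.charpoly).degree < ((Finset.univ : Finset (Fin r)).card : ℕ) := by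
    rw [Finset.card_univ, Fintype.card_fin]
    have e1 : A.charpoly.degree = (r : WithBot ℕ) := by
      rw [Matrix.charpoly_degree_eq_dim, Fintype.card_fin]
    have e2 : A'.charpoly.degree = (r : WithBot ℕ) := by
      rw [Matrix.charpoly_degree_eq_dim, Fintype.card_fin]
    have := Polynomial.degree_sub_lt_left (p := A.charpoly) (q := A'.charpoly) (by rw [e1, e2])
      (Matrix.charpoly_monic A).ne_zero
      (by rw [(Matrix.charpoly_monic A).leadingCoeff, (Matrix.charpoly_monic A').leadingCoeff])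
    rwa [e1] at this
  refine Polynomial.eq_of_degree_sub_lt_of_eval_index_eq (v := fun i : Fin r => ((i : ℕ) : R))
    (s := Finset.univ) ?_ hdeg ?_
  · intro i _ j _ hij
    simp only [Nat.cast_inj] at hij
    exact Fin.ext hij
  · intro i _
    rw [eval_charpoly_tm, eval_charpoly_tm]
    by_cases hi : (i : ℕ) = 0
    · have e : ∀ M : Mat r R, det (tm (i : ℕ) M) = (-1) ^ r * det M := by
        intro M
        rw [hi]
        have : tm 0 M = -M := by simp [tm]
        rw [this, det_neg, Fintype.card_fin]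
      rw [e, e, h0]
    · exact h i hi

/-- Naturality. -/
theorem sysM_map {S : Type*} [CommRing S] (φ : R →+* S) (C Y : Mat r R) :
    (sysM C Y).map φ = sysM (C.map φ) (Y.map φ) := by
  have ht : ∀ (n : ℕ) (M : Mat r R), (tm n M).map φ = tm n (M.map φ) := by
    intro n M
    unfold tm
    ext i j
    simp [one_apply, apply_ite φ]
  have hadj : ∀ M : Mat r R, (adjugate M).map φ = adjugate (M.map φ) := fun M =>
    RingHom.map_adjugate φ M
  have hmul : ∀ M N : Mat r R, (M * N).map φ = M.map φ * N.map φ := fun M N => Matrix.map_mul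
  ext i j
  simp only [sysM, Matrix.map_apply, Matrix.of_apply]
  have hv : ∀ M : Mat r R, φ (((1 : Fin r → R) ᵥ* M) j) = ((1 : Fin r → S) ᵥ* (M.map φ)) j := by
    intro M
    simp [vecMul, dotProduct]
  split_ifs
  · rw [hv, hadj]
  · rw [hv]
    congr 1
    have h2 : (adjugate (tm i Y) - adjugate (tm i (C * Y)) * C).map φ =
        (adjugate (tm i Y)).map φ - (adjugate (tm i (C * Y)) * C).map φ :=
      map_sub (RingHom.mapMatrix φ) _ _
    rw [h2, hmul, hadj, hadj, ht, ht, hmul]

theorem sysR_map {S : Type*} [CommRing S] (φ : R →+* S) (C Y : Mat r R) (θ : R) :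
    (fun i => φ (sysR C Y θ i)) = sysR (C.map φ) (Y.map φ) (φ θ) := by
  have ht : ∀ (n : ℕ) (M : Mat r R), (tm n M).map φ = tm n (M.map φ) := by
    intro n M
    unfold tm
    ext i j
    simp [one_apply, apply_ite φ]
  have hmul : ∀ M N : Mat r R, (M * N).map φ = M.map φ * N.map φ := fun M N => Matrix.map_mul
  have hdet : ∀ M : Mat r R, φ (det M) = det (M.map φ) := fun M => RingHom.map_det φ M
  funext i
  simp only [sysR]
  split_ifs
  · rw [map_sub, hdet]
  · rw [map_sub, hdet, hdet, ht, ht, hmul]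

theorem kry_map {S : Type*} [CommRing S] (φ : R →+* S) (A : Mat r R) (v : Fin r → R) :
    (kry A v).map φ = kry (A.map φ) (fun i => φ (v i)) := by
  have hpow : ∀ n : ℕ, (A ^ n).map φ = (A.map φ) ^ n := fun n =>
    map_pow (RingHom.mapMatrix φ) A n
  ext i j
  simp only [kry, Matrix.map_apply, Matrix.of_apply, mulVec, dotProduct, map_sum, map_mul]
  apply Finset.sum_congr rfl
  intro k _
  rw [← hpow]
  rfl

end Vale.Agent.P002
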