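import Mathlib

namespace Vale.Agent.P002

open Matrix

/-- Free group on `a_0, b_0, ..., a_{g-1}, b_{g-1}`: `(i, false)` is `a_i` and `(i, true)` is `b_i`. -/
abbrev F (g : ℕ) := FreeGroup (Fin g × Bool)

/-- The generator `a_i`. -/
def ga {g : ℕ} (i : Fin g) : F g := FreeGroup.of (i, false)

/-- The generator `b_i`. -/
def gb {g : ℕ} (i : Fin g) : F g := FreeGroup.of (i, true)

/-- The commutator `[a_i, b_i]`. -/
def hcomm {g : ℕ} (i : Fin g) : F g := ga i * gb i * (ga i)⁻¹ * (gb i)⁻¹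

/-- The surface relator `[a_0,b_0] [a_1,b_1] ... [a_{g-1},b_{g-1}]`. -/
def relator (g : ℕ) : F g := (List.ofFn fun i : Fin g => hcomm i).prod

/-- Square matrices of size `r`. -/
abbrev Mat (r : ℕ) (S : Type*) := Matrix (Fin r) (Fin r) S

variable {g r : ℕ} {S T : Type*} [CommRing S] [CommRing T]

/-- Evaluation of a polynomial in the entries of all group words at a representation. -/
noncomputable def evalW [Algebra ℂ S] (x : F g →* (Mat r S)ˣ) :
    MvPolynomial (F g × Fin r × Fin r) ℂ →ₐ[ℂ] S :=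
  MvPolynomial.aeval fun p => (x p.1 : Mat r S) p.2.1 p.2.2

/-- Evaluation of a polynomial in the entries of the generators at a representation. -/
noncomputable def evalG [Algebra ℂ S] (x : F g →* (Mat r S)ˣ) :
    MvPolynomial ((Fin g × Bool) × Fin r × Fin r) ℂ →ₐ[ℂ] S :=
  MvPolynomial.aeval fun p => (x (FreeGroup.of p.1) : Mat r S) p.2.1 p.2.2

/-- `x` is an `S`-point of the Zariski closure of `D`. -/
def InZ [Algebra ℂ S] (D : Set (F g →* (Mat r ℂ)ˣ)) (x : F g →* (Mat r S)ˣ) : Prop :=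
  ∀ f : MvPolynomial (F g × Fin r × Fin r) ℂ, (∀ y ∈ D, evalW y f = 0) → evalW x f = 0

/-- `D` is stable under the automorphisms of the free group that preserve the relator up to
conjugation. -/
def AutStable (D : Set (F g →* (Mat r ℂ)ˣ)) : Prop :=
  ∀ y ∈ D, ∀ φ : F g ≃* F g, (∃ u : F g, φ (relator g) = u * relator g * u⁻¹) →
    y.comp φ.toMonoidHom ∈ D

/-- Change `b_j` to `b_j z`. -/
def flow (x : F g →* (Mat r S)ˣ) (j : Fin g) (z : (Mat r S)ˣ) : F g →* (Mat r S)ˣ :=
  FreeGroup.lift fun k => if k = (j, true) then x (gb j) * z else x (FreeGroup.of k)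

/-- The representation `a_i ↦ A_i`, `b_i ↦ 1`. -/
def handlebody (A : Fin g → (Mat r S)ˣ) : F g →* (Mat r S)ˣ :=
  FreeGroup.lift fun k => if k.2 = true then 1 else A k.1

/-- Base change of a representation. -/
def baseChange (θ : S →+* T) (x : F g →* (Mat r S)ˣ) : F g →* (Mat r T)ˣ :=
  (Units.map (RingHom.mapMatrix θ).toMonoidHom).comp x

/-- The scalar matrix `c` as a unit. -/
noncomputable def scalarU {r : ℕ} : ℂˣ →* (Mat r ℂ)ˣ :=
  Units.map (algebraMap ℂ (Mat r ℂ)).toMonoidHom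

/-- The invertible complex matrix attached to an element of `SL_r(R)` and a ring homomorphism. -/
noncomputable def slU {r : ℕ} {R : Type*} [CommRing R] (φ : R →+* ℂ) :
    SpecialLinearGroup (Fin r) R →* (Mat r ℂ)ˣ :=
  SpecialLinearGroup.toGL.comp (SpecialLinearGroup.map φ)

/-- Surface group representations into `SL_r(R)`, pushed to `GL_r(ℂ)` and twisted by a character. -/
def DInt (g r : ℕ) {R : Type*} [CommRing R] (φ : R →+* ℂ) : Set (F g →* (Mat r ℂ)ˣ) :=
  {x | ∃ y : F g →* SpecialLinearGroup (Fin r) R, y (relator g) = 1 ∧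
    ∃ χ : F g →* ℂˣ, ∀ w, x w = scalarU (χ w) * slU φ (y w)}

/-- `E` is a derivation over the representation `x`. -/
def IsDer (x : F g →* (Mat r ℂ)ˣ) (E : F g → Mat r ℂ) : Prop :=
  ∀ w w' : F g, E (w * w') = E w * (x w' : Mat r ℂ) + (x w : Mat r ℂ) * E w'

/-- A family of invertible matrices is semisimple: every invariant subspace has an invariant
complement. -/
def SS {G : Type*} [Group G] {r : ℕ} (x : G →* (Mat r ℂ)ˣ) : Prop :=
  ∀ W : Submodule ℂ (Fin r → ℂ), (∀ w, ∀ v ∈ W, (x w : Mat r ℂ) *ᵥ v ∈ W) →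
    ∃ W' : Submodule ℂ (Fin r → ℂ), (∀ w, ∀ v ∈ W', (x w : Mat r ℂ) *ᵥ v ∈ W') ∧ IsCompl W W'

/-- The relation of the surface group for a tuple of matrices. -/
noncomputable def relT (X : Fin g × Bool → Mat r ℂ) : Mat r ℂ :=
  (List.ofFn fun i : Fin g =>
    X (i, false) * X (i, true) * (X (i, false))⁻¹ * (X (i, true))⁻¹).prod

/-- Evaluation of a polynomial at a tuple of matrices. -/
noncomputable def evalT (X : Fin g × Bool → Mat r ℂ) :
    MvPolynomial ((Fin g × Bool) × Fin r × Fin r) ℂ →ₐ[ℂ] ℂ :=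
  MvPolynomial.aeval fun p => X p.1 p.2.1 p.2.2

/-- One of two indices. -/
def pick (i₀ i₁ : Fin g) (b : Bool) : Fin g := if b then i₁ else i₀

/-- Product of a word in `A_{i₀}, A_{i₁}`. -/
def wordProd (A : Fin g → (Mat r ℂ)ˣ) (i₀ i₁ : Fin g) : List Bool → Mat r ℂ
  | [] => 1
  | b :: p => (A (pick i₀ i₁ b) : Mat r ℂ) * wordProd A i₀ i₁ p

/-- Derivative of a word in `A_{i₀}, A_{i₁}` in the direction `A_i Y_i`. -/
def wordDer (A : Fin g → (Mat r ℂ)ˣ) (Y : Fin g → Mat r ℂ) (i₀ i₁ : Fin g) :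
    List Bool → Mat r ℂ
  | [] => 0
  | b :: p => (A (pick i₀ i₁ b) : Mat r ℂ) * Y (pick i₀ i₁ b) * wordProd A i₀ i₁ p +
      (A (pick i₀ i₁ b) : Mat r ℂ) * wordDer A Y i₀ i₁ p

/-! ### Equations (stated here so that they are generated in this file) -/

theorem ga_eqn (i : Fin g) : (ga i : F g) = FreeGroup.of (i, false) := by rw [ga]

theorem gb_eqn (i : Fin g) : (gb i : F g) = FreeGroup.of (i, true) := by rw [gb]

theorem hcomm_eqn (i : Fin g) : (hcomm i : F g) = ga i * gb i * (ga i)⁻¹ * (gb i)⁻¹ := by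
  rw [hcomm]

theorem relator_eqn (g : ℕ) : relator g = (List.ofFn fun i : Fin g => hcomm i).prod := by
  rw [relator]

end Vale.Agent.P002
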