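import Vale.Agent.P002.Defs

/-! The eigenvalues of a matrix with algebraically independent entries. -/

namespace Vale.Agent.P002

open Matrix

/-- Elementary symmetric functions of the eigenvalues as polynomials in the entries. -/
noncomputable def eE (r : ℕ) (i : Fin r) : MvPolynomial (Fin r × Fin r) ℤ :=
  (-1) ^ ((i : ℕ) + 1) * (Matrix.charpoly.univ ℤ (Fin r)).coeff (r - ((i : ℕ) + 1))

lemma aeval_eE {r : ℕ} {S : Type*} [CommRing S] (M : Matrix (Fin r) (Fin r) S) (f : Fin r → S)
    (h : M.charpoly = ∏ i, (Polynomial.X - Polynomial.C (f i))) (i : Fin r) :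
    MvPolynomial.aeval (fun p : Fin r × Fin r => M p.1 p.2) (eE r i) =
      MvPolynomial.aeval f (MvPolynomial.esymm (Fin r) ℤ ((i : ℕ) + 1)) := by
  rw [MvPolynomial.aeval_esymm_eq_multiset_esymm, eE, map_mul, map_pow, map_neg, map_one]
  have h1 : MvPolynomial.aeval (fun p : Fin r × Fin r => M p.1 p.2)
      ((Matrix.charpoly.univ ℤ (Fin r)).coeff (r - ((i : ℕ) + 1))) =
      M.charpoly.coeff (r - ((i : ℕ) + 1)) := by
    have := Matrix.charpoly.univ_coeff_eval₂Hom (Fin r) (Int.castRingHom S)
      (fun p : Fin r × Fin r => M p.1 p.2) (r - ((i : ℕ) + 1))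
    rw [show (Matrix.of (Function.curry fun p : Fin r × Fin r => M p.1 p.2)) = M from rfl] at this
    rw [← this]
    rfl
  have hi := i.2
  have hcard : Multiset.card (Finset.univ.val.map f) = r := by simp
  have h2 : M.charpoly.coeff (r - ((i : ℕ) + 1)) =
      (-1) ^ ((i : ℕ) + 1) * (Finset.univ.val.map f).esymm ((i : ℕ) + 1) := by
    have h3 : M.charpoly = ((Finset.univ.val.map f).map
        (fun t => Polynomial.X - Polynomial.C t)).prod := by
      rw [h, Multiset.map_map]; rfl
    rw [h3, Multiset.prod_X_sub_C_coeff _ (by rw [hcard]; omega), hcard,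
      show r - (r - ((i : ℕ) + 1)) = (i : ℕ) + 1 by omega]
  rw [h1, h2, ← mul_assoc, ← mul_pow]
  simp

lemma aeval_key {r : ℕ} {S : Type*} [CommRing S] (M : Matrix (Fin r) (Fin r) S) (f : Fin r → S)
    (hM : M.charpoly = ∏ i, (Polynomial.X - Polynomial.C (f i)))
    (q : MvPolynomial (Fin r) ℤ) :
    MvPolynomial.aeval (fun p : Fin r × Fin r => M p.1 p.2) (MvPolynomial.aeval (eE r) q) =
      MvPolynomial.aeval f (MvPolynomial.aeval
        (fun i : Fin r => MvPolynomial.esymm (Fin r) ℤ ((i : ℕ) + 1)) q) := by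
  have h1 := DFunLike.congr_fun (MvPolynomial.comp_aeval (R := ℤ) (eE r)
    (MvPolynomial.aeval (fun p : Fin r × Fin r => M p.1 p.2))) q
  have h2 := DFunLike.congr_fun (MvPolynomial.comp_aeval (R := ℤ)
    (fun i : Fin r => MvPolynomial.esymm (Fin r) ℤ ((i : ℕ) + 1)) (MvPolynomial.aeval f)) q
  simp only [AlgHom.comp_apply] at h1 h2
  rw [h1, h2]
  congr 2
  funext i
  exact aeval_eE M f hM i

/-- The eigenvalues are algebraically independent. -/
theorem algebraicIndependent_eigen {r : ℕ} {K : Type*} [CommRing K] [IsDomain K]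
    (X : Matrix (Fin r) (Fin r) K)
    (hX : AlgebraicIndependent ℤ fun p : Fin r × Fin r => X p.1 p.2) (l : Fin r → K)
    (hl : X.charpoly = ∏ i, (Polynomial.X - Polynomial.C (l i))) :
    AlgebraicIndependent ℤ l := by
  classical
  rw [algebraicIndependent_iff]
  intro p hp
  by_contra hp0
  set p' : MvPolynomial (Fin r) ℤ := ∏ σ : Equiv.Perm (Fin r), MvPolynomial.rename σ p with hp'
  have hsym : p'.IsSymmetric := by
    intro e
    rw [hp', map_prod]
    simp only [MvPolynomial.rename_rename]
    exact Fintype.prod_equiv (Equiv.mulLeft e) _ _ (fun σ => rfl)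
  have hne : p' ≠ 0 := by
    rw [hp', Finset.prod_ne_zero_iff]
    intro σ _ h
    apply hp0
    apply MvPolynomial.rename_injective σ σ.injective
    rw [h, map_zero]
  have hz : MvPolynomial.aeval l p' = 0 := by
    rw [hp', map_prod]
    apply Finset.prod_eq_zero (Finset.mem_univ 1)
    simpa using hp
  obtain ⟨q, hq⟩ := MvPolynomial.esymmAlgHom_fin_surjective (R := ℤ) (le_refl r) ⟨p', hsym⟩
  have hq' : MvPolynomial.aeval
      (fun i : Fin r => MvPolynomial.esymm (Fin r) ℤ ((i : ℕ) + 1)) q = p' := by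
    rw [← MvPolynomial.esymmAlgHom_apply, hq]
  have h1 := aeval_key X l hl q
  rw [hq', hz] at h1
  have h2 : MvPolynomial.aeval (eE r) q = 0 := by
    rw [algebraicIndependent_iff] at hX
    exact hX _ h1
  have h3 := aeval_key (Matrix.diagonal (MvPolynomial.X : Fin r → MvPolynomial (Fin r) ℤ))
    MvPolynomial.X (Matrix.charpoly_diagonal _) q
  rw [h2, map_zero, hq'] at h3
  apply hne
  rw [h3]
  clear_value p'
  clear hq hq' hz hp' hsym h3 hne
  induction p' using MvPolynomial.induction_on with
  | C a => simp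
  | add p q hp hq => rw [map_add, ← hp, ← hq]
  | mul_X p i hp => rw [map_mul, ← hp, MvPolynomial.aeval_X]

/-- TASK A -/
theorem exists_diag {r : ℕ} {K : Type*} [Field K] [IsAlgClosed K] [CharZero K] (X : Mat r K)
    (hX : AlgebraicIndependent ℤ fun p : Fin r × Fin r => X p.1 p.2) :
    ∃ (P : (Mat r K)ˣ) (l : Fin r → K),
      X = (P : Mat r K) * diagonal l * ((P⁻¹ : (Mat r K)ˣ) : Mat r K) ∧
        AlgebraicIndependent ℤ l := by
  classical
  obtain ⟨l, hl⟩ : ∃ l : Fin r → K, X.charpoly = ∏ i, (Polynomial.X - Polynomial.C (l i)) := by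
    have hs : X.charpoly.Splits := IsAlgClosed.splits _
    have h1 := hs.eq_prod_roots_of_monic (Matrix.charpoly_monic X)
    have hcard : Multiset.card X.charpoly.roots = r := by
      rw [← hs.natDegree_eq_card_roots, Matrix.charpoly_natDegree_eq_dim, Fintype.card_fin]
    obtain ⟨L, hL⟩ : ∃ L : List K, (L : Multiset K) = X.charpoly.roots := ⟨_, Multiset.coe_toList _⟩
    have hLlen : L.length = r := by rw [← hcard, ← hL]; rfl
    subst hLlen
    refine ⟨L.get, ?_⟩
    rw [h1, ← hL, Multiset.map_coe, Multiset.prod_coe]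
    rw [← List.prod_ofFn]
    congr 1
    have h2 : L = List.ofFn L.get := (List.ofFn_get L).symm
    conv_lhs => rw [h2, List.map_ofFn]
    rfl
  have hind := algebraicIndependent_eigen X hX l hl
  have hinj : Function.Injective l := hind.injective
  have hev : ∀ i, ∃ v : Fin r → K, v ≠ 0 ∧ X *ᵥ v = l i • v := by
    intro i
    have hdet : (Matrix.scalar (Fin r) (l i) - X).det = 0 := by
      rw [← Matrix.eval_charpoly, hl, Polynomial.eval_prod]
      apply Finset.prod_eq_zero (Finset.mem_univ i)
      simp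
    obtain ⟨v, hv, hv2⟩ := Matrix.exists_mulVec_eq_zero_iff.mpr hdet
    refine ⟨v, hv, ?_⟩
    rw [Matrix.sub_mulVec, sub_eq_zero] at hv2
    rw [← hv2]
    simp
  choose v hv hXv using hev
  have hlin : LinearIndependent K v := by
    apply Module.End.eigenvectors_linearIndependent' (Matrix.toLin' X) l hinj v
    intro i
    refine ⟨?_, hv i⟩
    rw [Module.End.mem_eigenspace_iff, Matrix.toLin'_apply, hXv]
  set P : Mat r K := Matrix.of (fun i j => v j i) with hP
  have hPu : IsUnit P := by
    rw [← Matrix.linearIndependent_cols_iff_isUnit]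
    exact hlin
  obtain ⟨u, hu⟩ := hPu
  refine ⟨u, l, ?_, hind⟩
  have hXP : X * P = P * diagonal l := by
    ext i j
    have := congrFun (hXv j) i
    rw [Matrix.mul_diagonal]
    simp only [hP, Matrix.of_apply]
    rw [Matrix.mul_apply]
    simp only [Matrix.mulVec, dotProduct, Pi.smul_apply, smul_eq_mul] at this
    rw [mul_comm, ← this]
    rfl
  rw [hu, ← hXP, ← hu, mul_assoc, Units.mul_inv, mul_one]

end Vale.Agent.P002
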