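import Vale.Agent.P002.GenDer

/-!
# P002 PART III': linear algebra for the dimension count
-/

namespace Vale.Agent.P002

open Matrix Module

variable {g r : ℕ}

/-- A subspace on which a family of functionals is separating has coordinates among this
family. -/
theorem exists_coords {ι V : Type*} [DecidableEq ι] [Fintype ι] [AddCommGroup V] [Module ℂ V]
    (e : ι → V →ₗ[ℂ] ℂ) (Z : Submodule ℂ V) (hsep : ∀ z ∈ Z, (∀ i, e i z = 0) → z = 0) :
    ∃ I : Finset ι, (∀ z ∈ Z, (∀ i ∈ I, e i z = 0) → z = 0) ∧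
      ∀ a : ι → ℂ, ∃ z ∈ Z, ∀ i ∈ I, e i z = a i := by
  have key : ∀ n : ℕ, ∀ I : Finset ι, I.card = n → (∀ z ∈ Z, (∀ i ∈ I, e i z = 0) → z = 0) →
      ∃ I : Finset ι, (∀ z ∈ Z, (∀ i ∈ I, e i z = 0) → z = 0) ∧
        ∀ a : ι → ℂ, ∃ z ∈ Z, ∀ i ∈ I, e i z = a i := by
    intro n
    induction n with
    | zero =>
      intro I hI hinj
      rw [Finset.card_eq_zero] at hI
      subst hI
      exact ⟨∅, hinj, fun a => ⟨0, Z.zero_mem, fun i hi => absurd hi (Finset.notMem_empty i)⟩⟩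
    | succ n ih =>
      intro I hI hinj
      by_cases h : ∃ i ∈ I, ∀ z ∈ Z, (∀ j ∈ I.erase i, e j z = 0) → z = 0
      · obtain ⟨i, hi, h1⟩ := h
        exact ih (I.erase i) (by rw [Finset.card_erase_of_mem hi, hI]; rfl) h1
      · push Not at h
        choose! b hbZ hb0 hb1 using h
        refine ⟨I, hinj, fun a => ?_⟩
        have hne : ∀ i ∈ I, e i (b i) ≠ 0 := by
          intro i hi h0
          refine hb1 i hi (hinj _ (hbZ i hi) fun j hj => ?_)
          by_cases hij : j = i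
          · rw [hij]; exact h0
          · exact hb0 i hi j (Finset.mem_erase.2 ⟨hij, hj⟩)
        refine ⟨∑ i ∈ I, (a i / e i (b i)) • b i,
          Z.sum_mem fun i hi => Z.smul_mem _ (hbZ i hi), fun j hj => ?_⟩
        rw [map_sum, Finset.sum_eq_single j]
        · rw [map_smul, smul_eq_mul, div_mul_cancel₀ _ (hne j hj)]
        · intro i hi hij
          rw [map_smul, hb0 i hi j (Finset.mem_erase.2 ⟨hij.symm, hj⟩), smul_zero]
        · intro h; exact absurd hj h
  exact key _ Finset.univ rfl fun z hz h => hsep z hz fun i => h i (Finset.mem_univ i)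

theorem finrank_map_inj {A B : Type*} [AddCommGroup A] [Module ℂ A] [AddCommGroup B]
    [Module ℂ B] (f : A →ₗ[ℂ] B) (hf : Function.Injective f) (p : Submodule ℂ A) :
    finrank ℂ (p.map f) = finrank ℂ p :=
  (LinearEquiv.finrank_eq (Submodule.equivMapOfInjective f hf p)).symm

/-- Rank-nullity for subspaces. -/
theorem finrank_eq_map_add {A B : Type*} [AddCommGroup A] [Module ℂ A] [AddCommGroup B]
    [Module ℂ B] [FiniteDimensional ℂ A] (H : Submodule ℂ A) (f : A →ₗ[ℂ] B) :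
    finrank ℂ H = finrank ℂ (H.map f) + finrank ℂ (H ⊓ LinearMap.ker f : Submodule ℂ A) := by
  have h1 := LinearMap.finrank_range_add_finrank_ker (f.domRestrict H)
  rw [LinearMap.range_domRestrict] at h1
  have h2 : finrank ℂ (LinearMap.ker (f.domRestrict H)) =
      finrank ℂ (H ⊓ LinearMap.ker f : Submodule ℂ A) := by
    have h3 : (LinearMap.ker (f.domRestrict H)).map H.subtype = H ⊓ LinearMap.ker f := by
      ext x
      rw [Submodule.mem_map]
      constructor
      · rintro ⟨y, hy, rfl⟩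
        exact ⟨y.2, hy⟩
      · rintro ⟨hx, hx'⟩
        exact ⟨⟨x, hx⟩, hx', rfl⟩
    rw [← h3, finrank_map_inj _ H.injective_subtype]
  rw [h2] at h1
  exact h1.symm

/-- Dimension of a subspace of a product (first projection). -/
theorem finrank_prod_fst {A B : Type*} [AddCommGroup A] [Module ℂ A] [AddCommGroup B] [Module ℂ B]
    [FiniteDimensional ℂ A] [FiniteDimensional ℂ B] (T : Submodule ℂ (A × B)) :
    finrank ℂ T = finrank ℂ (T.map (LinearMap.fst ℂ A B)) +
      finrank ℂ (T.comap (LinearMap.inr ℂ A B)) := by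
  rw [finrank_eq_map_add T (LinearMap.fst ℂ A B)]
  congr 1
  have h3 : (T.comap (LinearMap.inr ℂ A B)).map (LinearMap.inr ℂ A B) =
      T ⊓ LinearMap.ker (LinearMap.fst ℂ A B) := by
    ext x
    rw [Submodule.mem_map]
    constructor
    · rintro ⟨y, hy, rfl⟩
      exact ⟨hy, rfl⟩
    · rintro ⟨hx, hx'⟩
      have hx'' : x.1 = 0 := hx'
      have : x = LinearMap.inr ℂ A B x.2 := Prod.ext hx'' rfl
      exact ⟨x.2, by rw [Submodule.mem_comap, ← this]; exact hx, this.symm⟩
  rw [← h3, finrank_map_inj _ LinearMap.inr_injective]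

/-- Dimension of a subspace of a product (second projection). -/
theorem finrank_prod_snd {A B : Type*} [AddCommGroup A] [Module ℂ A] [AddCommGroup B] [Module ℂ B]
    [FiniteDimensional ℂ A] [FiniteDimensional ℂ B] (T : Submodule ℂ (A × B)) :
    finrank ℂ T = finrank ℂ (T.map (LinearMap.snd ℂ A B)) +
      finrank ℂ (T.comap (LinearMap.inl ℂ A B)) := by
  rw [finrank_eq_map_add T (LinearMap.snd ℂ A B)]
  congr 1
  have h3 : (T.comap (LinearMap.inl ℂ A B)).map (LinearMap.inl ℂ A B) =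
      T ⊓ LinearMap.ker (LinearMap.snd ℂ A B) := by
    ext x
    rw [Submodule.mem_map]
    constructor
    · rintro ⟨y, hy, rfl⟩
      exact ⟨hy, rfl⟩
    · rintro ⟨hx, hx'⟩
      have hx'' : x.2 = 0 := hx'
      have : x = LinearMap.inl ℂ A B x.1 := Prod.ext rfl hx''
      exact ⟨x.1, by rw [Submodule.mem_comap, ← this]; exact hx, this.symm⟩
  rw [← h3, finrank_map_inj _ LinearMap.inl_injective]

/-- Intertwiners from `η` to `θ`. -/
def homComm {V W : Type*} [AddCommGroup V] [Module ℂ V] [AddCommGroup W] [Module ℂ W]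
    (η : V →ₗ[ℂ] V) (θ : W →ₗ[ℂ] W) : Submodule ℂ (V →ₗ[ℂ] W) where
  carrier := {X | θ.comp X = X.comp η}
  add_mem' := fun {X Y} hX hY => by
    show θ.comp (X + Y) = (X + Y).comp η
    rw [LinearMap.comp_add, LinearMap.add_comp, hX, hY]
  zero_mem' := by
    show θ.comp 0 = (0 : V →ₗ[ℂ] W).comp η
    rw [LinearMap.comp_zero, LinearMap.zero_comp]
  smul_mem' := fun c X hX => by
    show θ.comp (c • X) = (c • X).comp η
    rw [LinearMap.comp_smul, LinearMap.smul_comp, hX]

theorem mem_homComm {V W : Type*} [AddCommGroup V] [Module ℂ V] [AddCommGroup W] [Module ℂ W]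
    {η : V →ₗ[ℂ] V} {θ : W →ₗ[ℂ] W} {X : V →ₗ[ℂ] W} :
    X ∈ homComm η θ ↔ θ.comp X = X.comp η := Iff.rfl

/-- Left eigenvectors. -/
theorem finrank_ker_dualMap {V : Type*} [AddCommGroup V] [Module ℂ V] [FiniteDimensional ℂ V]
    (ξ : V →ₗ[ℂ] V) : finrank ℂ (LinearMap.ker ξ.dualMap) = finrank ℂ (LinearMap.ker ξ) := by
  have h4 := Subspace.finrank_add_finrank_dualAnnihilator_eq (LinearMap.range ξ)
  have h5 := LinearMap.finrank_range_add_finrank_ker ξ
  rw [← LinearMap.ker_dualMap_eq_dualAnnihilator_range] at h4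
  omega

theorem finrank_line_le {V W : Type*} [AddCommGroup V] [Module ℂ V] [FiniteDimensional ℂ V]
    [AddCommGroup W] [Module ℂ W] [FiniteDimensional ℂ W] (η : V →ₗ[ℂ] V) (θ : W →ₗ[ℂ] W)
    (μ : ℂ) (w : W) (hθw : θ w = μ • w) (ℓ : W →ₗ[ℂ] ℂ) (hℓ : ℓ w = 1)
    (K : Submodule ℂ (V →ₗ[ℂ] W)) (hK : K ≤ homComm η θ)
    (hK' : ∀ X ∈ K, ∀ v, X v = ℓ (X v) • w) :
    finrank ℂ K ≤ finrank ℂ (LinearMap.ker (η - μ • LinearMap.id)) := by
  rw [finrank_eq_map_add K (LinearMap.compRight ℂ ℓ), ← finrank_ker_dualMap]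
  have h1 : K ⊓ LinearMap.ker (LinearMap.compRight ℂ ℓ : (V →ₗ[ℂ] W) →ₗ[ℂ] _) = ⊥ := by
    rw [eq_bot_iff]
    rintro X ⟨hX, hX'⟩
    rw [Submodule.mem_bot]
    ext v
    have h2 : ℓ (X v) = 0 := LinearMap.congr_fun hX' v
    rw [hK' X hX v, h2, zero_smul, LinearMap.zero_apply]
  rw [h1, finrank_bot, add_zero]
  refine Submodule.finrank_mono ?_
  rintro _ ⟨X, hX, rfl⟩
  rw [LinearMap.mem_ker]
  ext v
  have h4 : θ (X v) = X (η v) := LinearMap.congr_fun (hK hX) v
  show ℓ (X ((η - μ • LinearMap.id : V →ₗ[ℂ] V) v)) = 0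
  rw [LinearMap.sub_apply, map_sub, map_sub, ← h4, LinearMap.smul_apply, LinearMap.id_apply,
    map_smul, map_smul]
  have h5 : θ (X v) = ℓ (X v) • μ • w := by rw [← hθw, ← map_smul, ← hK' X hX v]
  rw [h5, map_smul, map_smul, hℓ, smul_eq_mul, smul_eq_mul, smul_eq_mul, mul_one, mul_comm,
    sub_self]

theorem finrank_homComm_le {V : Type} [AddCommGroup V] [Module ℂ V] [FiniteDimensional ℂ V]
    (η : V →ₗ[ℂ] V) (m : ℕ)
    (hm : ∀ μ : ℂ, finrank ℂ (LinearMap.ker (η - μ • LinearMap.id)) ≤ m) :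
    ∀ (n : ℕ) (W : Type) [AddCommGroup W] [Module ℂ W] [FiniteDimensional ℂ W]
      (θ : W →ₗ[ℂ] W), finrank ℂ W = n → finrank ℂ (homComm η θ) ≤ m * n := by
  intro n
  induction n with
  | zero =>
    intro W _ _ _ θ hW
    have : Subsingleton W := finrank_zero_iff.1 hW
    have h1 : finrank ℂ (V →ₗ[ℂ] W) = 0 := finrank_zero_of_subsingleton
    rw [mul_zero, ← h1]
    exact Submodule.finrank_le _
  | succ n ih =>
    intro W _ _ _ θ hW
    have : Nontrivial W := nontrivial_of_finrank_pos (R := ℂ) (by rw [hW]; exact Nat.succ_pos n)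
    obtain ⟨μ, hμ⟩ := Module.End.exists_eigenvalue θ
    obtain ⟨w, hw⟩ := hμ.exists_hasEigenvector
    have hθw : θ w = μ • w := hw.apply_eq_smul
    have hw0 : w ≠ 0 := hw.2
    obtain ⟨L, hL⟩ : ∃ L : Submodule ℂ W, L = Submodule.span ℂ {w} := ⟨_, rfl⟩
    have hLθ : L ≤ L.comap θ := by
      rw [hL, Submodule.span_singleton_le_iff_mem, Submodule.mem_comap, hθw]
      exact Submodule.smul_mem _ _ (Submodule.mem_span_singleton_self w)
    have hquot : finrank ℂ (W ⧸ L) = n := by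
      have h1 := Submodule.finrank_quotient_add_finrank L
      rw [hL, finrank_span_singleton hw0, ← hL, hW] at h1
      omega
    obtain ⟨ℓ, hℓ⟩ : ∃ ℓ : W →ₗ[ℂ] ℂ, ℓ w = 1 := by
      have h3 : ¬ ∀ φ : Module.Dual ℂ W, φ w = 0 := fun h =>
        hw0 ((Module.forall_dual_apply_eq_zero_iff ℂ w).1 h)
      push Not at h3
      obtain ⟨φ, hφ⟩ := h3
      exact ⟨(φ w)⁻¹ • φ, by rw [LinearMap.smul_apply, smul_eq_mul, inv_mul_cancel₀ hφ]⟩
    have h2 : finrank ℂ ((homComm η θ).map (LinearMap.compRight ℂ L.mkQ)) ≤ m * n := by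
      refine le_trans (Submodule.finrank_mono ?_) (ih (W ⧸ L) (L.mapQ L θ hLθ) hquot)
      rintro _ ⟨X, hX, rfl⟩
      rw [mem_homComm]
      ext v
      have h3 : θ (X v) = X (η v) := LinearMap.congr_fun hX v
      simp [h3]
    have h3 : finrank ℂ (homComm η θ ⊓ LinearMap.ker (LinearMap.compRight ℂ L.mkQ) :
        Submodule ℂ (V →ₗ[ℂ] W)) ≤ m := by
      refine le_trans (finrank_line_le η θ μ w hθw ℓ hℓ _ inf_le_left fun X hX v => ?_) (hm μ)
      have h4 : L.mkQ (X v) = 0 := LinearMap.congr_fun hX.2 v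
      rw [Submodule.mkQ_apply, Submodule.Quotient.mk_eq_zero] at h4
      have h5 : X v ∈ Submodule.span ℂ {w} := hL ▸ h4
      rw [Submodule.mem_span_singleton] at h5
      obtain ⟨c, hc⟩ := h5
      rw [← hc, map_smul, hℓ, smul_eq_mul, mul_one]
    rw [finrank_eq_map_add (homComm η θ) (LinearMap.compRight ℂ L.mkQ), mul_add, mul_one]
    omega

/-- The centralizer of a family of matrices. -/
def centr {κ : Type*} (y : κ → Mat r ℂ) : Submodule ℂ (Mat r ℂ) where
  carrier := {N | ∀ k, Commute N (y k)}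
  add_mem' := fun h1 h2 k => (h1 k).add_left (h2 k)
  zero_mem' := fun k => Commute.zero_left _
  smul_mem' := fun c N h k => (h k).smul_left c

theorem mem_centr {κ : Type*} {y : κ → Mat r ℂ} {N : Mat r ℂ} :
    N ∈ centr y ↔ ∀ k, Commute N (y k) := Iff.rfl

/-- Dimension of the centralizer of one matrix. -/
theorem finrank_centr_single (η : Mat r ℂ) (m : ℕ)
    (hm : ∀ μ : ℂ, finrank ℂ (LinearMap.ker (Matrix.toLin' η - μ • LinearMap.id)) ≤ m) :
    finrank ℂ (centr fun _ : Unit => η) ≤ m * r := by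
  have h1 := finrank_homComm_le (Matrix.toLin' η) m hm r (Fin r → ℂ) (Matrix.toLin' η) (by simp)
  refine le_trans ?_ h1
  rw [← finrank_map_inj (Matrix.toLin' : Mat r ℂ ≃ₗ[ℂ] _).toLinearMap
    (Matrix.toLin' : Mat r ℂ ≃ₗ[ℂ] _).injective]
  refine Submodule.finrank_mono ?_
  rintro _ ⟨N, hN, rfl⟩
  rw [mem_homComm]
  have h2 : N * η = η * N := hN ()
  show (Matrix.toLin' η).comp (Matrix.toLin' N) = (Matrix.toLin' N).comp (Matrix.toLin' η)
  rw [← Matrix.toLin'_mul, ← Matrix.toLin'_mul, h2]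

/-- Endomorphisms that map the kernel of `E₀` into its range, up to scalars. -/
theorem finrank_defect_le {V : Type*} [AddCommGroup V] [Module ℂ V] [FiniteDimensional ℂ V]
    (E₀ : V →ₗ[ℂ] V) (S : Submodule ℂ (V →ₗ[ℂ] V))
    (hS : ∀ X ∈ S, ∃ μ : ℂ, ∀ v, E₀ v = 0 → X v - μ • v ∈ LinearMap.range E₀) :
    finrank ℂ S + finrank ℂ (LinearMap.ker E₀) * finrank ℂ (LinearMap.ker E₀) ≤
      finrank ℂ V * finrank ℂ V + 1 := by
  obtain ⟨Θ, hΘ⟩ : ∃ Θ : (V →ₗ[ℂ] V) →ₗ[ℂ] (LinearMap.ker E₀ →ₗ[ℂ] V ⧸ LinearMap.range E₀),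
      ∀ X v, Θ X v = (LinearMap.range E₀).mkQ (X v) :=
    ⟨(LinearMap.compRight ℂ (LinearMap.range E₀).mkQ).comp
      (LinearMap.lcomp ℂ V (LinearMap.ker E₀).subtype), fun X v => rfl⟩
  have hsurj : LinearMap.range Θ = ⊤ := by
    rw [LinearMap.range_eq_top]
    intro f
    obtain ⟨s, hs⟩ := (LinearMap.range E₀).mkQ.exists_rightInverse_of_surjective
      (LinearMap.range_eq_top.2 (Submodule.mkQ_surjective _))
    obtain ⟨X, hX⟩ := LinearMap.exists_extend (s.comp f)
    refine ⟨X, ?_⟩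
    refine LinearMap.ext fun v => ?_
    have h1 : X v = s (f v) := LinearMap.congr_fun hX v
    rw [hΘ, h1]
    exact LinearMap.congr_fun hs (f v)
  have h1 := LinearMap.finrank_range_add_finrank_ker Θ
  have h2 : finrank ℂ (LinearMap.ker E₀ →ₗ[ℂ] V ⧸ LinearMap.range E₀) =
      finrank ℂ (LinearMap.ker E₀) * finrank ℂ (LinearMap.ker E₀) := by
    rw [Module.finrank_linearMap]
    congr 1
    have h3 := Submodule.finrank_quotient_add_finrank (LinearMap.range E₀)
    have h4 := LinearMap.finrank_range_add_finrank_ker E₀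
    omega
  rw [hsurj, finrank_top, h2, Module.finrank_linearMap] at h1
  have h5 := finrank_eq_map_add S Θ
  have h6 : finrank ℂ (S.map Θ) ≤ 1 := by
    have h7 : S.map Θ ≤ Submodule.span ℂ {Θ LinearMap.id} := by
      rintro _ ⟨X, hX, rfl⟩
      obtain ⟨μ, hμ⟩ := hS X hX
      rw [Submodule.mem_span_singleton]
      refine ⟨μ, ?_⟩
      refine LinearMap.ext fun v => ?_
      rw [LinearMap.smul_apply, hΘ, hΘ, ← map_smul, eq_comm, ← sub_eq_zero, ← map_sub,
        Submodule.mkQ_apply, Submodule.Quotient.mk_eq_zero]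
      exact hμ v v.2
    refine (Submodule.finrank_mono h7).trans ?_
    refine (finrank_span_le_card _).trans ?_
    simp
  have h8 : finrank ℂ (S ⊓ LinearMap.ker Θ : Submodule ℂ (V →ₗ[ℂ] V)) ≤
      finrank ℂ (LinearMap.ker Θ) := Submodule.finrank_mono inf_le_right
  omega

section der

variable (δ : Derivation ℤ ℂ ℂ)

theorem map_der_mul (M N : Mat r ℂ) : (M * N).map δ = M.map δ * N + M * N.map δ := by
  ext i j
  simp only [Matrix.map_apply, Matrix.mul_apply, Matrix.add_apply, map_sum, Derivation.leibniz,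
    smul_eq_mul, Finset.sum_add_distrib]
  rw [add_comm]
  congr 1
  refine Finset.sum_congr rfl fun k _ => mul_comm _ _

theorem map_der_mulVec (M : Mat r ℂ) (v : Fin r → ℂ) :
    (fun i => δ ((M *ᵥ v) i)) = M.map δ *ᵥ v + M *ᵥ fun i => δ (v i) := by
  ext i
  simp only [Matrix.mulVec, dotProduct, Matrix.map_apply, Pi.add_apply, map_sum,
    Derivation.leibniz, smul_eq_mul, Finset.sum_add_distrib]
  rw [add_comm]
  congr 1
  refine Finset.sum_congr rfl fun k _ => mul_comm _ _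

end der

/-- The dimension count of PART III'. -/
theorem count_main {κ : Type} [Fintype κ] (hκ : 2 ≤ Fintype.card κ) (y : κ → Mat r ℂ)
    (c : Fin r × Fin r → ℂ) (T : Submodule ℂ (κ → Mat r ℂ))
    (hgen : ∀ u ∈ T, ∀ γ : Fin r × Fin r → ℂ, ∃ δ : Derivation ℤ ℂ ℂ,
      (∀ k i j, δ (y k i j) = u k i j) ∧ ∀ p, δ (c p) = γ p)
    (hd : ∃ N ∈ centr y, ∀ a : ℂ, N ≠ a • (1 : Mat r ℂ)) :
    finrank ℂ T + finrank ℂ (centr y) ≤ Fintype.card κ * (r * r) := by
  classical
  -- coordinates on the centralizer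
  obtain ⟨I, hI1, hI2⟩ := exists_coords
    (fun p : Fin r × Fin r => (Matrix.entryLinearMap ℂ ℂ p.1 p.2 : Mat r ℂ →ₗ[ℂ] ℂ)) (centr y)
    (fun z _ h => by
      ext i j
      exact h (i, j))
  obtain ⟨η, hη, hηc⟩ := hI2 c
  have hηy : ∀ k, η * y k = y k * η := fun k => hη k
  -- the space of pairs
  obtain ⟨TT, hTT⟩ : ∃ TT : Submodule ℂ ((κ → Mat r ℂ) × Mat r ℂ), ∀ p, p ∈ TT ↔ p.1 ∈ T ∧
      ∀ k, (p.2 * y k - y k * p.2) + (η * p.1 k - p.1 k * η) = 0 := by
    refine ⟨{ carrier := {p | p.1 ∈ T ∧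
                ∀ k, (p.2 * y k - y k * p.2) + (η * p.1 k - p.1 k * η) = 0}
              add_mem' := ?_
              zero_mem' := ⟨T.zero_mem, fun k => by simp⟩
              smul_mem' := ?_ }, fun p => Iff.rfl⟩
    · rintro p q ⟨hp1, hp2⟩ ⟨hq1, hq2⟩
      refine ⟨T.add_mem hp1 hq1, fun k => ?_⟩
      have h1 := hp2 k
      have h2 := hq2 k
      calc ((p + q).2 * y k - y k * (p + q).2) + (η * (p + q).1 k - (p + q).1 k * η)
          = ((p.2 * y k - y k * p.2) + (η * p.1 k - p.1 k * η)) +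
            ((q.2 * y k - y k * q.2) + (η * q.1 k - q.1 k * η)) := by
            simp only [Prod.fst_add, Prod.snd_add, Pi.add_apply, Matrix.add_mul, Matrix.mul_add]
            abel
        _ = 0 := by rw [h1, h2, add_zero]
    · rintro a p ⟨hp1, hp2⟩
      refine ⟨T.smul_mem a hp1, fun k => ?_⟩
      have h1 := hp2 k
      calc ((a • p).2 * y k - y k * (a • p).2) + (η * (a • p).1 k - (a • p).1 k * η)
          = a • ((p.2 * y k - y k * p.2) + (η * p.1 k - p.1 k * η)) := by
            simp only [Prod.smul_fst, Prod.smul_snd, Pi.smul_apply, Matrix.smul_mul,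
              Matrix.mul_smul, smul_add, smul_sub]
        _ = 0 := by rw [h1, smul_zero]
  -- derivative of the commutation relation
  have hder : ∀ δ : Derivation ℤ ℂ ℂ, ∀ u : κ → Mat r ℂ, (∀ k i j, δ (y k i j) = u k i j) →
      ∀ k, (η.map δ * y k - y k * η.map δ) + (η * u k - u k * η) = 0 := by
    intro δ u hδ k
    have hu : (y k).map δ = u k := by ext i j; exact hδ k i j
    have h1 := congrArg (fun M : Mat r ℂ => M.map δ) (hηy k)
    simp only [map_der_mul, hu] at h1
    rw [sub_add_sub_comm, h1, sub_eq_zero]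
    abel
  have claimA : ∀ p ∈ TT, ∃ δ : Derivation ℤ ℂ ℂ, (∀ k i j, δ (y k i j) = p.1 k i j) ∧
      η.map δ = p.2 := by
    intro p hp
    obtain ⟨hp1, hp2⟩ := (hTT p).1 hp
    obtain ⟨δ, hδ1, hδ2⟩ := hgen p.1 hp1 fun q => p.2 q.1 q.2
    refine ⟨δ, hδ1, ?_⟩
    have h1 : η.map δ - p.2 ∈ centr y := by
      intro k
      show (η.map δ - p.2) * y k = y k * (η.map δ - p.2)
      have h2 := hder δ p.1 hδ1 k
      have h3 := hp2 k
      have h4 : (η.map δ * y k - y k * η.map δ) = (p.2 * y k - y k * p.2) :=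
        add_right_cancel (h2.trans h3.symm)
      rw [Matrix.sub_mul, Matrix.mul_sub, sub_eq_sub_iff_sub_eq_sub]
      have h5 : η.map δ * y k - y k * η.map δ = p.2 * y k - y k * p.2 := h4
      rw [h5]
    have h2 := hI1 _ h1 fun q hq => by
      have h3 := hηc q hq
      simp only [Matrix.entryLinearMap_apply] at h3 ⊢
      rw [Matrix.sub_apply, Matrix.map_apply, h3, hδ2, sub_self]
    exact sub_eq_zero.1 h2
  have claimB : TT.map (LinearMap.fst ℂ _ _) = T := by
    ext u
    rw [Submodule.mem_map]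
    constructor
    · rintro ⟨p, hp, rfl⟩
      exact ((hTT p).1 hp).1
    · intro hu
      obtain ⟨δ, hδ1, -⟩ := hgen u hu 0
      exact ⟨(u, η.map δ), (hTT _).2 ⟨hu, hder δ u hδ1⟩, rfl⟩
  have claimB' : TT.comap (LinearMap.inr ℂ (κ → Mat r ℂ) (Mat r ℂ)) = centr y := by
    ext N
    rw [Submodule.mem_comap, hTT, mem_centr]
    constructor
    · rintro ⟨-, h⟩ k
      have h1 := h k
      simp only [LinearMap.inr_apply, Pi.zero_apply, Matrix.mul_zero, Matrix.zero_mul, sub_self,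
        add_zero] at h1
      exact sub_eq_zero.1 h1
    · intro h
      refine ⟨T.zero_mem, fun k => ?_⟩
      simp only [LinearMap.inr_apply, Pi.zero_apply, Matrix.mul_zero, Matrix.zero_mul, sub_self,
        add_zero]
      exact sub_eq_zero.2 (h k)
  -- `η` is not a scalar
  have hns : ∀ a : ℂ, η ≠ a • (1 : Mat r ℂ) := by
    intro a ha
    obtain ⟨N, hN, hN'⟩ := hd
    have h1 : N ∈ TT.comap (LinearMap.inr ℂ (κ → Mat r ℂ) (Mat r ℂ)) := claimB' ▸ hN
    obtain ⟨δ, -, hδ⟩ := claimA _ h1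
    apply hN' (δ a)
    have h2 : η.map δ = N := hδ
    rw [← h2, ha]
    ext i j
    rw [Matrix.map_apply, Matrix.smul_apply, Matrix.smul_apply, Matrix.one_apply]
    split_ifs with hij
    · rw [smul_eq_mul, mul_one, smul_eq_mul, mul_one]
    · rw [smul_zero, smul_zero, map_zero]
  -- maximal geometric multiplicity
  obtain ⟨lam, hlam⟩ : ∃ lam : ℂ, ∀ μ : ℂ,
      finrank ℂ (LinearMap.ker (Matrix.toLin' η - μ • LinearMap.id)) ≤
        finrank ℂ (LinearMap.ker (Matrix.toLin' η - lam • LinearMap.id)) := by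
    have hbdd : BddAbove (Set.range fun μ : ℂ =>
        finrank ℂ (LinearMap.ker (Matrix.toLin' η - μ • LinearMap.id))) := by
      refine ⟨r, ?_⟩
      rintro _ ⟨μ, rfl⟩
      refine (Submodule.finrank_le _).trans ?_
      simp
    obtain ⟨lam, hlam⟩ := Nat.sSup_mem (Set.range_nonempty _) hbdd
    exact ⟨lam, fun μ => by
      simp only at hlam
      rw [hlam]
      exact le_csSup hbdd ⟨μ, rfl⟩⟩
  obtain ⟨m, hm⟩ : ∃ m, m = finrank ℂ (LinearMap.ker (Matrix.toLin' η - lam • LinearMap.id)) :=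
    ⟨_, rfl⟩
  rw [← hm] at hlam
  have hmr : m < r := by
    have h1 : m ≤ r := by
      rw [hm]
      refine (Submodule.finrank_le _).trans ?_
      simp
    refine lt_of_le_of_ne h1 fun h2 => ?_
    have h3 : LinearMap.ker (Matrix.toLin' η - lam • LinearMap.id) = ⊤ := by
      apply Submodule.eq_top_of_finrank_eq
      rw [← hm, h2]
      simp
    rw [LinearMap.ker_eq_top, sub_eq_zero] at h3
    apply hns lam
    apply Matrix.toLin'.injective
    rw [h3, map_smul, Matrix.toLin'_one]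
  -- bound of the pairs
  have hsnd : finrank ℂ (TT.map (LinearMap.snd ℂ (κ → Mat r ℂ) (Mat r ℂ))) + m * m ≤
      r * r + 1 := by
    have h1 := finrank_defect_le (Matrix.toLin' η - lam • LinearMap.id)
      ((TT.map (LinearMap.snd ℂ (κ → Mat r ℂ) (Mat r ℂ))).map
        (Matrix.toLin' : Mat r ℂ ≃ₗ[ℂ] _).toLinearMap) ?_
    · rw [finrank_map_inj _ (Matrix.toLin' : Mat r ℂ ≃ₗ[ℂ] _).injective, ← hm] at h1
      simpa using h1
    · rintro _ ⟨_, ⟨p, hp, rfl⟩, rfl⟩
      obtain ⟨δ, -, hδ⟩ := claimA p hp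
      refine ⟨δ lam, fun v hv => ?_⟩
      refine ⟨-fun i => δ (v i), ?_⟩
      have h2 : η *ᵥ v = lam • v := by
        have := hv
        rw [LinearMap.sub_apply, Matrix.toLin'_apply, LinearMap.smul_apply, LinearMap.id_apply,
          sub_eq_zero] at this
        exact this
      have h3 := map_der_mulVec δ η v
      have h4 : (fun i => δ ((η *ᵥ v) i)) = δ lam • v + lam • fun i => δ (v i) := by
        ext i
        rw [h2]
        simp only [Pi.smul_apply, Pi.add_apply, smul_eq_mul, Derivation.leibniz]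
        ring
      rw [h3] at h4
      show (Matrix.toLin' η - lam • LinearMap.id : (Fin r → ℂ) →ₗ[ℂ] _) (-fun i => δ (v i)) =
        Matrix.toLin' p.2 v - δ lam • v
      rw [map_neg, LinearMap.sub_apply, Matrix.toLin'_apply, LinearMap.smul_apply,
        LinearMap.id_apply, Matrix.toLin'_apply, ← hδ]
      have h5 : η.map δ *ᵥ v = δ lam • v + lam • (fun i => δ (v i)) -
          η *ᵥ (fun i => δ (v i)) := by rw [← h4]; abel
      rw [h5]
      abel
  have hinl : finrank ℂ (TT.comap (LinearMap.inl ℂ (κ → Mat r ℂ) (Mat r ℂ))) ≤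
      Fintype.card κ * (m * r) := by
    have hmem : ∀ u ∈ TT.comap (LinearMap.inl ℂ (κ → Mat r ℂ) (Mat r ℂ)), ∀ k,
        u k ∈ centr fun _ : Unit => η := by
      intro u hu k _
      rw [Submodule.mem_comap, hTT] at hu
      have h2 := hu.2 k
      simp only [LinearMap.inl_apply, Matrix.mul_zero, Matrix.zero_mul, sub_self, zero_add] at h2
      exact (sub_eq_zero.1 h2).symm
    refine (LinearMap.finrank_le_finrank_of_injective (f := (LinearMap.pi fun k =>
      ((LinearMap.proj k).comp (Submodule.subtype _)).codRestrict (centr fun _ : Unit => η)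
        fun u => hmem u.1 u.2 k :
          TT.comap (LinearMap.inl ℂ (κ → Mat r ℂ) (Mat r ℂ)) →ₗ[ℂ]
            (κ → centr fun _ : Unit => η))) ?_).trans ?_
    · intro u v huv
      apply Subtype.ext
      funext k
      exact congrArg Subtype.val (congrFun huv k)
    · rw [Module.finrank_pi_fintype, Finset.sum_const, Finset.card_univ, smul_eq_mul]
      exact Nat.mul_le_mul_left _ (finrank_centr_single η m hlam)
  have e1 := finrank_prod_fst TT
  have e2 := finrank_prod_snd TT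
  rw [claimB, claimB'] at e1
  rw [← e1, e2]
  have h3 : Fintype.card κ * (m * r) + (r * r + 1) ≤ Fintype.card κ * (r * r) + m * m := by
    obtain ⟨q, hq⟩ := Nat.exists_eq_add_of_le hκ
    obtain ⟨t, ht⟩ := Nat.exists_eq_add_of_lt hmr
    rw [hq, ht]
    ring_nf
    nlinarith [Nat.zero_le (q * m), Nat.zero_le (q * t), Nat.zero_le (q * t * m),
      Nat.zero_le (q * t * t), Nat.zero_le (t * t)]
  omega

end Vale.Agent.P002
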