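import Vale.Agent.P002.AlgIndep

/-!
# P002 PART III': derivations of `ℂ` with prescribed values; dense algebraically independent tuples
-/

namespace Vale.Agent.P002

/-- Lifting along square-zero surjections for algebraic extensions of fraction fields in
characteristic zero. -/
theorem exists_ringHom_lift {P K B : Type} [CommRing P] [IsDomain P] [Field K] [CharZero K]
    [CommRing B] [Algebra P K] [FaithfulSMul P K] [Algebra.IsAlgebraic P K] (g : B →+* K)
    (hg : Function.Surjective g) (hker : RingHom.ker g ^ 2 = ⊥) (h : P →+* B)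
    (hgh : g.comp h = algebraMap P K) :
    ∃ ψ : K →+* B, g.comp ψ = RingHom.id K ∧ ψ.comp (algebraMap P K) = h := by
  let _ : Algebra (FractionRing P) K := FractionRing.liftAlgebra P K
  have : IsScalarTower P (FractionRing P) K := FractionRing.isScalarTower_liftAlgebra P K
  have : Algebra.IsAlgebraic (FractionRing P) K :=
    (IsFractionRing.comap_isAlgebraic_iff (A := P) (K := FractionRing P) (C := K)).1 inferInstance
  have : CharZero (FractionRing P) := (algebraMap (FractionRing P) K).charZero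
  have : Algebra.FormallyEtale (FractionRing P) K := Algebra.FormallyEtale.of_isSeparable _ _
  have : Algebra.FormallyEtale P (FractionRing P) :=
    Algebra.FormallyEtale.of_isLocalization (nonZeroDivisors P)
  have : Algebra.FormallyEtale P K := Algebra.FormallyEtale.comp P (FractionRing P) K
  let _ : Algebra P B := h.toAlgebra
  obtain ⟨g', hg'⟩ : ∃ g' : B →ₐ[P] K, ∀ b, g' b = g b :=
    ⟨{ g with commutes' := fun p => RingHom.congr_fun hgh p }, fun b => rfl⟩
  have hsurj : Function.Surjective g' := fun k => by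
    obtain ⟨b, hb⟩ := hg k
    exact ⟨b, (hg' b).trans hb⟩
  have hnil : IsNilpotent (RingHom.ker (g' : B →+* K)) := by
    refine ⟨2, ?_⟩
    have : RingHom.ker (g' : B →+* K) = RingHom.ker g := by
      ext b
      rw [RingHom.mem_ker, RingHom.mem_ker]
      show g' b = 0 ↔ g b = 0
      rw [hg']
    rw [this, hker]
    rfl
  refine ⟨(Algebra.FormallySmooth.liftOfSurjective (AlgHom.id P K) g' hsurj hnil :
    K →ₐ[P] B), ?_, ?_⟩
  · ext k
    have := Algebra.FormallySmooth.liftOfSurjective_apply (AlgHom.id P K) g' hsurj hnil k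
    rw [hg'] at this
    exact this
  · ext p
    exact (Algebra.FormallySmooth.liftOfSurjective (AlgHom.id P K) g' hsurj hnil).commutes p

/-- A ring homomorphism to the dual numbers over `ℂ` with prescribed values on a transcendence
basis. -/
theorem exists_dual_hom (K₀ : Subfield ℂ) {t : Type} (x : t → ℂ) (ht : IsTranscendenceBasis K₀ x)
    (w : t → ℂ) :
    ∃ ψ : ℂ →+* TrivSqZeroExt ℂ ℂ, (∀ z, (ψ z).fst = z) ∧ (∀ i, (ψ (x i)).snd = w i) ∧
      ∀ c ∈ K₀, (ψ c).snd = 0 := by
  have halg : Algebra.IsAlgebraic (Algebra.adjoin K₀ (Set.range x)) ℂ := ht.isAlgebraic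
  obtain ⟨e, he, hes⟩ : ∃ e : MvPolynomial t K₀ →ₐ[K₀] Algebra.adjoin K₀ (Set.range x),
      (∀ q, algebraMap (Algebra.adjoin K₀ (Set.range x)) ℂ (e q) = MvPolynomial.aeval x q) ∧
        Function.Surjective e :=
    ⟨(ht.1.aevalEquiv : MvPolynomial t K₀ →ₐ[K₀] _), fun q =>
      AlgebraicIndependent.algebraMap_aevalEquiv ht.1 q, ht.1.aevalEquiv.surjective⟩
  obtain ⟨e', he'⟩ : ∃ e' : Algebra.adjoin K₀ (Set.range x) →ₐ[K₀] MvPolynomial t K₀,
      ∀ q, e' (e q) = q := by
    have hinj : Function.Injective e := fun p q hpq => ht.1 (by rw [← he, ← he, hpq])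
    exact ⟨(AlgEquiv.ofBijective e ⟨hinj, hes⟩).symm, fun q =>
      (AlgEquiv.ofBijective e ⟨hinj, hes⟩).symm_apply_apply q⟩
  obtain ⟨j, hj⟩ : ∃ j : K₀ →+* TrivSqZeroExt ℂ ℂ, ∀ c : K₀, j c = TrivSqZeroExt.inl (c : ℂ) :=
    ⟨(TrivSqZeroExt.inlHom ℂ ℂ).comp (algebraMap K₀ ℂ), fun c => rfl⟩
  obtain ⟨h, hh⟩ : ∃ h : Algebra.adjoin K₀ (Set.range x) →+* TrivSqZeroExt ℂ ℂ,
      ∀ q, h (e q) = MvPolynomial.eval₂ j
        (fun i : t => (TrivSqZeroExt.inl (x i) + TrivSqZeroExt.inr (w i) : TrivSqZeroExt ℂ ℂ))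
          q := by
    refine ⟨(MvPolynomial.eval₂Hom j (fun i : t => (TrivSqZeroExt.inl (x i) +
      TrivSqZeroExt.inr (w i) : TrivSqZeroExt ℂ ℂ))).comp e'.toRingHom, fun q => ?_⟩
    rw [RingHom.comp_apply]
    have : e'.toRingHom (e q) = q := he' q
    rw [this]
    rfl
  obtain ⟨g, hg⟩ : ∃ g : TrivSqZeroExt ℂ ℂ →+* ℂ, ∀ x, g x = x.fst :=
    ⟨{ toFun := fun x => x.fst
       map_one' := TrivSqZeroExt.fst_one
       map_mul' := fun x y => TrivSqZeroExt.fst_mul x y
       map_zero' := TrivSqZeroExt.fst_zero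
       map_add' := fun x y => TrivSqZeroExt.fst_add x y }, fun x => rfl⟩
  have hsurj : Function.Surjective g := fun x => ⟨TrivSqZeroExt.inl x, by
    rw [hg, TrivSqZeroExt.fst_inl]⟩
  have hker : RingHom.ker g ^ 2 = ⊥ := by
    rw [sq, eq_bot_iff, Ideal.mul_le]
    intro x hx y hy
    rw [RingHom.mem_ker, hg] at hx hy
    rw [Ideal.mem_bot]
    ext
    · rw [TrivSqZeroExt.fst_mul, hx, zero_mul, TrivSqZeroExt.fst_zero]
    · rw [TrivSqZeroExt.snd_mul, hx, hy]
      simp
  have hgh : g.comp h = algebraMap (Algebra.adjoin K₀ (Set.range x)) ℂ := by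
    ext p
    obtain ⟨q, rfl⟩ := hes p
    rw [RingHom.comp_apply, hh, hg, he]
    have h1 : g.comp (MvPolynomial.eval₂Hom j
        (fun i : t => (TrivSqZeroExt.inl (x i) + TrivSqZeroExt.inr (w i) :
          TrivSqZeroExt ℂ ℂ))) =
        (MvPolynomial.aeval x : MvPolynomial t K₀ →ₐ[K₀] ℂ).toRingHom := by
      refine MvPolynomial.ringHom_ext (fun n => ?_) fun i => ?_
      · rw [RingHom.comp_apply, hg, MvPolynomial.coe_eval₂Hom, MvPolynomial.eval₂_C, hj,
          TrivSqZeroExt.fst_inl]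
        simp
        rfl
      · rw [RingHom.comp_apply, hg]
        simp
    have h2 := RingHom.congr_fun h1 q
    rw [RingHom.comp_apply, hg] at h2
    exact h2
  obtain ⟨ψ, hψ1, hψ2⟩ := exists_ringHom_lift g hsurj hker h hgh
  refine ⟨ψ, fun x => ?_, fun i => ?_, fun c hc => ?_⟩
  · rw [← hg]; exact RingHom.congr_fun hψ1 x
  · have h0 := he (MvPolynomial.X i)
    rw [MvPolynomial.aeval_X] at h0
    have h1 := RingHom.congr_fun hψ2 (e (MvPolynomial.X i))
    rw [RingHom.comp_apply, h0] at h1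
    rw [h1, hh, MvPolynomial.eval₂_X, TrivSqZeroExt.snd_add,
      TrivSqZeroExt.snd_inl, TrivSqZeroExt.snd_inr, zero_add]
  · have h0 := he (MvPolynomial.C ⟨c, hc⟩)
    have h1 := RingHom.congr_fun hψ2 (e (MvPolynomial.C ⟨c, hc⟩))
    rw [MvPolynomial.aeval_C] at h0
    have h2 : algebraMap K₀ ℂ ⟨c, hc⟩ = c := rfl
    rw [RingHom.comp_apply, h0, h2] at h1
    rw [h1, hh, MvPolynomial.eval₂_C, hj, TrivSqZeroExt.snd_inl]

/-- The derivation attached to a section of the dual numbers. -/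
theorem derivation_of_hom (ψ : ℂ →+* TrivSqZeroExt ℂ ℂ) (hψ : ∀ z, (ψ z).fst = z) :
    ∃ δ : Derivation ℤ ℂ ℂ, ∀ x, δ x = (ψ x).snd := by
  refine ⟨Derivation.mk' (AddMonoidHom.toIntLinearMap
    { toFun := fun x => (ψ x).snd
      map_zero' := by rw [map_zero, TrivSqZeroExt.snd_zero]
      map_add' := fun x y => by rw [map_add, TrivSqZeroExt.snd_add] }) fun x y => ?_,
    fun x => rfl⟩
  show (ψ (x * y)).snd = x • (ψ y).snd + y • (ψ x).snd
  rw [map_mul, TrivSqZeroExt.snd_mul, hψ, hψ]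
  congr 1
  show (ψ x).snd * y = y * (ψ x).snd
  rw [mul_comm]

/-- Derivations of `ℂ` over a subfield can be prescribed on algebraically independent numbers. -/
theorem exists_derivation (K₀ : Subfield ℂ) {ι : Type} (a : ι → ℂ)
    (ha : AlgebraicIndependent K₀ a) (v : ι → ℂ) :
    ∃ δ : Derivation ℤ ℂ ℂ, (∀ c ∈ K₀, δ c = 0) ∧ ∀ i, δ (a i) = v i := by
  classical
  obtain ⟨t, hst, ht⟩ := exists_isTranscendenceBasis_superset (R := K₀) (s := Set.range a)
    ha.coe_range
  obtain ⟨w, hw⟩ : ∃ w : t → ℂ, ∀ i, w ⟨a i, hst ⟨i, rfl⟩⟩ = v i := by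
    refine ⟨fun x => if h : ∃ i, a i = x then v h.choose else 0, fun i => ?_⟩
    have h : ∃ j, a j = a i := ⟨i, rfl⟩
    simp only
    rw [dif_pos h]
    congr 1
    exact ha.injective h.choose_spec
  obtain ⟨ψ, h1, h2, h3⟩ := exists_dual_hom K₀ _ ht w
  obtain ⟨δ, hδ⟩ := derivation_of_hom ψ h1
  refine ⟨δ, fun c hc => by rw [hδ]; exact h3 c hc, fun i => ?_⟩
  rw [hδ, ← hw]
  exact h2 ⟨a i, hst ⟨i, rfl⟩⟩

/-- Algebraically independent tuples are dense. -/
theorem exists_dense_algIndep (K₀ : Subfield ℂ) (hK₀ : Countable K₀) {ι : Type} [Finite ι]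
    (V : ι → Set ℂ) (hV : ∀ i, IsOpen (V i)) (hne : ∀ i, (V i).Nonempty) :
    ∃ t : ι → ℂ, (∀ i, t i ∈ V i) ∧ AlgebraicIndependent K₀ t := by
  induction ι using Finite.induction_empty_option with
  | of_equiv e ih =>
    obtain ⟨t, h1, h2⟩ := ih (V ∘ e) (fun i => hV _) (fun i => hne _)
    refine ⟨t ∘ e.symm, fun i => ?_, h2.comp _ e.symm.injective⟩
    have := h1 (e.symm i)
    simpa using this
  | h_empty => exact ⟨fun i => i.elim, fun i => i.elim, algebraicIndependent_empty_type_iff.2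
      (FaithfulSMul.algebraMap_injective K₀ ℂ)⟩
  | @h_option α _ ih =>
    obtain ⟨t, h1, h2⟩ := ih (fun i => V (some i)) (fun i => hV _) (fun i => hne _)
    -- the algebraic closure is countable
    have hcM : ∀ α : Type, Finite α → Countable (MvPolynomial α K₀) := by
      intro α hα
      rw [← Cardinal.mk_le_aleph0_iff]
      refine MvPolynomial.cardinalMk_le_max.trans ?_
      simp only [max_le_iff, le_refl, and_true]
      exact ⟨Cardinal.mk_le_aleph0, Cardinal.mk_le_aleph0⟩
    have hc0 : Countable (Algebra.adjoin K₀ (Set.range t)) := by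
      have := hcM α inferInstance
      have h3 : ((Algebra.adjoin K₀ (Set.range t) : Subalgebra K₀ ℂ) : Set ℂ).Countable := by
        rw [Algebra.adjoin_range_eq_range_aeval]
        exact Set.countable_range _
      exact h3.to_subtype
    have hcount : {x : ℂ | IsAlgebraic (Algebra.adjoin K₀ (Set.range t)) x}.Countable :=
      Algebraic.countable _ _
    obtain ⟨x, hx, hxV⟩ := (hcount.dense_compl ℂ).inter_open_nonempty (V none) (hV none)
      (hne none)
    refine ⟨fun o => o.elim x t, fun i => ?_, (h2.option_iff_transcendental x).2 hxV⟩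
    cases i with
    | none => exact hx
    | some i => exact h1 i

/-- Countable sets lie in countable subfields. -/
theorem exists_countable_subfield' (s : Set ℂ) (hs : s.Countable) :
    ∃ K₀ : Subfield ℂ, Countable K₀ ∧ s ⊆ (K₀ : Set ℂ) := by
  refine ⟨Subfield.closure s, ?_, Subfield.subset_closure⟩
  have := hs.to_subtype
  rw [← Cardinal.mk_le_aleph0_iff]
  refine (Subfield.cardinalMk_closure_le_max s).trans ?_
  simp only [max_le_iff, le_refl, and_true]
  exact Cardinal.mk_le_aleph0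

end Vale.Agent.P002
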