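import Vale.Agent.P002.GenPoint

/-!
# P002 PART III': annihilators, products of good functions, two handles
-/

namespace Vale.Agent.P002

open Matrix Module

variable {r : ℕ}

/-- The orthogonal complement for the trace form. -/
def annT (R : Submodule ℂ (Mat r ℂ)) : Submodule ℂ (Mat r ℂ) where
  carrier := {N | ∀ M ∈ R, trace (N * M) = 0}
  add_mem' := fun {a b} ha hb M hM => by rw [Matrix.add_mul, trace_add, ha M hM, hb M hM, add_zero]
  zero_mem' := fun M _ => by rw [Matrix.zero_mul, trace_zero]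
  smul_mem' := fun c a ha M hM => by rw [Matrix.smul_mul, trace_smul, ha M hM, smul_zero]

theorem mem_annT {R : Submodule ℂ (Mat r ℂ)} {N : Mat r ℂ} :
    N ∈ annT R ↔ ∀ M ∈ R, trace (N * M) = 0 := Iff.rfl

theorem finrank_annT (R : Submodule ℂ (Mat r ℂ)) :
    finrank ℂ R + finrank ℂ (annT R) = r * r := by
  have h1 := Subspace.finrank_add_finrank_dualAnnihilator_eq R
  obtain ⟨T, hT⟩ : ∃ T : Mat r ℂ →ₗ[ℂ] Module.Dual ℂ (Mat r ℂ), ∀ N M, T N M = trace (N * M) :=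
    ⟨{ toFun := fun N => (Matrix.traceLinearMap (Fin r) ℂ ℂ).comp (LinearMap.mulLeft ℂ N)
       map_add' := fun N N' => by
        ext M
        simp [Matrix.add_mul]
       map_smul' := fun c N => by
        ext M
        simp }, fun N M => rfl⟩
  have hinj : Function.Injective T := fun N N' h =>
    eq_of_trace_eq fun H => by rw [← hT, ← hT, h]
  have h2 : (annT R).map T = R.dualAnnihilator := by
    ext φ
    rw [Submodule.mem_map, Submodule.mem_dualAnnihilator]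
    constructor
    · rintro ⟨N, hN, rfl⟩ M hM
      rw [hT]; exact hN M hM
    · intro h
      obtain ⟨N, hN⟩ := exists_trace_repr φ
      exact ⟨N, fun M hM => by rw [← hN]; exact h M hM, LinearMap.ext fun M => by rw [hT, hN]⟩
  have h3 := finrank_map_inj T hinj (annT R)
  rw [h2] at h3
  rw [h3] at h1
  rw [h1, Module.finrank_matrix, Fintype.card_fin, Module.finrank_self, mul_one]

section normed

open scoped Matrix.Norms.Operator

/-- The determinant is an obstruction to surjectivity. -/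
theorem range_ne_top {E : Type*} [NormedAddCommGroup E] [NormedSpace ℂ E] [CompleteSpace E]
    (hr : 1 ≤ r) {Φ : E → Mat r ℂ} {Y : E} {D : E →L[ℂ] Mat r ℂ} (hD : HasStrictFDerivAt Φ D Y)
    (hdet : ∀ᶠ Y' in nhds Y, (Φ Y').det = 1) : D.range ≠ ⊤ := by
  intro htop
  have hr0 : 0 < r := hr
  have hmap := hD.map_nhds_eq_of_surj htop
  have h1 : {M : Mat r ℂ | M.det = 1} ∈ nhds (Φ Y) := hmap.ge hdet
  have hY : (Φ Y).det = 1 := mem_of_mem_nhds (s := {M : Mat r ℂ | M.det = 1}) h1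
  have hcont : Continuous fun c : ℂ => c • Φ Y := continuous_id.smul continuous_const
  have h2 : (fun c : ℂ => c • Φ Y) ⁻¹' {M : Mat r ℂ | M.det = 1} ∈ nhds (1 : ℂ) := by
    apply hcont.continuousAt
    have h0 : (1 : ℂ) • Φ Y = Φ Y := one_smul _ _
    show {M : Mat r ℂ | M.det = 1} ∈ nhds ((1 : ℂ) • Φ Y)
    rw [h0]
    exact h1
  have hCn : {c : ℂ | c ^ r = 1 → c = 1} ∈ nhds (1 : ℂ) := by
    have hfin : ({c : ℂ | c ^ r = 1 ∧ c ≠ 1}).Finite := by
      refine (Multiset.finite_toSet (Polynomial.nthRoots r (1 : ℂ))).subset ?_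
      rintro c ⟨h1, -⟩
      exact (Polynomial.mem_nthRoots hr0).2 h1
    have h1 : {c : ℂ | c ^ r = 1 → c = 1} = {c : ℂ | c ^ r = 1 ∧ c ≠ 1}ᶜ := by
      ext c
      simp only [Set.mem_ofPred_eq, Set.mem_compl_iff, not_and, not_not]
    rw [h1]
    refine hfin.isClosed.isOpen_compl.mem_nhds ?_
    simp
  have h3 : ({1} : Set ℂ) ∈ nhds (1 : ℂ) := by
    filter_upwards [h2, hCn] with c hc1 hc2
    have h4 : (c • Φ Y).det = 1 := hc1
    rw [det_smul, hY, mul_one, Fintype.card_fin] at h4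
    exact hc2 h4
  have h4 : (nhdsWithin (1 : ℂ) {1}ᶜ).NeBot := inferInstance
  have h5 : nhdsWithin (1 : ℂ) {1}ᶜ = ⊥ := by
    rw [← Filter.empty_mem_iff_bot]
    have h7 : ({1} : Set ℂ) ∈ nhdsWithin (1 : ℂ) {1}ᶜ := mem_nhdsWithin_of_mem_nhds h3
    have h6 := Filter.inter_mem h7 self_mem_nhdsWithin
    rw [Set.inter_compl_self] at h6
    exact h6
  exact h4.ne h5

/-- Functions which are strictly differentiable, compatibly with derivations over `K₀`. -/
def GoodG {G : Type} [Fintype G] (K₀ : Subfield ℂ) (f : (G → Mat r ℂ) → Mat r ℂ)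
    (Y : G → Mat r ℂ) : Prop :=
  ∃ D : (G → Mat r ℂ) →L[ℂ] Mat r ℂ, HasStrictFDerivAt f D Y ∧
    ∀ δ : Derivation ℤ ℂ ℂ, (∀ c ∈ K₀, δ c = 0) → (f Y).map δ = D fun k => (Y k).map δ

variable {G : Type} [Fintype G] {K₀ : Subfield ℂ} {f h : (G → Mat r ℂ) → Mat r ℂ}
  {Y : G → Mat r ℂ}

theorem GoodG.mul (hf : GoodG K₀ f Y) (hh : GoodG K₀ h Y) : GoodG K₀ (fun Y => f Y * h Y) Y := by
  obtain ⟨D, hD, hδ⟩ := hf
  obtain ⟨D', hD', hδ'⟩ := hh
  obtain ⟨D'', hD'', he⟩ := exists_deriv_mul hD hD'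
  refine ⟨D'', hD'', fun δ hδ0 => ?_⟩
  have h1 : (f Y * h Y).map δ = D (fun k => (Y k).map δ) * h Y +
      f Y * D' (fun k => (Y k).map δ) := by
    rw [map_der_mul, hδ δ hδ0, hδ' δ hδ0]
  exact h1.trans (he _).symm

theorem GoodG.inv (hf : GoodG K₀ f Y) (hu : IsUnit (f Y)) : GoodG K₀ (fun Y => (f Y)⁻¹) Y := by
  obtain ⟨D, hD, hδ⟩ := hf
  obtain ⟨D'', hD'', he⟩ := exists_deriv_inv hD hu
  refine ⟨D'', hD'', fun δ hδ0 => ?_⟩
  refine Eq.trans ?_ ((congrArg (fun M : Mat r ℂ => -((f Y)⁻¹ * M * (f Y)⁻¹))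
    (hδ δ hδ0)).trans (he _).symm)
  have hud : IsUnit (f Y).det := (Matrix.isUnit_iff_isUnit_det _).1 hu
  have h1 : f Y * (f Y)⁻¹ = 1 := Matrix.mul_nonsing_inv _ hud
  have h2 : (f Y)⁻¹ * f Y = 1 := Matrix.nonsing_inv_mul _ hud
  have h3 := congrArg (fun M : Mat r ℂ => M.map δ) h1
  simp only [map_der_mul] at h3
  have h4 : (1 : Mat r ℂ).map δ = 0 := by
    ext i j
    rw [Matrix.map_apply, Matrix.one_apply]
    split_ifs <;> simp
  rw [h4] at h3
  have h5 : f Y * (f Y)⁻¹.map δ = -((f Y).map δ * (f Y)⁻¹) := by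
    rw [eq_neg_iff_add_eq_zero, add_comm]; exact h3
  calc (f Y)⁻¹.map δ = (f Y)⁻¹ * (f Y * (f Y)⁻¹.map δ) := by
        rw [← Matrix.mul_assoc, h2, Matrix.one_mul]
    _ = -((f Y)⁻¹ * (f Y).map δ * (f Y)⁻¹) := by
        rw [h5, Matrix.mul_neg, Matrix.mul_assoc]

theorem GoodG.proj (k : G) : GoodG K₀ (fun Y : G → Mat r ℂ => Y k) Y :=
  ⟨ContinuousLinearMap.proj k, (ContinuousLinearMap.proj k :
    (G → Mat r ℂ) →L[ℂ] Mat r ℂ).hasStrictFDerivAt, fun _ _ => rfl⟩

theorem GoodG.const {J : Mat r ℂ} (hJ : ∀ i j, J i j ∈ K₀) :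
    GoodG K₀ (fun _ : G → Mat r ℂ => J) Y := by
  refine ⟨0, hasStrictFDerivAt_const _ _, fun δ hδ => ?_⟩
  ext i j
  exact hδ _ (hJ i j)

theorem GoodG.list_prod {β : Type*} (F : β → (G → Mat r ℂ) → Mat r ℂ) (l : List β)
    (hF : ∀ b ∈ l, GoodG K₀ (F b) Y) : GoodG K₀ (fun Y => (l.map fun b => F b Y).prod) Y := by
  induction l with
  | nil =>
    simp only [List.map_nil, List.prod_nil]
    refine GoodG.const fun i j => ?_
    rw [Matrix.one_apply]
    split_ifs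
    · exact K₀.one_mem
    · exact K₀.zero_mem
  | cons b l ih =>
    simp only [List.map_cons, List.prod_cons]
    exact (hF b List.mem_cons_self).mul (ih fun b' hb' => hF b' (List.mem_cons_of_mem _ hb'))

end normed

end Vale.Agent.P002
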