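import Vale.Agent.P002.Defs

/-!
# P002 TASK I: products of commutators are open maps to `SL_r` at tuples with scalar centralizer
-/

namespace Vale.Agent.P002

open Matrix

variable {g r : ℕ}

section normed

open scoped Matrix.Norms.Operator

/-- A linear functional on matrices is `M ↦ trace (N * M)`. -/
theorem exists_trace_repr (φ : Mat r ℂ →ₗ[ℂ] ℂ) : ∃ N : Mat r ℂ, ∀ M, φ M = trace (N * M) := by
  refine ⟨Matrix.of fun i j => φ (Matrix.single j i 1), fun M => ?_⟩
  conv_lhs => rw [Matrix.matrix_eq_sum_single M]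
  rw [map_sum]
  simp only [map_sum]
  rw [Matrix.trace]
  simp only [Matrix.diag_apply, Matrix.mul_apply, Matrix.of_apply]
  rw [Finset.sum_comm]
  refine Finset.sum_congr rfl fun i _ => Finset.sum_congr rfl fun j _ => ?_
  have : Matrix.single j i (M j i) = M j i • Matrix.single j i (1 : ℂ) := by
    rw [Matrix.smul_single, smul_eq_mul, mul_one]
  rw [this, map_smul, smul_eq_mul, mul_comm]

theorem eq_of_trace_eq {N N' : Mat r ℂ} (h : ∀ H : Mat r ℂ, trace (N * H) = trace (N' * H)) :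
    N = N' := by
  ext i j
  have := h (Matrix.single j i 1)
  simpa [Matrix.trace_mul_single] using this

/-- Strict derivative of the inverse. -/
theorem hasStrictFDerivAt_inv' {A : Mat r ℂ} (hA : IsUnit A) :
    HasStrictFDerivAt (fun X : Mat r ℂ => X⁻¹)
      (-(ContinuousLinearMap.mulLeftRight ℂ (Mat r ℂ) A⁻¹) A⁻¹) A := by
  obtain ⟨u, rfl⟩ := hA
  have h := hasStrictFDerivAt_ringInverse (𝕜 := ℂ) u
  have h1 : ((u⁻¹ : (Mat r ℂ)ˣ) : Mat r ℂ) = (u : Mat r ℂ)⁻¹ := Matrix.coe_units_inv u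
  rw [h1] at h
  have h2 : (fun X : Mat r ℂ => X⁻¹) = Ring.inverse := by
    funext X; exact Matrix.nonsing_inv_eq_ringInverse X
  rw [h2]
  exact h

/-- The commutator. -/
noncomputable def cm (A B : Mat r ℂ) : Mat r ℂ := A * B * A⁻¹ * B⁻¹

section derivs
variable {E : Type*} [NormedAddCommGroup E] [NormedSpace ℂ E]

theorem exists_deriv_mul {f h : E → Mat r ℂ} {f' h' : E →L[ℂ] Mat r ℂ} {x : E}
    (hf : HasStrictFDerivAt f f' x) (hh : HasStrictFDerivAt h h' x) :
    ∃ D : E →L[ℂ] Mat r ℂ, HasStrictFDerivAt (fun y => f y * h y) D x ∧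
      ∀ H, D H = f' H * h x + f x * h' H := by
  refine ⟨_, hf.mul' hh, fun H => ?_⟩
  rw [add_comm]
  rfl

theorem exists_deriv_inv {f : E → Mat r ℂ} {f' : E →L[ℂ] Mat r ℂ} {x : E}
    (hf : HasStrictFDerivAt f f' x) (hu : IsUnit (f x)) :
    ∃ D : E →L[ℂ] Mat r ℂ, HasStrictFDerivAt (fun y => (f y)⁻¹) D x ∧
      ∀ H, D H = -((f x)⁻¹ * f' H * (f x)⁻¹) :=
  ⟨_, (hasStrictFDerivAt_inv' hu).comp x hf, fun _ => rfl⟩

theorem exists_deriv_cm {f h : E → Mat r ℂ} {f' h' : E →L[ℂ] Mat r ℂ} {x : E}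
    (hf : HasStrictFDerivAt f f' x) (hh : HasStrictFDerivAt h h' x)
    (hfu : IsUnit (f x)) (hhu : IsUnit (h x)) :
    ∃ D : E →L[ℂ] Mat r ℂ, HasStrictFDerivAt (fun y => cm (f y) (h y)) D x ∧
      ∀ H, D H = f' H * h x * (f x)⁻¹ * (h x)⁻¹ + f x * h' H * (f x)⁻¹ * (h x)⁻¹ -
        f x * h x * (f x)⁻¹ * f' H * (f x)⁻¹ * (h x)⁻¹ -
        f x * h x * (f x)⁻¹ * (h x)⁻¹ * h' H * (h x)⁻¹ := by
  obtain ⟨D1, h1, e1⟩ := exists_deriv_inv hf hfu
  obtain ⟨D2, h2, e2⟩ := exists_deriv_inv hh hhu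
  obtain ⟨D3, h3, e3⟩ := exists_deriv_mul hf hh
  obtain ⟨D4, h4, e4⟩ := exists_deriv_mul h3 h1
  obtain ⟨D5, h5, e5⟩ := exists_deriv_mul h4 h2
  refine ⟨D5, h5, fun H => ?_⟩
  rw [e5, e4, e3, e1, e2]
  noncomm_ring

end derivs

/-- The algebra of one commutator. -/
theorem commute_of_trace {A B S : Mat r ℂ} (hA : IsUnit A) (hB : IsUnit B)
    (h : ∀ H K : Mat r ℂ, trace (S * (H * B * A⁻¹ * B⁻¹ + A * K * A⁻¹ * B⁻¹ -
        A * B * A⁻¹ * H * A⁻¹ * B⁻¹ - A * B * A⁻¹ * B⁻¹ * K * B⁻¹)) = 0) :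
    Commute (S * cm A B) A ∧ Commute (S * cm A B) B := by
  have hAd : IsUnit A.det := (Matrix.isUnit_iff_isUnit_det A).1 hA
  have hBd : IsUnit B.det := (Matrix.isUnit_iff_isUnit_det B).1 hB
  have a1 : A * A⁻¹ = 1 := Matrix.mul_nonsing_inv A hAd
  have a2 : A⁻¹ * A = 1 := Matrix.nonsing_inv_mul A hAd
  have b1 : B * B⁻¹ = 1 := Matrix.mul_nonsing_inv B hBd
  have b2 : B⁻¹ * B = 1 := Matrix.nonsing_inv_mul B hBd
  -- first variation
  have hH : B * A⁻¹ * B⁻¹ * S = A⁻¹ * B⁻¹ * S * A * B * A⁻¹ := by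
    refine eq_of_trace_eq fun H => ?_
    have h0 := h H 0
    have e : S * (H * B * A⁻¹ * B⁻¹ + A * 0 * A⁻¹ * B⁻¹ -
        A * B * A⁻¹ * H * A⁻¹ * B⁻¹ - A * B * A⁻¹ * B⁻¹ * 0 * B⁻¹) =
        (S * H) * (B * A⁻¹ * B⁻¹) - (S * A * B * A⁻¹ * H) * (A⁻¹ * B⁻¹) := by
      noncomm_ring
    rw [e, trace_sub, Matrix.trace_mul_comm (S * H), Matrix.trace_mul_comm (S * A * B * A⁻¹ * H),
      sub_eq_zero] at h0
    simpa only [Matrix.mul_assoc] using h0
  have hK : A⁻¹ * B⁻¹ * S * A = B⁻¹ * S * A * B * A⁻¹ * B⁻¹ := by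
    refine eq_of_trace_eq fun K => ?_
    have h0 := h 0 K
    have e : S * (0 * B * A⁻¹ * B⁻¹ + A * K * A⁻¹ * B⁻¹ -
        A * B * A⁻¹ * 0 * A⁻¹ * B⁻¹ - A * B * A⁻¹ * B⁻¹ * K * B⁻¹) =
        (S * A * K) * (A⁻¹ * B⁻¹) - (S * A * B * A⁻¹ * B⁻¹ * K) * B⁻¹ := by
      noncomm_ring
    rw [e, trace_sub, Matrix.trace_mul_comm (S * A * K),
      Matrix.trace_mul_comm (S * A * B * A⁻¹ * B⁻¹ * K), sub_eq_zero] at h0
    simpa only [Matrix.mul_assoc] using h0
  obtain ⟨T, hT⟩ : ∃ T, T = B⁻¹ * S * A * B * A⁻¹ := ⟨_, rfl⟩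
  have i1 : A⁻¹ * B⁻¹ * S * A = T * B⁻¹ := by rw [hK, hT]
  have i2 : A⁻¹ * B⁻¹ * S * A * B = T := by rw [i1, Matrix.mul_assoc, b2, Matrix.mul_one]
  have i3 : B⁻¹ * S * A * B = T * A := by rw [hT, Matrix.mul_assoc _ A⁻¹ A, a2, Matrix.mul_one]
  have i4 : S * A * B * A⁻¹ = B * T := by
    rw [hT]
    simp only [← Matrix.mul_assoc]
    rw [b1, Matrix.one_mul]
  have cA : Commute T A := by
    have e1 : A * T = B⁻¹ * S * A * B := by
      rw [← i2]
      simp only [← Matrix.mul_assoc]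
      rw [a1, Matrix.one_mul]
    show T * A = A * T
    rw [e1, i3]
  have cB : Commute T B := by
    have e1 : B * A⁻¹ * B⁻¹ * S * A = T := by
      rw [hH, i2, Matrix.mul_assoc, a2, Matrix.mul_one]
    have e2 : B * (A⁻¹ * B⁻¹ * S * A) = T := by
      rw [← e1]; simp only [Matrix.mul_assoc]
    rw [i1, ← Matrix.mul_assoc] at e2
    show T * B = B * T
    calc T * B = B * T * B⁻¹ * B := by rw [e2]
      _ = B * T := by rw [Matrix.mul_assoc, b2, Matrix.mul_one]
  have hS : S * cm A B = T := by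
    unfold cm
    have : S * (A * B * A⁻¹ * B⁻¹) = S * A * B * A⁻¹ * B⁻¹ := by simp only [Matrix.mul_assoc]
    rw [this, i4, ← cB.eq, Matrix.mul_assoc, b1, Matrix.mul_one]
  rw [hS]
  exact ⟨cA, cB⟩

theorem relT_succ (X : Fin (g + 1) × Bool → Mat r ℂ) :
    relT X = cm (X (0, false)) (X (0, true)) * relT fun k : Fin g × Bool => X (k.1.succ, k.2) := by
  unfold relT cm
  rw [List.ofFn_succ, List.prod_cons]

theorem isUnit_cm {A B : Mat r ℂ} (hA : IsUnit A) (hB : IsUnit B) : IsUnit (cm A B) := by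
  have hAd : IsUnit A.det := (Matrix.isUnit_iff_isUnit_det A).1 hA
  have hBd : IsUnit B.det := (Matrix.isUnit_iff_isUnit_det B).1 hB
  unfold cm
  exact ((hA.mul hB).mul (Matrix.isUnit_nonsing_inv_iff.2 hA)).mul
    (Matrix.isUnit_nonsing_inv_iff.2 hB)

theorem det_cm {A B : Mat r ℂ} (hA : IsUnit A) (hB : IsUnit B) : (cm A B).det = 1 := by
  have hAd : IsUnit A.det := (Matrix.isUnit_iff_isUnit_det A).1 hA
  have hBd : IsUnit B.det := (Matrix.isUnit_iff_isUnit_det B).1 hB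
  unfold cm
  rw [det_mul, det_mul, det_mul, det_nonsing_inv, det_nonsing_inv]
  have h1 := Ring.mul_inverse_cancel _ hAd
  have h2 := Ring.mul_inverse_cancel _ hBd
  calc A.det * B.det * Ring.inverse A.det * Ring.inverse B.det
      = (A.det * Ring.inverse A.det) * (B.det * Ring.inverse B.det) := by ring
    _ = 1 := by rw [h1, h2, one_mul]

theorem isUnit_relT : ∀ {g : ℕ} {X : Fin g × Bool → Mat r ℂ}, (∀ k, IsUnit (X k)) →
    IsUnit (relT X)
  | 0, X, _ => by simp [relT]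
  | g + 1, X, h => by
    rw [relT_succ]
    exact (isUnit_cm (h _) (h _)).mul (isUnit_relT fun k => h _)

theorem det_relT : ∀ {g : ℕ} {X : Fin g × Bool → Mat r ℂ}, (∀ k, IsUnit (X k)) →
    (relT X).det = 1
  | 0, X, _ => by simp [relT]
  | g + 1, X, h => by
    rw [relT_succ, det_mul, det_cm (h _) (h _), det_relT fun k => h _, one_mul]

theorem commute_inv {T A : Mat r ℂ} (hA : IsUnit A) (h : Commute T A) : Commute T A⁻¹ := by
  have hAd : IsUnit A.det := (Matrix.isUnit_iff_isUnit_det A).1 hA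
  have a1 : A * A⁻¹ = 1 := Matrix.mul_nonsing_inv A hAd
  have a2 : A⁻¹ * A = 1 := Matrix.nonsing_inv_mul A hAd
  show T * A⁻¹ = A⁻¹ * T
  calc T * A⁻¹ = A⁻¹ * A * T * A⁻¹ := by rw [a2, Matrix.one_mul]
    _ = A⁻¹ * (A * T) * A⁻¹ := by simp only [Matrix.mul_assoc]
    _ = A⁻¹ * (T * A) * A⁻¹ := by rw [h.eq]
    _ = A⁻¹ * T * (A * A⁻¹) := by simp only [Matrix.mul_assoc]
    _ = A⁻¹ * T := by rw [a1, Matrix.mul_one]

theorem commute_cm {T A B : Mat r ℂ} (hA : IsUnit A) (hB : IsUnit B) (h1 : Commute T A)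
    (h2 : Commute T B) : Commute T (cm A B) := by
  unfold cm
  exact ((h1.mul_right h2).mul_right (commute_inv hA h1)).mul_right (commute_inv hB h2)

theorem commute_relT {T : Mat r ℂ} : ∀ {g : ℕ} {X : Fin g × Bool → Mat r ℂ}, (∀ k, IsUnit (X k)) →
    (∀ k, Commute T (X k)) → Commute T (relT X)
  | 0, X, _, _ => by simp [relT]
  | g + 1, X, h, h' => by
    rw [relT_succ]
    exact (commute_cm (h _) (h _) (h' _) (h' _)).mul_right
      (commute_relT (fun k => h _) fun k => h' _)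

/-- Strict differentiability of the product of commutators, and the dual description of the image
of the derivative. -/
theorem exists_deriv_relT : ∀ (g : ℕ) (X : Fin g × Bool → Mat r ℂ), (∀ k, IsUnit (X k)) →
    ∃ W' : (Fin g × Bool → Mat r ℂ) →L[ℂ] Mat r ℂ, HasStrictFDerivAt relT W' X ∧
      ∀ N : Mat r ℂ, (∀ H, trace (N * W' H) = 0) → ∀ k, Commute (N * relT X) (X k)
  | 0, X, _ => by
    refine ⟨0, ?_, fun N _ k => k.1.elim0⟩
    have : (relT : (Fin 0 × Bool → Mat r ℂ) → Mat r ℂ) = fun _ => 1 := by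
      funext X; simp [relT]
    rw [this]
    exact hasStrictFDerivAt_const _ _
  | g + 1, X, h => by
    obtain ⟨W, hW, hWN⟩ := exists_deriv_relT g (fun k => X (k.1.succ, k.2)) (fun k => h _)
    have hp : ∀ k : Fin (g + 1) × Bool,
        HasStrictFDerivAt (fun Y : Fin (g + 1) × Bool → Mat r ℂ => Y k)
          (ContinuousLinearMap.proj k : (Fin (g + 1) × Bool → Mat r ℂ) →L[ℂ] Mat r ℂ) X :=
      fun k => (ContinuousLinearMap.proj k :
        (Fin (g + 1) × Bool → Mat r ℂ) →L[ℂ] Mat r ℂ).hasStrictFDerivAt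
    obtain ⟨D1, h1, e1⟩ := exists_deriv_cm (hp (0, false)) (hp (0, true)) (h _) (h _)
    obtain ⟨L, hLdef⟩ : ∃ L : (Fin (g + 1) × Bool → Mat r ℂ) →L[ℂ] (Fin g × Bool → Mat r ℂ),
        ∀ Y k, L Y k = Y (k.1.succ, k.2) :=
      ⟨ContinuousLinearMap.pi fun k => ContinuousLinearMap.proj (k.1.succ, k.2),
        fun _ _ => rfl⟩
    have hLX : L X = fun k => X (k.1.succ, k.2) := funext fun k => hLdef X k
    have hL : HasStrictFDerivAt (fun Y => relT (L Y)) (W.comp L) X := by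
      rw [← hLX] at hW
      exact hW.comp X L.hasStrictFDerivAt
    obtain ⟨D2, h2, e2⟩ := exists_deriv_mul h1 hL
    refine ⟨D2, ?_, ?_⟩
    · have : relT = fun Y : Fin (g + 1) × Bool → Mat r ℂ =>
          cm (Y (0, false)) (Y (0, true)) * relT (L Y) := by
        funext Y
        rw [relT_succ]
        congr 2
        exact (funext fun k => hLdef Y k).symm
      rw [this]
      exact h2
    · intro N hN0
      have hN : ∀ H : Fin (g + 1) × Bool → Mat r ℂ, trace (N *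
          ((H (0, false) * X (0, true) * (X (0, false))⁻¹ * (X (0, true))⁻¹ +
            X (0, false) * H (0, true) * (X (0, false))⁻¹ * (X (0, true))⁻¹ -
            X (0, false) * X (0, true) * (X (0, false))⁻¹ * H (0, false) * (X (0, false))⁻¹ *
              (X (0, true))⁻¹ -
            X (0, false) * X (0, true) * (X (0, false))⁻¹ * (X (0, true))⁻¹ * H (0, true) *
              (X (0, true))⁻¹) * relT (L X) +
            cm (X (0, false)) (X (0, true)) * W (L H))) = 0 := fun H =>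
        ((congrArg (fun M => trace (N * (M * relT (L X) + cm (X (0, false)) (X (0, true)) *
          W (L H)))) (e1 H)).symm.trans
          (congrArg (fun M => trace (N * M)) (e2 H)).symm).trans (hN0 H)
      have hR : relT (L X) = relT fun k : Fin g × Bool => X (k.1.succ, k.2) := by rw [hLX]
      -- variations supported on the last handles
      have c1 : ∀ k : Fin g × Bool,
          Commute (N * cm (X (0, false)) (X (0, true)) *
            relT fun k : Fin g × Bool => X (k.1.succ, k.2)) (X (k.1.succ, k.2)) := by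
        refine hWN _ fun K => ?_
        obtain ⟨H, hH⟩ : ∃ H : Fin (g + 1) × Bool → Mat r ℂ,
            H = fun k => Fin.cases (0 : Mat r ℂ) (fun i => K (i, k.2)) k.1 := ⟨_, rfl⟩
        have hH0 : ∀ b, H (0, b) = 0 := fun b => by rw [hH]; rfl
        have hH1 : L H = K := by
          funext k; rw [hLdef, hH]; rfl
        have := hN H
        simp only [hH0, hH1] at this
        simpa [Matrix.mul_assoc] using this
      have c2 : Commute ((relT fun k : Fin g × Bool => X (k.1.succ, k.2)) * N *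
            cm (X (0, false)) (X (0, true))) (X (0, false)) ∧
          Commute ((relT fun k : Fin g × Bool => X (k.1.succ, k.2)) * N *
            cm (X (0, false)) (X (0, true))) (X (0, true)) := by
        refine commute_of_trace (h _) (h _) fun H0 K0 => ?_
        obtain ⟨H, hH⟩ : ∃ H : Fin (g + 1) × Bool → Mat r ℂ,
            H = fun k => Fin.cases (if k.2 then K0 else H0) (fun _ => 0) k.1 := ⟨_, rfl⟩
        have hH0 : H (0, false) = H0 := by rw [hH]; rfl
        have hH0' : H (0, true) = K0 := by rw [hH]; rfl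
        have hH1 : L H = 0 := by
          funext k; rw [hLdef, hH]; rfl
        have := hN H
        rw [hH0, hH0', hH1, map_zero, Matrix.mul_zero, add_zero, hR,
          ← Matrix.mul_assoc, Matrix.trace_mul_comm] at this
        rw [Matrix.mul_assoc]
        exact this
      have hU : ∀ k : Fin g × Bool, IsUnit (X (k.1.succ, k.2)) := fun k => h _
      have hRU := isUnit_relT hU
      have c3 := commute_relT hU c1
      rw [relT_succ]
      obtain ⟨R, hRdef⟩ : ∃ R, R = relT fun k : Fin g × Bool => X (k.1.succ, k.2) := ⟨_, rfl⟩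
      obtain ⟨C, hCdef⟩ : ∃ C, C = cm (X (0, false)) (X (0, true)) := ⟨_, rfl⟩
      rw [← hRdef, ← hCdef] at c3 c2
      rw [← hRdef] at hRU
      rw [← hRdef, ← hCdef]
      simp only [← hRdef, ← hCdef] at c1
      have key : R * N * C = N * C * R := by
        have hRd : IsUnit R.det := (Matrix.isUnit_iff_isUnit_det R).1 hRU
        have r1 : R * R⁻¹ = 1 := Matrix.mul_nonsing_inv R hRd
        have : R * (N * C * R) * R⁻¹ = N * C * R * R * R⁻¹ := by rw [c3.eq]
        calc R * N * C = R * (N * C * R) * R⁻¹ := by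
              simp only [Matrix.mul_assoc]; rw [r1, Matrix.mul_one]
          _ = N * C * R * R * R⁻¹ := this
          _ = N * C * R := by rw [Matrix.mul_assoc _ R R⁻¹, r1, Matrix.mul_one]
      rw [key] at c2
      rw [← Matrix.mul_assoc]
      rintro ⟨k, b⟩
      refine Fin.cases ?_ (fun i => ?_) k
      · cases b
        · exact c2.1
        · exact c2.2
      · exact c1 (i, b)

/-- Products of commutators are open maps to `SL_r` (topology of the operator norm). -/
theorem open_relT_norm (X : Fin g × Bool → Mat r ℂ) (hX : ∀ k, IsUnit (X k))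
    (hc : ∀ N : Mat r ℂ, (∀ k, Commute N (X k)) → ∃ c : ℂ, N = c • (1 : Mat r ℂ))
    (U : Set (Fin g × Bool → Mat r ℂ)) (hU : U ∈ nhds X) :
    ∃ V ∈ nhds (relT X), ∀ M ∈ V, M.det = 1 → ∃ X' ∈ U, relT X' = M := by
  rcases Nat.eq_zero_or_pos r with hr | hr
  · subst hr
    exact ⟨Set.univ, Filter.univ_mem, fun M _ _ => ⟨X, mem_of_mem_nhds hU,
      Subsingleton.elim _ _⟩⟩
  obtain ⟨W, hW, hN⟩ := exists_deriv_relT g X hX
  have hfst : HasStrictFDerivAt (fun p : (Fin g × Bool → Mat r ℂ) × ℂ => relT p.1)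
      (W.comp (ContinuousLinearMap.fst ℂ (Fin g × Bool → Mat r ℂ) ℂ)) (X, (1 : ℂ)) :=
    HasStrictFDerivAt.comp (X, (1 : ℂ)) hW
      (ContinuousLinearMap.fst ℂ (Fin g × Bool → Mat r ℂ) ℂ).hasStrictFDerivAt
  have hsnd : HasStrictFDerivAt (fun p : (Fin g × Bool → Mat r ℂ) × ℂ => p.2)
      (ContinuousLinearMap.snd ℂ (Fin g × Bool → Mat r ℂ) ℂ) (X, (1 : ℂ)) :=
    (ContinuousLinearMap.snd ℂ (Fin g × Bool → Mat r ℂ) ℂ).hasStrictFDerivAt
  obtain ⟨D, hD, hDe⟩ : ∃ D : ((Fin g × Bool → Mat r ℂ) × ℂ) →L[ℂ] Mat r ℂ,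
      HasStrictFDerivAt (fun p : (Fin g × Bool → Mat r ℂ) × ℂ => p.2 • relT p.1) D (X, (1 : ℂ)) ∧
        ∀ H γ, D (H, γ) = W H + γ • relT X :=
    ⟨_, hsnd.smul hfst, fun H γ => by
      show (1 : ℂ) • W H + γ • relT X = _
      rw [one_smul]⟩
  have hsurj : D.range = ⊤ := by
    by_contra hne
    obtain ⟨φ, hφ, hle⟩ := Submodule.exists_le_ker_of_lt_top _ (lt_top_iff_ne_top.2 hne)
    obtain ⟨N, hNφ⟩ := exists_trace_repr φ
    have h0 : ∀ p, trace (N * D p) = 0 := fun p => by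
      have := hle (LinearMap.mem_range_self D.toLinearMap p)
      rw [LinearMap.mem_ker, hNφ] at this
      exact this
    have h1 : ∀ H, trace (N * W H) = 0 := fun H => by
      have := h0 (H, 0)
      rw [hDe, zero_smul, add_zero] at this
      exact this
    obtain ⟨c, hcN⟩ := hc _ (hN N h1)
    have h2 : trace (N * relT X) = 0 := by
      have := h0 (0, 1)
      rw [hDe, map_zero, one_smul, zero_add] at this
      exact this
    rw [hcN, trace_smul, trace_one, smul_eq_mul, Fintype.card_fin] at h2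
    have hc0 : c = 0 := by
      rcases mul_eq_zero.1 h2 with h | h
      · exact h
      · exact absurd (Nat.cast_eq_zero.1 h) hr.ne'
    rw [hc0, zero_smul] at hcN
    have hRU := isUnit_relT hX
    have hN0 : N = 0 := (hRU.mul_left_eq_zero).1 hcN
    apply hφ
    ext1 M
    rw [hNφ, hN0, Matrix.zero_mul, trace_zero, LinearMap.zero_apply]
  have hmap := hD.map_nhds_eq_of_surj hsurj
  -- the neighbourhood
  have hUn : {Y : Fin g × Bool → Mat r ℂ | ∀ k, IsUnit (Y k)} ∈ nhds X := by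
    have : {Y : Fin g × Bool → Mat r ℂ | ∀ k, IsUnit (Y k)} =
        ⋂ k, {Y : Fin g × Bool → Mat r ℂ | (Y k).det ≠ 0} := by
      ext Y
      simp only [Set.mem_ofPred_eq, Set.mem_iInter]
      exact forall_congr' fun k => by rw [Matrix.isUnit_iff_isUnit_det, isUnit_iff_ne_zero]
    rw [this]
    refine (isOpen_iInter_of_finite fun k => ?_).mem_nhds ?_
    · exact isOpen_ne.preimage (Continuous.matrix_det (continuous_apply k))
    · simp only [Set.mem_iInter, Set.mem_ofPred_eq]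
      intro k
      rw [← isUnit_iff_ne_zero, ← Matrix.isUnit_iff_isUnit_det]
      exact hX k
  have hCn : {c : ℂ | c ^ r = 1 → c = 1} ∈ nhds (1 : ℂ) := by
    have hfin : ({c : ℂ | c ^ r = 1 ∧ c ≠ 1}).Finite := by
      refine (Multiset.finite_toSet (Polynomial.nthRoots r (1 : ℂ))).subset ?_
      rintro c ⟨h1, -⟩
      exact (Polynomial.mem_nthRoots hr).2 h1
    have h1 : {c : ℂ | c ^ r = 1 → c = 1} = {c : ℂ | c ^ r = 1 ∧ c ≠ 1}ᶜ := by
      ext c
      simp only [Set.mem_ofPred_eq, Set.mem_compl_iff, not_and, not_not]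
    rw [h1]
    refine hfin.isClosed.isOpen_compl.mem_nhds ?_
    simp
  have hprod : (U ∩ {Y : Fin g × Bool → Mat r ℂ | ∀ k, IsUnit (Y k)}) ×ˢ
      {c : ℂ | c ^ r = 1 → c = 1} ∈ nhds (X, (1 : ℂ)) :=
    prod_mem_nhds (Filter.inter_mem hU hUn) hCn
  refine ⟨(fun p : (Fin g × Bool → Mat r ℂ) × ℂ => p.2 • relT p.1) ''
    ((U ∩ {Y : Fin g × Bool → Mat r ℂ | ∀ k, IsUnit (Y k)}) ×ˢ
      {c : ℂ | c ^ r = 1 → c = 1}), ?_, ?_⟩
  · have h1 := Filter.image_mem_map (m := fun p : (Fin g × Bool → Mat r ℂ) × ℂ =>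
      p.2 • relT p.1) hprod
    have h2 := hmap.ge h1
    have h3 : (X, (1 : ℂ)).2 • relT (X, (1 : ℂ)).1 = relT X := one_smul _ _
    rw [h3] at h2
    exact h2
  · rintro M ⟨⟨Y, c⟩, ⟨⟨hYU, hYn⟩, hcC⟩, rfl⟩ hdet
    have hdet' : c ^ r = 1 := by
      have := hdet
      simp only [det_smul, Fintype.card_fin, det_relT hYn, mul_one] at this
      exact this
    have hc1 : c = 1 := hcC hdet'
    refine ⟨Y, hYU, ?_⟩
    simp only [hc1, one_smul]

end normed

/-- Products of commutators are open maps to `SL_r` at tuples with scalar centralizer. -/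
theorem open_relT (X : Fin g × Bool → Mat r ℂ) (hX : ∀ k, IsUnit (X k))
    (hc : ∀ N : Mat r ℂ, (∀ k, Commute N (X k)) → ∃ c : ℂ, N = c • (1 : Mat r ℂ))
    (U : Set (Fin g × Bool → Mat r ℂ)) (hU : U ∈ nhds X) :
    ∃ V ∈ nhds (relT X), ∀ M ∈ V, M.det = 1 → ∃ X' ∈ U, relT X' = M :=
  open_relT_norm X hX hc U hU

end Vale.Agent.P002

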