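import Vale.Agent.P002.GoodDense
import Vale.Agent.P002.OpenW

namespace Vale.Agent.P002

open Matrix

variable {n r : ℕ}

theorem eq_addH (X : Fin (n + 1) × Bool → Mat r ℂ) :
    X = addH (fun k => X (k.1.castSucc, k.2)) (X (Fin.last n, false)) (X (Fin.last n, true)) := by
  funext k
  obtain ⟨i, b⟩ := k
  refine Fin.lastCases ?_ (fun i => ?_) i
  · cases b
    · simp
    · simp
  · simp

theorem relT_addH (y : Fin n × Bool → Mat r ℂ) (A B : Mat r ℂ) :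
    relT (addH y A B) = relT y * (A * B * A⁻¹ * B⁻¹) := by
  rw [relT_eq_relI, relT_eq_relI]
  have e : (fun k => (addH y A B k)⁻¹) = addH (fun k => (y k)⁻¹) A⁻¹ B⁻¹ := by
    funext k
    obtain ⟨i, b⟩ := k
    refine Fin.lastCases ?_ (fun i => ?_) i
    · cases b
      · simp
      · simp
    · simp
  rw [e, relI_addH]

theorem continuousAt_matInv {M : Mat r ℂ} (hM : IsUnit M) :
    ContinuousAt (fun N : Mat r ℂ => N⁻¹) M := by
  have h1 : (fun N : Mat r ℂ => N⁻¹) =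
      (fun N : Mat r ℂ => (det N)⁻¹) • fun N : Mat r ℂ => adjugate N := by
    funext N
    rw [Matrix.inv_def, Ring.inverse_eq_inv']
    rfl
  rw [h1]
  rw [Matrix.isUnit_iff_isUnit_det, isUnit_iff_ne_zero] at hM
  apply ContinuousAt.smul
  · apply ContinuousAt.inv₀ _ hM
    exact (Continuous.matrix_det continuous_id).continuousAt
  · exact (Continuous.matrix_adjugate continuous_id).continuousAt

theorem isOpen_isUnit : IsOpen {M : Mat r ℂ | IsUnit M} := by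
  have h : {M : Mat r ℂ | IsUnit M} = det ⁻¹' {0}ᶜ := by
    ext M
    simp [Matrix.isUnit_iff_isUnit_det]
  rw [h]
  exact isOpen_compl_singleton.preimage (Continuous.matrix_det continuous_id)

/-- Points with scalar centralizer of the first handles are limits of points with a good last
pair. -/
theorem near_good (hr : 0 < r) (y : Fin n × Bool → Mat r ℂ) (A B : Mat r ℂ)
    (hy : ∀ k, IsUnit (y k)) (hA : IsUnit A) (hB : IsUnit B)
    (hrel : relT (addH y A B) = 1)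
    (hc : ∀ N : Mat r ℂ, (∀ k, Commute N (y k)) → ∃ c : ℂ, N = c • (1 : Mat r ℂ))
    (U : Set (Fin (n + 1) × Bool → Mat r ℂ)) (hU : U ∈ nhds (addH y A B)) :
    ∃ (y' : Fin n × Bool → Mat r ℂ) (A' B' : Mat r ℂ), addH y' A' B' ∈ U ∧
      (∀ k, IsUnit (y' k)) ∧ Good A' B' ∧ relT (addH y' A' B') = 1 := by
  classical
  rw [relT_addH] at hrel
  have hW := rel_inv hA hB hrel
  -- product neighbourhoods
  have hcont : Continuous fun q : (Fin n × Bool → Mat r ℂ) × (Mat r ℂ × Mat r ℂ) =>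
      addH q.1 q.2.1 q.2.2 := by
    apply continuous_pi
    rintro ⟨i, b⟩
    refine Fin.lastCases ?_ (fun i => ?_) i
    · cases b
      · simp only [addH_last_false]; fun_prop
      · simp only [addH_last_true]; fun_prop
    · simp only [addH_castSucc]; fun_prop
  have h1 : (fun q : (Fin n × Bool → Mat r ℂ) × (Mat r ℂ × Mat r ℂ) =>
      addH q.1 q.2.1 q.2.2) ⁻¹' U ∈ nhds (y, (A, B)) := hcont.continuousAt.preimage_mem_nhds hU
  rw [nhds_prod_eq, Filter.mem_prod_iff] at h1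
  obtain ⟨Uy, hUy, Up, hUp, hsub⟩ := h1
  have h2 : {y' : Fin n × Bool → Mat r ℂ | ∀ k, IsUnit (y' k)} ∈ nhds y := by
    have : {y' : Fin n × Bool → Mat r ℂ | ∀ k, IsUnit (y' k)} =
        ⋂ k, (fun y' : Fin n × Bool → Mat r ℂ => y' k) ⁻¹' {M : Mat r ℂ | IsUnit M} := by
      ext y'; simp
    rw [this]
    apply (isOpen_iInter_of_finite fun k => isOpen_isUnit.preimage (continuous_apply k)).mem_nhds
    simp only [Set.mem_iInter, Set.mem_preimage]
    exact hy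
  obtain ⟨V, hV, hV2⟩ := open_relT y hy hc (Uy ∩ {y' | ∀ k, IsUnit (y' k)})
    (Filter.inter_mem hUy h2)
  have hcc : ContinuousAt (fun p : Mat r ℂ × Mat r ℂ => p.2 * p.1 * p.2⁻¹ * p.1⁻¹) (A, B) := by
    apply ContinuousAt.mul
    · apply ContinuousAt.mul
      · exact (continuous_snd.mul continuous_fst).continuousAt
      · exact ContinuousAt.comp (f := Prod.snd) (x := (A, B)) (continuousAt_matInv hB)
          continuous_snd.continuousAt
    · exact ContinuousAt.comp (f := Prod.fst) (x := (A, B)) (continuousAt_matInv hA)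
          continuous_fst.continuousAt
  have h3 : (fun p : Mat r ℂ × Mat r ℂ => p.2 * p.1 * p.2⁻¹ * p.1⁻¹) ⁻¹' V ∈ nhds (A, B) := by
    apply hcc.preimage_mem_nhds
    simp only
    rw [← hW]
    exact hV
  obtain ⟨⟨A', B'⟩, ⟨hp1, hp2⟩, hgood⟩ := good_dense hr A B _ (Filter.inter_mem hUp h3)
  simp only [Set.mem_preimage] at hp2
  have hA' := hgood.1
  have hB' := hgood.2.1
  have hAd := (Matrix.isUnit_iff_isUnit_det _).1 hA'
  have hBd := (Matrix.isUnit_iff_isUnit_det _).1 hB'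
  have hdet : (B' * A' * B'⁻¹ * A'⁻¹).det = 1 := by
    rw [det_mul, det_mul, det_mul, det_nonsing_inv, det_nonsing_inv, Ring.inverse_eq_inv']
    have e1 := isUnit_iff_ne_zero.1 hAd
    have e2 := isUnit_iff_ne_zero.1 hBd
    simp only at e1 e2
    field_simp
  obtain ⟨y', ⟨hy1, hy2⟩, hy3⟩ := hV2 _ hp2 hdet
  refine ⟨y', A', B', ?_, hy2, hgood, ?_⟩
  · exact hsub (Set.mk_mem_prod hy1 hp1)
  · rw [relT_addH, hy3]
    simp only at hAd hBd ⊢
    have e1 : B' * A' * B'⁻¹ * A'⁻¹ * (A' * B' * A'⁻¹ * B'⁻¹) =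
        B' * A' * B'⁻¹ * (A'⁻¹ * A') * B' * A'⁻¹ * B'⁻¹ := by
      simp only [mul_assoc]
    rw [e1, Matrix.nonsing_inv_mul _ hAd, mul_one, mul_assoc (B' * A') B'⁻¹ B',
      Matrix.nonsing_inv_mul _ hBd, mul_one, mul_assoc B' A' A'⁻¹, Matrix.mul_nonsing_inv _ hAd,
      mul_one, Matrix.mul_nonsing_inv _ hBd]

theorem evalT_continuous {g : ℕ} (f : MvPolynomial ((Fin g × Bool) × Fin r × Fin r) ℂ) :
    Continuous fun X : Fin g × Bool → Mat r ℂ => evalT X f := by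
  have h : (fun X : Fin g × Bool → Mat r ℂ => evalT X f) =
      (fun v => MvPolynomial.eval v f) ∘ fun X : Fin g × Bool → Mat r ℂ =>
        fun p : (Fin g × Bool) × Fin r × Fin r => X p.1 p.2.1 p.2.2 := by
    funext X
    simp [evalT]
  rw [h]
  apply (MvPolynomial.continuous_eval f).comp
  apply continuous_pi
  intro p
  exact (continuous_apply p.2.2).comp ((continuous_apply p.2.1).comp (continuous_apply p.1))

theorem partII_succ (hr : 0 < r)
    (f h : MvPolynomial ((Fin (n + 1) × Bool) × Fin r × Fin r) ℂ)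
    (hfh : ∀ X : Fin (n + 1) × Bool → Mat r ℂ, (∀ k, IsUnit (X k)) → relT X = 1 →
      evalT X h * evalT X f = 0)
    (X₀ : Fin (n + 1) × Bool → Mat r ℂ) (hX₀ : ∀ k, IsUnit (X₀ k)) (hrel₀ : relT X₀ = 1)
    (hc₀ : ∀ N : Mat r ℂ, (∀ k, k.1 ≠ Fin.last n → Commute N (X₀ k)) →
      ∃ c : ℂ, N = c • (1 : Mat r ℂ))
    (hh₀ : evalT X₀ h ≠ 0)
    (X₁ : Fin (n + 1) × Bool → Mat r ℂ) (hX₁ : ∀ k, IsUnit (X₁ k)) (hrel₁ : relT X₁ = 1)
    (hc₁ : ∀ N : Mat r ℂ, (∀ k, k.1 ≠ Fin.last n → Commute N (X₁ k)) →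
      ∃ c : ℂ, N = c • (1 : Mat r ℂ)) :
    evalT X₁ f = 0 := by
  have hcy : ∀ X : Fin (n + 1) × Bool → Mat r ℂ,
      (∀ N : Mat r ℂ, (∀ k, k.1 ≠ Fin.last n → Commute N (X k)) →
        ∃ c : ℂ, N = c • (1 : Mat r ℂ)) →
      ∀ N : Mat r ℂ, (∀ k : Fin n × Bool, Commute N (X (k.1.castSucc, k.2))) →
        ∃ c : ℂ, N = c • (1 : Mat r ℂ) := by
    intro X hX N hN
    apply hX N
    rintro ⟨i, b⟩ hi
    revert hi
    refine Fin.lastCases ?_ (fun i => ?_) i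
    · intro hi; exact absurd rfl hi
    · intro _; exact hN (i, b)
  -- a good starting point
  obtain ⟨y0, A0, B0, hU0, hy0, hg0, hr0⟩ := near_good hr _ _ _ (fun k => hX₀ _) (hX₀ _) (hX₀ _)
    (by rw [← eq_addH]; exact hrel₀) (hcy X₀ hc₀)
    {X | evalT X h ≠ 0} (by
      rw [← eq_addH]
      exact (isOpen_compl_singleton.preimage (evalT_continuous h)).mem_nhds hh₀)
  by_contra hf
  obtain ⟨y1, A1, B1, hU1, hy1, hg1, hr1⟩ := near_good hr _ _ _ (fun k => hX₁ _) (hX₁ _) (hX₁ _)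
    (by rw [← eq_addH]; exact hrel₁) (hcy X₁ hc₁)
    {X | evalT X f ≠ 0} (by
      rw [← eq_addH]
      exact (isOpen_compl_singleton.preimage (evalT_continuous f)).mem_nhds hf)
  exact hU1 (path_lemma f h hfh y0 y1 A0 B0 A1 B1 hy0 hy1 hg0 hg1 hr0 hr1 hU0)

/-- TASK J. -/
theorem partII {g : ℕ} (hr : 1 ≤ r) (i₀ : Fin g) (hi₀ : (i₀ : ℕ) + 1 = g)
    (f h : MvPolynomial ((Fin g × Bool) × Fin r × Fin r) ℂ)
    (hfh : ∀ X : Fin g × Bool → Mat r ℂ, (∀ k, IsUnit (X k)) → relT X = 1 →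
      evalT X h * evalT X f = 0)
    (X₀ : Fin g × Bool → Mat r ℂ) (hX₀ : ∀ k, IsUnit (X₀ k)) (hrel₀ : relT X₀ = 1)
    (hc₀ : ∀ N : Mat r ℂ, (∀ k, k.1 ≠ i₀ → Commute N (X₀ k)) → ∃ c : ℂ, N = c • (1 : Mat r ℂ))
    (hh₀ : evalT X₀ h ≠ 0)
    (X₁ : Fin g × Bool → Mat r ℂ) (hX₁ : ∀ k, IsUnit (X₁ k)) (hrel₁ : relT X₁ = 1)
    (hc₁ : ∀ N : Mat r ℂ, (∀ k, k.1 ≠ i₀ → Commute N (X₁ k)) → ∃ c : ℂ, N = c • (1 : Mat r ℂ)) :
    evalT X₁ f = 0 := by
  obtain ⟨n, rfl⟩ : ∃ n, g = n + 1 := ⟨i₀, hi₀.symm⟩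
  have h0 : i₀ = Fin.last n := Fin.ext (by simpa using hi₀)
  subst h0
  exact partII_succ hr f h hfh X₀ hX₀ hrel₀ hc₀ hh₀ X₁ hX₁ hrel₁ hc₁

end Vale.Agent.P002
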