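import Vale.Agent.P002.Path

namespace Vale.Agent.P002

open Matrix

variable {r : ℕ}

/-- The system matrix with cleared denominators. -/
def sysHat {R : Type*} [CommRing R] (A B : Mat r R) : Mat r R :=
  Matrix.of fun i j => if (i : ℕ) = 0 then ((1 : Fin r → R) ᵥ* adjugate A) j
    else ((1 : Fin r → R) ᵥ* ((det A * det B) • adjugate (tm i A)
      - B * adjugate (tm i A) * A * adjugate B * adjugate A)) j

/-- Polynomial detecting good pairs. -/
def Ghat {R : Type*} [CommRing R] (A B : Mat r R) : R :=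
  det A * det B * det (kry A 1) * det (sysHat A B)

theorem Ghat_map {R S : Type*} [CommRing R] [CommRing S] (φ : R →+* S) (A B : Mat r R) :
    φ (Ghat A B) = Ghat (A.map φ) (B.map φ) := by
  have ht : ∀ (n : ℕ) (M : Mat r R), (tm n M).map φ = tm n (M.map φ) := by
    intro n M
    unfold tm
    ext i j
    simp [one_apply, apply_ite φ]
  have hadj : ∀ M : Mat r R, (adjugate M).map φ = adjugate (M.map φ) := fun M =>
    RingHom.map_adjugate φ M
  have hmul : ∀ M N : Mat r R, (M * N).map φ = M.map φ * N.map φ := fun M N => Matrix.map_mul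
  have hdet : ∀ M : Mat r R, φ (det M) = det (M.map φ) := fun M => RingHom.map_det φ M
  have hsub : ∀ M N : Mat r R, (M - N).map φ = M.map φ - N.map φ := fun M N =>
    map_sub (RingHom.mapMatrix φ) _ _
  have hsmul : ∀ (c : R) (M : Mat r R), (c • M).map φ = φ c • M.map φ := by
    intro c M; ext i j; simp
  have h1 : (fun i => φ ((1 : Fin r → R) i)) = (1 : Fin r → S) := by
    funext i; simp
  have hv : ∀ (M : Mat r R) j, φ (((1 : Fin r → R) ᵥ* M) j) = ((1 : Fin r → S) ᵥ* (M.map φ)) j := by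
    intro M j
    simp [vecMul, dotProduct]
  have hsys : (sysHat A B).map φ = sysHat (A.map φ) (B.map φ) := by
    ext i j
    simp only [sysHat, Matrix.map_apply, Matrix.of_apply]
    split_ifs
    · rw [hv, hadj]
    · rw [hv, hsub, hsmul, hmul, hmul, hmul, hmul, hadj, hadj, hadj, ht, map_mul, hdet, hdet]
  unfold Ghat
  rw [map_mul, map_mul, map_mul, hdet, hdet, hdet, hdet, kry_map, hsys, h1]

theorem adjugate_conj_unit (B : Mat r ℂ) (hB : IsUnit B.det) (M : Mat r ℂ) :
    adjugate (B * M * B⁻¹) = B * adjugate M * B⁻¹ := by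
  have h2 : det B ≠ 0 := isUnit_iff_ne_zero.1 hB
  have hadjB : adjugate B = det B • B⁻¹ := by
    rw [Matrix.inv_def, smul_smul, Ring.inverse_eq_inv', mul_inv_cancel₀ h2, one_smul]
  have hBi : adjugate B⁻¹ = (det B)⁻¹ • B := by
    calc adjugate B⁻¹ = adjugate B⁻¹ * (B⁻¹ * B) := by
          rw [Matrix.nonsing_inv_mul _ hB, mul_one]
      _ = (adjugate B⁻¹ * B⁻¹) * B := by rw [mul_assoc]
      _ = (det B)⁻¹ • B := by
          rw [adjugate_mul, Matrix.smul_mul, one_mul, det_nonsing_inv, Ring.inverse_eq_inv']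
  rw [adjugate_mul_distrib, adjugate_mul_distrib, hBi, hadjB, Matrix.smul_mul, Matrix.mul_smul,
    Matrix.mul_smul, smul_smul, inv_mul_cancel₀ h2, one_smul, mul_assoc]

theorem clear_identity (A B P Ai Bi : Mat r ℂ) (a b : ℂ) (h : Bi * B = 1) :
    (a * b) • P - B * P * A * (b • Bi) * (a • Ai) =
      (a * b) • (P - B * P * Bi * (B * A * Bi * Ai)) := by
  have h6 : B * P * Bi * (B * A * Bi * Ai) = B * P * (Bi * B) * A * Bi * Ai := by
    simp only [mul_assoc]
  rw [h6, h, mul_one, smul_sub, Matrix.mul_smul, Matrix.mul_smul, Matrix.smul_mul, smul_smul]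

theorem good_of_Ghat {A B : Mat r ℂ} (h : Ghat A B ≠ 0) : Good A B := by
  unfold Ghat at h
  have h4 : det (sysHat A B) ≠ 0 := right_ne_zero_of_mul h
  have h3 : det (kry A 1) ≠ 0 := right_ne_zero_of_mul (left_ne_zero_of_mul h)
  have h2 : det B ≠ 0 := right_ne_zero_of_mul (left_ne_zero_of_mul (left_ne_zero_of_mul h))
  have h1 : det A ≠ 0 := left_ne_zero_of_mul (left_ne_zero_of_mul (left_ne_zero_of_mul h))
  have hA : IsUnit A.det := isUnit_iff_ne_zero.2 h1
  have hB : IsUnit B.det := isUnit_iff_ne_zero.2 h2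
  refine ⟨(Matrix.isUnit_iff_isUnit_det _).2 hA, (Matrix.isUnit_iff_isUnit_det _).2 hB,
    (Matrix.isUnit_iff_isUnit_det _).2 (isUnit_iff_ne_zero.2 h3), ?_⟩
  rw [Matrix.isUnit_iff_isUnit_det, isUnit_iff_ne_zero]
  have hadjA : adjugate A = det A • A⁻¹ := by
    rw [Matrix.inv_def, smul_smul, Ring.inverse_eq_inv', mul_inv_cancel₀ h1, one_smul]
  have hadjB : adjugate B = det B • B⁻¹ := by
    rw [Matrix.inv_def, smul_smul, Ring.inverse_eq_inv', mul_inv_cancel₀ h2, one_smul]
  have e : B * A * B⁻¹ * A⁻¹ * A = B * A * B⁻¹ := by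
    rw [mul_assoc, Matrix.nonsing_inv_mul _ hA, mul_one]
  have hconj := adjugate_conj_unit B hB
  have htm : ∀ i : ℕ, tm i (B * A * B⁻¹) = B * tm i A * B⁻¹ := by
    intro i
    unfold tm
    rw [mul_sub, sub_mul, Matrix.mul_smul, mul_one, Matrix.smul_mul,
      Matrix.mul_nonsing_inv _ hB]
  have key : sysHat A B = diagonal (fun i : Fin r => if (i : ℕ) = 0 then 1 else det A * det B) *
      sysM (B * A * B⁻¹ * A⁻¹) A := by
    ext i j
    rw [diagonal_mul]
    simp only [sysHat, sysM, Matrix.of_apply]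
    split_ifs
    · rw [one_mul]
    · rw [e, htm, hconj, hadjA, hadjB]
      have h5 := clear_identity A B (adjugate (tm i A)) A⁻¹ B⁻¹ (det A) (det B)
        (Matrix.nonsing_inv_mul _ hB)
      rw [h5, vecMul_smul]
      rfl
  rw [key, det_mul] at h4
  exact right_ne_zero_of_mul h4

/-- Example: the diagonal part. -/
def exA (r : ℕ) : Mat r ℂ := diagonal fun i : Fin r => ((i : ℕ) : ℂ) + 1

/-- Example: all ones plus identity. -/
def exB (r : ℕ) : Mat r ℂ := vecMulVec 1 1 + 1

theorem exB_mulVec (z : Fin r → ℂ) (i : Fin r) : (exB r *ᵥ z) i = (∑ j, z j) + z i := by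
  simp [exB, mulVec, dotProduct, one_apply, add_mul, Finset.sum_add_distrib]

theorem one_vecMul_exB (i : Fin r) : ((1 : Fin r → ℂ) ᵥ* exB r) i = r + 1 := by
  simp [exB, vecMul, dotProduct, one_apply, Finset.sum_add_distrib]

/-- The Lagrange type argument. -/
theorem lagrange_zero (a : Fin r → ℂ) (ha : Function.Injective a) (x : Fin r → ℂ)
    (h : ∀ i : Fin r, ∑ k, (∏ j ∈ Finset.univ.erase k, (((i : ℕ) : ℂ) - a j)) * x k = 0) :
    x = 0 := by
  classical
  let q : Polynomial ℂ := ∑ k, Polynomial.C (x k) *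
    ∏ j ∈ Finset.univ.erase k, (Polynomial.X - Polynomial.C (a j))
  have heval : ∀ t : ℂ, q.eval t = ∑ k, (∏ j ∈ Finset.univ.erase k, (t - a j)) * x k := by
    intro t
    simp only [q, Polynomial.eval_finsetSum, Polynomial.eval_mul, Polynomial.eval_C,
      Polynomial.eval_prod, Polynomial.eval_sub, Polynomial.eval_X]
    apply Finset.sum_congr rfl
    intro k _
    ring
  rcases Nat.eq_zero_or_pos r with hr | hr
  · subst hr
    exact Subsingleton.elim _ _
  have hdeg : q.degree < ((Finset.univ : Finset (Fin r)).card : ℕ) := by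
    rw [Finset.card_univ, Fintype.card_fin]
    refine lt_of_le_of_lt (Polynomial.degree_sum_le _ _) ?_
    rw [Finset.sup_lt_iff (by exact_mod_cast WithBot.bot_lt_coe r)]
    intro k _
    have h1 : (∏ j ∈ Finset.univ.erase k, (Polynomial.X - Polynomial.C (a j))).degree
        = ((r - 1 : ℕ) : WithBot ℕ) := by
      rw [Polynomial.degree_prod]
      simp only [Polynomial.degree_X_sub_C]
      rw [Finset.sum_const, Finset.card_erase_of_mem (Finset.mem_univ k), Finset.card_univ,
        Fintype.card_fin]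
      simp
    calc (Polynomial.C (x k) * ∏ j ∈ Finset.univ.erase k, (Polynomial.X - Polynomial.C (a j))).degree
        ≤ (Polynomial.C (x k)).degree +
          (∏ j ∈ Finset.univ.erase k, (Polynomial.X - Polynomial.C (a j))).degree :=
          Polynomial.degree_mul_le _ _
      _ ≤ 0 + ((r - 1 : ℕ) : WithBot ℕ) := by
          rw [h1]
          gcongr
          exact Polynomial.degree_C_le
      _ < (r : WithBot ℕ) := by
          rw [zero_add]
          exact_mod_cast Nat.sub_lt hr one_pos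
  have hq : q = 0 := by
    refine Polynomial.eq_zero_of_degree_lt_of_eval_index_eq_zero
      (v := fun i : Fin r => ((i : ℕ) : ℂ)) (s := Finset.univ) ?_ hdeg ?_
    · intro i _ j _ hij
      simp only [Nat.cast_inj] at hij
      exact Fin.ext hij
    · intro i _
      rw [heval]
      exact h i
  funext k
  have h1 := heval (a k)
  rw [hq, Polynomial.eval_zero, Finset.sum_eq_single k] at h1
  · have h2 : (∏ j ∈ Finset.univ.erase k, (a k - a j)) ≠ 0 := by
      rw [Finset.prod_ne_zero_iff]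
      intro j hj
      rw [sub_ne_zero]
      intro he
      exact (Finset.ne_of_mem_erase hj) (ha he).symm
    simpa [h2] using h1.symm
  · intro b _ hb
    have : (∏ j ∈ Finset.univ.erase b, (a k - a j)) = 0 := by
      apply Finset.prod_eq_zero (i := k)
      · simp [Ne.symm hb]
      · simp
    rw [this, zero_mul]
  · simp

theorem exA_det_ne : det (exA r) ≠ 0 := by
  unfold exA
  rw [det_diagonal, Finset.prod_ne_zero_iff]
  intro i _
  exact_mod_cast Nat.succ_ne_zero (i : ℕ)

theorem exB_det_ne : det (exB r) ≠ 0 := by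
  intro h
  rw [← exists_mulVec_eq_zero_iff] at h
  obtain ⟨v, hv, h0⟩ := h
  apply hv
  have h1 : ∀ i, (∑ j, v j) + v i = 0 := by
    intro i
    rw [← exB_mulVec, h0]
    rfl
  have h2 : (r + 1 : ℂ) * ∑ j, v j = 0 := by
    have := Finset.sum_congr rfl fun i (_ : i ∈ (Finset.univ : Finset (Fin r))) => h1 i
    rw [Finset.sum_add_distrib, Finset.sum_const, Finset.card_univ, Fintype.card_fin,
      nsmul_eq_mul, Finset.sum_const_zero] at this
    linear_combination this
  have h3 : (r + 1 : ℂ) ≠ 0 := by exact_mod_cast Nat.succ_ne_zero r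
  have h4 : ∑ j, v j = 0 := (mul_eq_zero.1 h2).resolve_left h3
  funext i
  have := h1 i
  rw [h4, zero_add] at this
  exact this

theorem ex_kry_ne : det (kry (exA r) 1) ≠ 0 := by
  have h : kry (exA r) 1 = vandermonde (fun i : Fin r => ((i : ℕ) : ℂ) + 1) := by
    ext i j
    simp only [kry, exA, Matrix.of_apply, vandermonde_apply]
    rw [diagonal_pow, mulVec_diagonal]
    simp
  rw [h, det_vandermonde_ne_zero_iff]
  intro i j hij
  simp only [add_left_inj, Nat.cast_inj] at hij
  exact Fin.ext hij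

theorem ex_sysHat_ne (hr : 0 < r) : det (sysHat (exA r) (exB r)) ≠ 0 := by
  intro hdet
  rw [← exists_mulVec_eq_zero_iff] at hdet
  obtain ⟨δ, hδ, h0⟩ := hdet
  apply hδ
  set A := exA r with hA
  set B := exB r with hB
  have hAn : det A ≠ 0 := exA_det_ne
  have hBn : det B ≠ 0 := exB_det_ne
  have hAu : IsUnit (det A) := isUnit_iff_ne_zero.2 hAn
  have hBu : IsUnit (det B) := isUnit_iff_ne_zero.2 hBn
  obtain ⟨z, hz⟩ : ∃ z : Fin r → ℂ, δ = A *ᵥ (B *ᵥ z) := by
    refine ⟨B⁻¹ *ᵥ (A⁻¹ *ᵥ δ), ?_⟩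
    rw [mulVec_mulVec _ B, Matrix.mul_nonsing_inv _ hBu, one_mulVec, mulVec_mulVec,
      Matrix.mul_nonsing_inv _ hAu, one_mulVec]
  let a : Fin r → ℂ := fun i => ((i : ℕ) : ℂ) + 1
  have ha : Function.Injective a := by
    intro i j hij
    simp only [a, add_left_inj, Nat.cast_inj] at hij
    exact Fin.ext hij
  have hmulA : ∀ v : Fin r → ℂ, ∀ i, (A *ᵥ v) i = a i * v i := by
    intro v i
    rw [hA, exA, mulVec_diagonal]
  have hone : ∀ v : Fin r → ℂ, (1 : Fin r → ℂ) ⬝ᵥ v = ∑ i, v i := by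
    intro v; simp [dotProduct]
  have hr0 : (r : ℂ) + 1 ≠ 0 := by exact_mod_cast Nat.succ_ne_zero r
  have hsum : ∑ i, (B *ᵥ z) i = (r + 1) * ∑ i, z i := by
    simp only [hB, exB_mulVec]
    rw [Finset.sum_add_distrib, Finset.sum_const, Finset.card_univ, Fintype.card_fin,
      nsmul_eq_mul]
    ring
  -- rows
  have hrow : ∀ i : Fin r, (i : ℕ) ≠ 0 →
      ∑ k, (∏ j ∈ Finset.univ.erase k, (((i : ℕ) : ℂ) - a j)) *
        (a k * ((B *ᵥ z) k - (r + 1) * z k)) = 0 := by
    intro i hi
    have h1 := congrFun h0 i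
    simp only [sysHat, mulVec, dotProduct, Matrix.of_apply, if_neg hi, Pi.zero_apply] at h1
    have h2 : ∀ M : Mat r ℂ, ∑ x, ((1 : Fin r → ℂ) ᵥ* M) x * δ x = (1 : Fin r → ℂ) ⬝ᵥ (M *ᵥ δ) := by
      intro M
      rw [dotProduct_mulVec]
      rfl
    rw [h2, sub_mulVec, dotProduct_sub] at h1
    have h3 : (B * adjugate (tm i A) * A * adjugate B * adjugate A) *ᵥ δ =
        (det A * det B) • (B *ᵥ (adjugate (tm i A) *ᵥ (A *ᵥ z))) := by
      rw [hz]
      simp only [← mulVec_mulVec]
      have e1 : adjugate A *ᵥ A *ᵥ B *ᵥ z = det A • (B *ᵥ z) := by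
        rw [mulVec_mulVec _ (adjugate A) A, adjugate_mul, smul_mulVec, one_mulVec]
      rw [e1, mulVec_smul, mulVec_mulVec _ (adjugate B) B, adjugate_mul, smul_mulVec, one_mulVec]
      simp only [mulVec_smul, smul_smul]
    have h4 : tm (i : ℕ) A = diagonal fun j => ((i : ℕ) : ℂ) - a j := by
      unfold tm
      rw [hA, exA]
      ext p q
      by_cases hpq : p = q
      · subst hpq; simp [a]
      · simp [hpq]
    rw [h3, h4, adjugate_diagonal, smul_mulVec, dotProduct_smul, dotProduct_smul, ← smul_sub,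
      smul_eq_mul, mul_eq_zero] at h1
    have h5 := h1.resolve_left (mul_ne_zero hAn hBn)
    rw [dotProduct_mulVec _ B] at h5
    simp only [dotProduct, mulVec_diagonal, hz, hmulA, hB, one_vecMul_exB, Pi.one_apply,
      one_mul] at h5
    rw [← Finset.sum_sub_distrib] at h5
    rw [← h5]
    apply Finset.sum_congr rfl
    intro k _
    ring
  have hrow0 : ∑ k, (∏ j ∈ Finset.univ.erase k, ((0 : ℂ) - a j)) *
        (a k * ((B *ᵥ z) k - (r + 1) * z k)) = 0 := by
    have h1 : ∀ k, (∏ j ∈ Finset.univ.erase k, ((0 : ℂ) - a j)) *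
        (a k * ((B *ᵥ z) k - (r + 1) * z k)) =
        -(∏ j, ((0 : ℂ) - a j)) * ((B *ᵥ z) k - (r + 1) * z k) := by
      intro k
      rw [← Finset.prod_erase_mul (Finset.univ) (fun j => (0 : ℂ) - a j) (Finset.mem_univ k)]
      ring
    simp only [h1]
    rw [← Finset.mul_sum, Finset.sum_sub_distrib, hsum, ← Finset.mul_sum, sub_self, mul_zero]
  have hx := lagrange_zero a ha (fun k => a k * ((B *ᵥ z) k - (r + 1) * z k)) (by
    intro i
    by_cases hi : (i : ℕ) = 0
    · rw [hi, Nat.cast_zero]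
      exact hrow0
    · exact hrow i hi)
  have hak : ∀ k, a k ≠ 0 := fun k => by
    simp only [a]
    exact_mod_cast Nat.succ_ne_zero (k : ℕ)
  have hBz : ∀ k, (∑ j, z j) = r * z k := by
    intro k
    have h1 := congrFun hx k
    simp only [Pi.zero_apply] at h1
    have h2 := (mul_eq_zero.1 h1).resolve_left (hak k)
    rw [hB, exB_mulVec] at h2
    linear_combination h2
  have hz0 : ∑ j, z j = 0 := by
    have h1 := congrFun h0 ⟨0, hr⟩
    simp only [sysHat, mulVec, dotProduct, Matrix.of_apply, if_true, Pi.zero_apply] at h1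
    have h2 : ∑ x, ((1 : Fin r → ℂ) ᵥ* adjugate A) x * δ x =
        (1 : Fin r → ℂ) ⬝ᵥ (adjugate A *ᵥ δ) := by
      rw [dotProduct_mulVec]
      rfl
    rw [h2, hz, mulVec_mulVec, adjugate_mul, smul_mulVec, one_mulVec, dotProduct_smul, hone,
      hsum, smul_eq_mul] at h1
    have h3 := (mul_eq_zero.1 h1).resolve_left hAn
    exact (mul_eq_zero.1 h3).resolve_left hr0
  have hrn : (r : ℂ) ≠ 0 := by exact_mod_cast hr.ne'
  have hzk : z = 0 := by
    funext k
    have h1 := hBz k
    rw [hz0] at h1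
    exact (mul_eq_zero.1 h1.symm).resolve_left hrn
  rw [hz, hzk, mulVec_zero, mulVec_zero]

theorem ex_Ghat_ne (hr : 0 < r) : Ghat (exA r) (exB r) ≠ 0 := by
  unfold Ghat
  exact mul_ne_zero (mul_ne_zero (mul_ne_zero exA_det_ne exB_det_ne) ex_kry_ne) (ex_sysHat_ne hr)

/-- Good pairs are dense. -/
theorem good_dense (hr : 0 < r) (A B : Mat r ℂ) (U : Set (Mat r ℂ × Mat r ℂ))
    (hU : U ∈ nhds (A, B)) : ∃ p ∈ U, Good p.1 p.2 := by
  let AX : Mat r (Polynomial ℂ) := Matrix.of fun i j =>
    Polynomial.C (A i j) + Polynomial.X * Polynomial.C (exA r i j - A i j)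
  let BX : Mat r (Polynomial ℂ) := Matrix.of fun i j =>
    Polynomial.C (B i j) + Polynomial.X * Polynomial.C (exB r i j - B i j)
  let P : Polynomial ℂ := Ghat AX BX
  have hP : ∀ t : ℂ, P.eval t = Ghat (A + t • (exA r - A)) (B + t • (exB r - B)) := by
    intro t
    have h1 := Ghat_map (Polynomial.evalRingHom t) AX BX
    simp only [Polynomial.coe_evalRingHom] at h1
    rw [show P.eval t = Polynomial.eval t (Ghat AX BX) from rfl, h1]
    congr 1
    · ext i j; simp [AX]
    · ext i j; simp [BX]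
  have hP0 : P ≠ 0 := by
    intro h
    have h1 := hP 1
    rw [h, Polynomial.eval_zero] at h1
    simp only [one_smul, add_sub_cancel] at h1
    exact ex_Ghat_ne hr h1.symm
  have hfin : {t : ℂ | P.eval t = 0}.Finite := by
    refine (P.roots.toFinset.finite_toSet).subset ?_
    intro t ht
    simp only [Finset.mem_coe, Multiset.mem_toFinset, Polynomial.mem_roots hP0,
      Polynomial.IsRoot]
    exact ht
  have hcont : Continuous fun t : ℂ => (A + t • (exA r - A), B + t • (exB r - B)) := by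
    fun_prop
  have hV : (fun t : ℂ => (A + t • (exA r - A), B + t • (exB r - B))) ⁻¹' U ∈ nhds (0 : ℂ) := by
    apply hcont.continuousAt.preimage_mem_nhds
    simpa using hU
  have hdense := hfin.countable.dense_compl ℂ
  obtain ⟨t, ht1, ht2⟩ := hdense.inter_nhds_nonempty hV
  refine ⟨_, ht2, ?_⟩
  apply good_of_Ghat
  rw [← hP]
  exact ht1

end Vale.Agent.P002
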