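import Mathlib

/-! Infinitesimal principal minor lemma. -/

namespace Vale.Agent.P002

open Matrix

variable {ι : Type*} [Fintype ι] [DecidableEq ι]

omit [Fintype ι] in
theorem diagonal_single_eq (i : ι) :
    (diagonal (Pi.single i (1 : ℂ)) : Matrix ι ι ℂ) = Matrix.single i i 1 := by
  ext a b
  by_cases hab : a = b
  · subst hab
    by_cases ha : a = i
    · subst ha; simp
    · simp [ha, Matrix.single, Ne.symm ha]
  · by_cases ha : i = a
    · subst ha; simp [hab, Matrix.single]
    · simp [hab, Matrix.single, ha]

theorem trace_s1 (X : Matrix ι ι ℂ) (a : ι) :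
    trace (X * diagonal (Pi.single a (1 : ℂ))) = X a a := by
  rw [diagonal_single_eq, trace_mul_single]
  simp

theorem mul_s_mul (X B : Matrix ι ι ℂ) (b c a : ι) :
    (X * diagonal (Pi.single b (1 : ℂ)) * B) c a = X c b * B b a := by
  rw [diagonal_single_eq, mul_assoc, mul_apply]
  rw [Finset.sum_eq_single b]
  · simp
  · intro e _ hc
    rw [single_mul_apply_of_ne]
    · simp
    · exact hc
  · simp

theorem trace_s2 (X B : Matrix ι ι ℂ) (b a : ι) :
    trace (X * diagonal (Pi.single b (1 : ℂ)) * (B * diagonal (Pi.single a (1 : ℂ))))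
      = X a b * B b a := by
  rw [← mul_assoc, trace_s1, mul_s_mul]

theorem trace_s3 (X B : Matrix ι ι ℂ) (b c a : ι) :
    trace (X * diagonal (Pi.single b (1 : ℂ)) * (B * diagonal (Pi.single c (1 : ℂ)))
        * (B * diagonal (Pi.single a (1 : ℂ))))
      = X a b * B b c * B c a := by
  have h1 : X * diagonal (Pi.single b (1 : ℂ)) * (B * diagonal (Pi.single c (1 : ℂ)))
        * (B * diagonal (Pi.single a (1 : ℂ)))
      = (X * diagonal (Pi.single b (1 : ℂ)) * B) * diagonal (Pi.single c (1 : ℂ))
        * (B * diagonal (Pi.single a (1 : ℂ))) := by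
    simp only [mul_assoc]
  rw [h1, trace_s2, mul_s_mul]

omit [Fintype ι] in
theorem diagonal_add' (d e : ι → ℂ) :
    (diagonal (d + e) : Matrix ι ι ℂ) = diagonal d + diagonal e := by
  ext a b
  by_cases hab : a = b
  · subst hab; simp
  · simp [hab]

theorem principal_minor_lemma (B X : Matrix ι ι ℂ)
    (h1 : ∀ d : ι → ℂ, trace (X * diagonal d) = 0)
    (h2 : ∀ d : ι → ℂ, trace (X * diagonal d * (B * diagonal d)) = 0)
    (h3 : ∀ d : ι → ℂ, trace (X * diagonal d * (B * diagonal d) * (B * diagonal d)) = 0)
    (hB : ∀ i j, i ≠ j → B i j ≠ 0)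
    (hc : ∀ i j k, i ≠ j → j ≠ k → i ≠ k →
      B i j * B j k * B k i ≠ B i k * B k j * B j i) :
    ∃ θ : ι → ℂ, X = diagonal θ * B - B * diagonal θ := by
  have hdiag : ∀ i : ι, X i i = 0 := fun i => by
    rw [← trace_s1 X i]; exact h1 _
  have hpair : ∀ i j : ι, i ≠ j → X i j * B j i + X j i * B i j = 0 := by
    intro i j hij
    have := h2 (Pi.single i 1 + Pi.single j 1)
    simp only [diagonal_add', Matrix.mul_add, Matrix.add_mul, trace_add, trace_s2, hdiag] at this
    linear_combination this
  have htrip : ∀ i j k : ι, i ≠ j → j ≠ k → i ≠ k →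
      X i j * B j k * B k i + X j k * B k i * B i j + X k i * B i j * B j k
      + X i k * B k j * B j i + X k j * B j i * B i k + X j i * B i k * B k j = 0 := by
    intro i j k hij hjk hik
    have := h3 (Pi.single i 1 + Pi.single j 1 + Pi.single k 1)
    simp only [diagonal_add', Matrix.mul_add, Matrix.add_mul, trace_add, trace_s3, hdiag] at this
    have e1 := hpair i j hij
    have e2 := hpair j k hjk
    have e3 := hpair i k hik
    linear_combination this - (B i i + B j j) * e1 - (B j j + B k k) * e2 - (B i i + B k k) * e3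
  rcases isEmpty_or_nonempty ι with hι | ⟨⟨o⟩⟩
  · exact ⟨0, by ext i; exact (hι.false i).elim⟩
  refine ⟨fun i => X i o / B i o, ?_⟩
  ext i j
  simp only [Matrix.sub_apply, diagonal_mul, mul_diagonal]
  by_cases hij : i = j
  · subst hij; rw [hdiag]; ring
  by_cases hio : i = o
  · subst hio
    have e1 := hpair i j hij
    have b1 := hB i j hij
    have b2 := hB j i (Ne.symm hij)
    rw [hdiag]
    field_simp
    linear_combination e1
  by_cases hjo : j = o
  · subst hjo
    have b1 := hB i j hij
    rw [hdiag]
    field_simp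
    ring
  have e1 := hpair i j hij
  have e2 := hpair i o hio
  have e3 := hpair j o hjo
  have e4 := htrip i j o hij hjo hio
  have b1 := hB i j hij
  have b2 := hB j i (Ne.symm hij)
  have b3 := hB i o hio
  have b4 := hB o i (Ne.symm hio)
  have b5 := hB j o hjo
  have b6 := hB o j (Ne.symm hjo)
  have hne := hc i j o hij hjo hio
  -- the three ratios
  obtain ⟨p, hp⟩ : ∃ p, X i j = p * B i j := ⟨X i j / B i j, by field_simp⟩
  obtain ⟨q, hq⟩ : ∃ q, X j o = q * B j o := ⟨X j o / B j o, by field_simp⟩
  obtain ⟨s, hs⟩ : ∃ s, X i o = s * B i o := ⟨X i o / B i o, by field_simp⟩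
  have hp' : X j i = - p * B j i := by
    rw [hp] at e1
    have : (X j i + p * B j i) * B i j = 0 := by linear_combination e1
    rcases mul_eq_zero.1 this with h | h
    · linear_combination h
    · exact absurd h b1
  have hq' : X o j = - q * B o j := by
    rw [hq] at e3
    have : (X o j + q * B o j) * B j o = 0 := by linear_combination e3
    rcases mul_eq_zero.1 this with h | h
    · linear_combination h
    · exact absurd h b5
  have hs' : X o i = - s * B o i := by
    rw [hs] at e2
    have : (X o i + s * B o i) * B i o = 0 := by linear_combination e2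
    rcases mul_eq_zero.1 this with h | h
    · linear_combination h
    · exact absurd h b3
  rw [hp, hp', hq, hq', hs, hs'] at e4
  have key : (p + q - s) * (B i j * B j o * B o i - B i o * B o j * B j i) = 0 := by
    linear_combination e4
  have hpq : p + q - s = 0 := by
    rcases mul_eq_zero.1 key with h | h
    · exact h
    · exact absurd (sub_eq_zero.1 h) hne
  rw [hp, hq, hs]
  field_simp
  linear_combination hpq

end Vale.Agent.P002
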