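import Vale.Agent.P002.Defs

namespace Vale.Agent.P002

open Matrix

/-- Polynomials not vanishing at `0` and `1`. -/
def Sub01 : Submonoid (Polynomial ℂ) where
  carrier := {p | p.eval 0 ≠ 0 ∧ p.eval 1 ≠ 0}
  mul_mem' := by
    intro a b ha hb
    simp only [Set.mem_ofPred_eq, Polynomial.eval_mul] at *
    exact ⟨mul_ne_zero ha.1 hb.1, mul_ne_zero ha.2 hb.2⟩
  one_mem' := by simp

theorem mem_Sub01 (p : Polynomial ℂ) : p ∈ Sub01 ↔ p.eval 0 ≠ 0 ∧ p.eval 1 ≠ 0 := Iff.rfl

/-- Rational functions regular at `0` and `1`. -/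
abbrev T01 := Localization Sub01

theorem Sub01_le : Sub01 ≤ nonZeroDivisors (Polynomial ℂ) := by
  intro p hp
  rw [mem_nonZeroDivisors_iff_ne_zero]
  rintro rfl
  simp [mem_Sub01] at hp

instance : IsDomain T01 := IsLocalization.isDomain_localization Sub01_le

/-- Evaluation at `0`. -/
noncomputable def ev0 : T01 →+* ℂ :=
  IsLocalization.lift (M := Sub01) (g := Polynomial.evalRingHom (0 : ℂ)) (fun y =>
    isUnit_iff_ne_zero.2 (by simpa using y.2.1))

/-- Evaluation at `1`. -/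
noncomputable def ev1 : T01 →+* ℂ :=
  IsLocalization.lift (M := Sub01) (g := Polynomial.evalRingHom (1 : ℂ)) (fun y =>
    isUnit_iff_ne_zero.2 (by simpa using y.2.2))

@[simp] theorem ev0_algebraMap (p : Polynomial ℂ) : ev0 (algebraMap _ T01 p) = p.eval 0 := by
  unfold ev0
  rw [IsLocalization.lift_eq]
  rfl

@[simp] theorem ev1_algebraMap (p : Polynomial ℂ) : ev1 (algebraMap _ T01 p) = p.eval 1 := by
  unfold ev1
  rw [IsLocalization.lift_eq]
  rfl

theorem isUnit_T01 (x : T01) (h0 : ev0 x ≠ 0) (h1 : ev1 x ≠ 0) : IsUnit x := by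
  obtain ⟨⟨p, s⟩, hx⟩ := IsLocalization.surj (M := Sub01) x
  simp only at hx
  have e0 := congrArg ev0 hx
  have e1 := congrArg ev1 hx
  rw [map_mul, ev0_algebraMap, ev0_algebraMap] at e0
  rw [map_mul, ev1_algebraMap, ev1_algebraMap] at e1
  have hp : p ∈ Sub01 := by
    rw [mem_Sub01, ← e0, ← e1]
    exact ⟨mul_ne_zero h0 s.2.1, mul_ne_zero h1 s.2.2⟩
  have hu : IsUnit (algebraMap _ T01 p) := IsLocalization.map_units (M := Sub01) T01 ⟨p, hp⟩
  rw [← hx] at hu
  exact isUnit_of_mul_isUnit_left hu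

/-- The algebra structure over the complex numbers. -/
noncomputable instance : Algebra ℂ T01 := inferInstance

theorem algebraMap_T01 (c : ℂ) : algebraMap ℂ T01 c = algebraMap _ T01 (Polynomial.C c) := by
  rw [IsScalarTower.algebraMap_apply ℂ (Polynomial ℂ) T01]
  rfl

@[simp] theorem ev0_C (c : ℂ) : ev0 (algebraMap ℂ T01 c) = c := by
  rw [algebraMap_T01]; simp

@[simp] theorem ev1_C (c : ℂ) : ev1 (algebraMap ℂ T01 c) = c := by
  rw [algebraMap_T01]; simp

/-- Linear interpolation. -/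
noncomputable def lin (a b : ℂ) : T01 :=
  algebraMap _ T01 (Polynomial.C a + Polynomial.X * Polynomial.C (b - a))

@[simp] theorem ev0_lin (a b : ℂ) : ev0 (lin a b) = a := by simp [lin]

@[simp] theorem ev1_lin (a b : ℂ) : ev1 (lin a b) = b := by simp [lin]

theorem isUnit_mat {r : ℕ} (M : Mat r T01) (h0 : IsUnit (M.map ev0)) (h1 : IsUnit (M.map ev1)) :
    IsUnit M := by
  rw [Matrix.isUnit_iff_isUnit_det]
  rw [Matrix.isUnit_iff_isUnit_det, isUnit_iff_ne_zero] at h0 h1
  apply isUnit_T01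
  · rw [RingHom.map_det]; exact h0
  · rw [RingHom.map_det]; exact h1

end Vale.Agent.P002
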