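import Vale.Agent.P002.Defs

namespace Vale.Agent.P002

open Matrix

/-- The relation of the surface group for a tuple of matrices with explicit inverses. -/
def relI {g r : ℕ} {R : Type*} [CommRing R] (X Y : Fin g × Bool → Mat r R) : Mat r R :=
  (List.ofFn fun i : Fin g => X (i, false) * X (i, true) * Y (i, false) * Y (i, true)).prod

theorem relI_map {g r : ℕ} {R S : Type*} [CommRing R] [CommRing S] (φ : R →+* S)
    (X Y : Fin g × Bool → Mat r R) :
    (relI X Y).map φ = relI (fun k => (X k).map φ) (fun k => (Y k).map φ) := by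
  unfold relI
  have h1 : ∀ M : Mat r R, M.map φ = (RingHom.mapMatrix φ) M := fun M => rfl
  rw [h1, map_list_prod, List.map_ofFn]
  congr 1
  congr 1
  funext i
  simp only [Function.comp, map_mul, RingHom.mapMatrix_apply]

theorem relT_eq_relI {g r : ℕ} (X : Fin g × Bool → Mat r ℂ) :
    relT X = relI X (fun k => (X k)⁻¹) := rfl

/-- A polynomial identity over complex points of the representation variety holds for points
in every domain. -/
theorem transfer {g r : ℕ} {T : Type*} [CommRing T] [IsDomain T] [Algebra ℂ T]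
    (F : MvPolynomial ((Fin g × Bool) × Fin r × Fin r) ℂ)
    (hF : ∀ X : Fin g × Bool → Mat r ℂ, (∀ k, IsUnit (X k)) → relT X = 1 → evalT X F = 0)
    (X Y : Fin g × Bool → Mat r T) (hXY : ∀ k, X k * Y k = 1) (hrel : relI X Y = 1) :
    MvPolynomial.aeval (fun p : (Fin g × Bool) × Fin r × Fin r => X p.1 p.2.1 p.2.2) F = 0 := by
  classical
  -- variables: entries of `X` and of `Y`
  let σ := ((Fin g × Bool) × Fin r × Fin r) × Bool
  let v : σ → T := fun s => if s.2 then Y s.1.1 s.1.2.1 s.1.2.2 else X s.1.1 s.1.2.1 s.1.2.2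
  let ψ : MvPolynomial σ ℂ →ₐ[ℂ] T := MvPolynomial.aeval v
  let P : Ideal (MvPolynomial σ ℂ) := RingHom.ker ψ
  have hP : P.IsPrime := RingHom.ker_isPrime _
  let F' : MvPolynomial σ ℂ := MvPolynomial.rename (fun s => (s, false)) F
  have hF' : ψ F' = MvPolynomial.aeval
      (fun p : (Fin g × Bool) × Fin r × Fin r => X p.1 p.2.1 p.2.2) F := by
    simp only [ψ, F', MvPolynomial.aeval_rename]
    rfl
  rw [← hF']
  change F' ∈ P
  rw [← MvPolynomial.IsPrime.vanishingIdeal_zeroLocus (K := ℂ) P,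
    MvPolynomial.mem_vanishingIdeal_iff]
  intro x hx
  rw [MvPolynomial.mem_zeroLocus_iff] at hx
  -- the matrices attached to the point
  let 𝒳 : Fin g × Bool → Mat r (MvPolynomial σ ℂ) := fun k => Matrix.of fun i j =>
    MvPolynomial.X ((k, i, j), false)
  let 𝒴 : Fin g × Bool → Mat r (MvPolynomial σ ℂ) := fun k => Matrix.of fun i j =>
    MvPolynomial.X ((k, i, j), true)
  have h𝒳 : ∀ k, (𝒳 k).map ψ = X k := by
    intro k; ext i j
    change ψ (MvPolynomial.X ((k, i, j), false)) = _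
    simp [ψ, v]
  have h𝒴 : ∀ k, (𝒴 k).map ψ = Y k := by
    intro k; ext i j
    change ψ (MvPolynomial.X ((k, i, j), true)) = _
    simp [ψ, v]
  let ev : MvPolynomial σ ℂ →ₐ[ℂ] ℂ := MvPolynomial.aeval x
  let A : Fin g × Bool → Mat r ℂ := fun k => (𝒳 k).map ev
  let B : Fin g × Bool → Mat r ℂ := fun k => (𝒴 k).map ev
  have hmem : ∀ M N : Mat r (MvPolynomial σ ℂ), M.map ψ = N.map ψ → M.map ev = N.map ev := by
    intro M N h
    ext i j
    have h1 : M i j - N i j ∈ P := by
      change ψ (M i j - N i j) = 0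
      have := congrFun (congrFun h i) j
      simp only [Matrix.map_apply] at this
      rw [map_sub, this, sub_self]
    have h2 := hx _ h1
    simp only [Matrix.map_apply]
    have h3 : ev (M i j - N i j) = 0 := h2
    rw [map_sub, sub_eq_zero] at h3
    exact h3
  have hmul : ∀ k, A k * B k = 1 := by
    intro k
    have h1 := hmem (𝒳 k * 𝒴 k) 1 (by
      have e1 := Matrix.map_mul (L := 𝒳 k) (M := 𝒴 k) (f := ψ.toRingHom)
      have e2 : (𝒳 k * 𝒴 k).map ψ = (𝒳 k).map ψ * (𝒴 k).map ψ := e1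
      rw [e2, h𝒳, h𝒴, hXY, Matrix.map_one _ (map_zero ψ) (map_one ψ)])
    have e1 := Matrix.map_mul (L := 𝒳 k) (M := 𝒴 k) (f := ev.toRingHom)
    have e2 : (𝒳 k * 𝒴 k).map ev = (𝒳 k).map ev * (𝒴 k).map ev := e1
    rw [e2, Matrix.map_one _ (map_zero ev) (map_one ev)] at h1
    exact h1
  have hrelA : relI A B = 1 := by
    have h1 := hmem (relI 𝒳 𝒴) 1 (by
      have e1 := relI_map ψ.toRingHom 𝒳 𝒴
      have e2 : (relI 𝒳 𝒴).map ψ = relI (fun k => (𝒳 k).map ψ) (fun k => (𝒴 k).map ψ) := e1
      rw [e2, Matrix.map_one _ (map_zero ψ) (map_one ψ)]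
      simp only [h𝒳, h𝒴]
      exact hrel)
    have e1 := relI_map ev.toRingHom 𝒳 𝒴
    have e2 : (relI 𝒳 𝒴).map ev = relI (fun k => (𝒳 k).map ev) (fun k => (𝒴 k).map ev) := e1
    rw [e2, Matrix.map_one _ (map_zero ev) (map_one ev)] at h1
    exact h1
  have hB : ∀ k, B k = (A k)⁻¹ := fun k => (Matrix.inv_eq_right_inv (hmul k)).symm
  have hrelT : relT A = 1 := by
    rw [relT_eq_relI]
    have : B = fun k => (A k)⁻¹ := funext hB
    rw [← this]
    exact hrelA
  have hunit : ∀ k, IsUnit (A k) := fun k =>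
    (Matrix.isUnit_iff_isUnit_det _).2 (Matrix.isUnit_det_of_right_inverse (hmul k))
  have h0 := hF A hunit hrelT
  have h1 : MvPolynomial.aeval x F' = evalT A F := by
    simp only [F', MvPolynomial.aeval_rename, evalT]
    congr 1
    congr 1
    funext p
    change x (p, false) = ev (MvPolynomial.X (p, false))
    simp [ev]
  rw [h1]
  exact h0

end Vale.Agent.P002
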