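import Vale.Agent.P002.Defs
import Vale.Agent.P002.Chart
import Vale.Agent.P002.RatRing
import Vale.Agent.P002.Transfer

namespace Vale.Agent.P002

open Matrix

variable {n r : ℕ}

section
variable {R : Type*}

/-- Add a last handle. -/
def addH (y : Fin n × Bool → Mat r R) (A B : Mat r R) : Fin (n + 1) × Bool → Mat r R :=
  fun k => Fin.lastCases (motive := fun _ => Mat r R) (if k.2 = true then B else A)
    (fun i => y (i, k.2)) k.1

@[simp] theorem addH_last_false (y : Fin n × Bool → Mat r R) (A B : Mat r R) :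
    addH y A B (Fin.last n, false) = A := by simp [addH]

@[simp] theorem addH_last_true (y : Fin n × Bool → Mat r R) (A B : Mat r R) :
    addH y A B (Fin.last n, true) = B := by simp [addH]

@[simp] theorem addH_castSucc (y : Fin n × Bool → Mat r R) (A B : Mat r R) (i : Fin n)
    (b : Bool) : addH y A B (i.castSucc, b) = y (i, b) := by simp [addH]

theorem addH_forall (p : Mat r R → Prop) (y : Fin n × Bool → Mat r R) (A B : Mat r R)
    (hy : ∀ k, p (y k)) (hA : p A) (hB : p B) : ∀ k, p (addH y A B k) := by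
  rintro ⟨i, b⟩
  refine Fin.lastCases ?_ (fun i => ?_) i
  · cases b
    · rw [addH_last_false]; exact hA
    · rw [addH_last_true]; exact hB
  · rw [addH_castSucc]; exact hy _

end

variable {R : Type*} [CommRing R]

theorem addH_map {S : Type*} [CommRing S] (φ : R →+* S) (y : Fin n × Bool → Mat r R)
    (A B : Mat r R) (k : Fin (n + 1) × Bool) :
    (addH y A B k).map φ = addH (fun k => (y k).map φ) (A.map φ) (B.map φ) k := by
  obtain ⟨i, b⟩ := k
  refine Fin.lastCases ?_ (fun i => ?_) i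
  · cases b
    · simp
    · simp
  · simp

theorem relI_addH (y y' : Fin n × Bool → Mat r R) (A B A' B' : Mat r R) :
    relI (addH y A B) (addH y' A' B') = relI y y' * (A * B * A' * B') := by
  unfold relI
  rw [List.ofFn_succ', List.prod_concat]
  simp

theorem relI_det (y y' : Fin n × Bool → Mat r R) (h : ∀ k, y k * y' k = 1) :
    det (relI y y') = 1 := by
  unfold relI
  have h1 : ∀ l : List (Mat r R), (∀ M ∈ l, det M = 1) → det l.prod = 1 := by
    intro l
    induction l with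
    | nil => simp
    | cons a l ih =>
      intro hl
      rw [List.prod_cons, det_mul, hl a (by simp), ih (fun M hM => hl M (by simp [hM])), one_mul]
  apply h1
  intro M hM
  rw [List.mem_ofFn] at hM
  obtain ⟨i, rfl⟩ := hM
  rw [det_mul, det_mul, det_mul]
  have e1 : det (y (i, false)) * det (y' (i, false)) = 1 := by rw [← det_mul, h, det_one]
  have e2 : det (y (i, true)) * det (y' (i, true)) = 1 := by rw [← det_mul, h, det_one]
  calc _ = (det (y (i, false)) * det (y' (i, false))) * (det (y (i, true)) * det (y' (i, true))) := by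
        ring
    _ = 1 := by rw [e1, e2, one_mul]

/-- Good pairs. -/
def Good (A B : Mat r ℂ) : Prop :=
  IsUnit A ∧ IsUnit B ∧ IsUnit (kry A 1) ∧ IsUnit (sysM (B * A * B⁻¹ * A⁻¹) A)

theorem map_inv_of_unit {S : Type*} [CommRing S] (φ : R →+* S) (M : Mat r R) (h : IsUnit M) :
    (M⁻¹).map φ = (M.map φ)⁻¹ := by
  rw [Matrix.isUnit_iff_isUnit_det] at h
  symm
  apply Matrix.inv_eq_right_inv
  have := Matrix.mul_nonsing_inv M h
  have h2 := congrArg (fun N : Mat r R => N.map φ) this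
  beta_reduce at h2
  rw [Matrix.map_mul, Matrix.map_one _ (map_zero φ) (map_one φ)] at h2
  exact h2

theorem evalT_of_map {g : ℕ} {T : Type*} [CommRing T] [Algebra ℂ T] (φ : T →+* ℂ)
    (hφ : ∀ c : ℂ, φ (algebraMap ℂ T c) = c) (X : Fin g × Bool → Mat r T)
    (F : MvPolynomial ((Fin g × Bool) × Fin r × Fin r) ℂ) :
    φ (MvPolynomial.aeval (fun p : (Fin g × Bool) × Fin r × Fin r => X p.1 p.2.1 p.2.2) F) =
      evalT (fun k => (X k).map φ) F := by
  let φ' : T →ₐ[ℂ] ℂ := { φ with commutes' := hφ }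
  have h : (φ'.comp (MvPolynomial.aeval
      (fun p : (Fin g × Bool) × Fin r × Fin r => X p.1 p.2.1 p.2.2))) =
      evalT (fun k => (X k).map φ) := by
    apply MvPolynomial.algHom_ext
    intro p
    simp [evalT, φ']
  exact DFunLike.congr_fun h F

/-- The inverse of the commutator, from the relation. -/
theorem rel_inv {W A B : Mat r ℂ} (hA : IsUnit A) (hB : IsUnit B)
    (h : W * (A * B * A⁻¹ * B⁻¹) = 1) : W = B * A * B⁻¹ * A⁻¹ := by
  rw [Matrix.isUnit_iff_isUnit_det] at hA hB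
  have h2 : (A * B * A⁻¹ * B⁻¹) * (B * A * B⁻¹ * A⁻¹) = 1 := by
    have e1 : (A * B * A⁻¹ * B⁻¹) * (B * A * B⁻¹ * A⁻¹) =
        A * B * A⁻¹ * (B⁻¹ * B) * A * B⁻¹ * A⁻¹ := by
      simp only [mul_assoc]
    rw [e1, Matrix.nonsing_inv_mul _ hB, mul_one, mul_assoc (A * B), Matrix.nonsing_inv_mul _ hA,
      mul_one, mul_assoc A, Matrix.mul_nonsing_inv _ hB, mul_one, Matrix.mul_nonsing_inv _ hA]
  calc W = W * ((A * B * A⁻¹ * B⁻¹) * (B * A * B⁻¹ * A⁻¹)) := by rw [h2, mul_one]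
    _ = B * A * B⁻¹ * A⁻¹ := by rw [← mul_assoc, h, one_mul]

theorem sysR_zero {A B : Mat r ℂ} (hA : IsUnit A) (hB : IsUnit B) :
    sysR (B * A * B⁻¹ * A⁻¹) A (det A) = 0 := by
  rw [Matrix.isUnit_iff_isUnit_det] at hA hB
  have e : B * A * B⁻¹ * A⁻¹ * A = B * A * B⁻¹ := by
    rw [mul_assoc, Matrix.nonsing_inv_mul _ hA, mul_one]
  funext i
  simp only [sysR, Pi.zero_apply]
  split_ifs
  · rw [sub_self]
  · rw [e]
    have : tm (i : ℕ) (B * A * B⁻¹) = B * tm (i : ℕ) A * B⁻¹ := by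
      unfold tm
      rw [mul_sub, sub_mul, Matrix.mul_smul, mul_one, Matrix.smul_mul,
        Matrix.mul_nonsing_inv _ hB]
    rw [this, det_mul, det_mul, mul_right_comm, ← det_mul, Matrix.mul_nonsing_inv _ hB, det_one,
      one_mul, sub_self]

theorem path_lemma
    (f h : MvPolynomial ((Fin (n + 1) × Bool) × Fin r × Fin r) ℂ)
    (hfh : ∀ X : Fin (n + 1) × Bool → Mat r ℂ, (∀ k, IsUnit (X k)) → relT X = 1 →
      evalT X h * evalT X f = 0)
    (y0 y1 : Fin n × Bool → Mat r ℂ) (A0 B0 A1 B1 : Mat r ℂ)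
    (hy0 : ∀ k, IsUnit (y0 k)) (hy1 : ∀ k, IsUnit (y1 k))
    (hg0 : Good A0 B0) (hg1 : Good A1 B1)
    (hrel0 : relT (addH y0 A0 B0) = 1) (hrel1 : relT (addH y1 A1 B1) = 1)
    (hh : evalT (addH y0 A0 B0) h ≠ 0) : evalT (addH y1 A1 B1) f = 0 := by
  classical
  obtain ⟨hA0, hB0, hK0, hS0⟩ := hg0
  obtain ⟨hA1, hB1, hK1, hS1⟩ := hg1
  -- relations at the end points
  have hW : ∀ (y : Fin n × Bool → Mat r ℂ) (A B : Mat r ℂ), IsUnit A → IsUnit B →
      relT (addH y A B) = 1 → relT y = B * A * B⁻¹ * A⁻¹ := by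
    intro y A B hA hB hrel
    apply rel_inv hA hB
    rw [relT_eq_relI] at hrel ⊢
    have e : (fun k => (addH y A B k)⁻¹) = addH (fun k => (y k)⁻¹) A⁻¹ B⁻¹ := by
      funext k
      obtain ⟨i, b⟩ := k
      refine Fin.lastCases ?_ (fun i => ?_) i
      · cases b
        · simp
        · simp
      · simp
    rw [e, relI_addH] at hrel
    exact hrel
  have hW0 := hW y0 A0 B0 hA0 hB0 hrel0
  have hW1 := hW y1 A1 B1 hA1 hB1 hrel1
  -- the path
  let L : Mat r ℂ → Mat r ℂ → Mat r T01 := fun M N => Matrix.of fun i j => lin (M i j) (N i j)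
  have hL0 : ∀ M N, (L M N).map ev0 = M := by intro M N; ext i j; simp [L]
  have hL1 : ∀ M N, (L M N).map ev1 = N := by intro M N; ext i j; simp [L]
  let y : Fin n × Bool → Mat r T01 := fun k => L (y0 k) (y1 k)
  have hyu : ∀ k, IsUnit (y k) := fun k =>
    isUnit_mat _ (by rw [hL0]; exact hy0 k) (by rw [hL1]; exact hy1 k)
  have hyd : ∀ k, IsUnit (y k).det := fun k => (Matrix.isUnit_iff_isUnit_det _).1 (hyu k)
  let W : Mat r T01 := relI y (fun k => (y k)⁻¹)
  have hWdet : det W = 1 := relI_det _ _ fun k => Matrix.mul_nonsing_inv _ (hyd k)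
  have hWev0 : W.map ev0 = B0 * A0 * B0⁻¹ * A0⁻¹ := by
    rw [← hW0, relT_eq_relI, relI_map]
    congr 1
    · funext k; exact hL0 _ _
    · funext k
      rw [map_inv_of_unit _ _ (hyu k), hL0]
  have hWev1 : W.map ev1 = B1 * A1 * B1⁻¹ * A1⁻¹ := by
    rw [← hW1, relT_eq_relI, relI_map]
    congr 1
    · funext k; exact hL1 _ _
    · funext k
      rw [map_inv_of_unit _ _ (hyu k), hL1]
  let Y : Mat r T01 := L A0 A1
  let θ : T01 := lin (det A0) (det A1)
  have hMu : IsUnit (sysM W Y) := by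
    apply isUnit_mat
    · rw [sysM_map, hWev0, hL0]; exact hS0
    · rw [sysM_map, hWev1, hL1]; exact hS1
  have hMd := (Matrix.isUnit_iff_isUnit_det _).1 hMu
  let c : Fin r → T01 := (sysM W Y)⁻¹ *ᵥ sysR W Y θ
  have hc : sysM W Y *ᵥ c = sysR W Y θ := by
    simp only [c]
    rw [mulVec_mulVec, Matrix.mul_nonsing_inv _ hMd, one_mulVec]
  have hcφ : ∀ φ : T01 →+* ℂ, sysR (W.map φ) (Y.map φ) (φ θ) = 0 → ∀ i, φ (c i) = 0 := by
    intro φ hφ i
    have h1 := sysR_map φ W Y θ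
    rw [hφ] at h1
    simp only [c, mulVec, dotProduct, map_sum, map_mul]
    apply Finset.sum_eq_zero
    intro j _
    have h2 := congrFun h1 j
    simp only [Pi.zero_apply] at h2
    rw [h2, mul_zero]
  have hc0 : ∀ i, ev0 (c i) = 0 := by
    apply hcφ
    rw [hWev0, hL0, ev0_lin]
    exact sysR_zero hA0 hB0
  have hc1 : ∀ i, ev1 (c i) = 0 := by
    apply hcφ
    rw [hWev1, hL1, ev1_lin]
    exact sysR_zero hA1 hB1
  let A : Mat r T01 := Y + vecMulVec c 1
  have hAφ : ∀ φ : T01 →+* ℂ, (∀ i, φ (c i) = 0) → A.map φ = Y.map φ := by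
    intro φ hφ
    ext i j
    simp [A, hφ]
  have hAev0 : A.map ev0 = A0 := by rw [hAφ _ hc0, hL0]
  have hAev1 : A.map ev1 = A1 := by rw [hAφ _ hc1, hL1]
  have hAu : IsUnit A := isUnit_mat _ (by rw [hAev0]; exact hA0) (by rw [hAev1]; exact hA1)
  have hAd := (Matrix.isUnit_iff_isUnit_det _).1 hAu
  let A' : Mat r T01 := W * A
  have : CharZero T01 := by
    refine charZero_of_injective_algebraMap (R := ℂ) ?_
    exact FaithfulSMul.algebraMap_injective ℂ T01
  have hchar : A.charpoly = A'.charpoly := by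
    apply charpoly_eq_of_tm
    · simp only [A']
      rw [det_mul, hWdet, one_mul]
    · intro i hi
      exact sys_tm W Y θ c hc i hi
  have hKu : IsUnit (kry A 1) := by
    apply isUnit_mat
    · rw [kry_map, hAev0]
      have h7 : (fun i => ev0 ((1 : Fin r → T01) i)) = (1 : Fin r → ℂ) := by
        funext i; simp
      rw [h7]
      exact hK0
    · rw [kry_map, hAev1]
      have h7 : (fun i => ev1 ((1 : Fin r → T01) i)) = (1 : Fin r → ℂ) := by
        funext i; simp
      rw [h7]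
      exact hK1
  have hKd := (Matrix.isUnit_iff_isUnit_det _).1 hKu
  let w : Fin r → T01 := fun i => lin ((B0 *ᵥ 1) i) ((B1 *ᵥ 1) i)
  let B : Mat r T01 := kry A' w * (kry A 1)⁻¹
  have hBK : B * kry A 1 = kry A' w := by
    simp only [B]
    rw [mul_assoc, Matrix.nonsing_inv_mul _ hKd, mul_one]
  have hBev : ∀ (φ : T01 →+* ℂ) (A2 B2 : Mat r ℂ), IsUnit A2 → IsUnit B2 → IsUnit (kry A2 1) →
      A.map φ = A2 → W.map φ = B2 * A2 * B2⁻¹ * A2⁻¹ → (fun i => φ (w i)) = B2 *ᵥ 1 →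
      B.map φ = B2 := by
    intro φ A2 B2 hA2 hB2 hK2 h1 h2 h3
    have h4 := congrArg (fun N : Mat r T01 => N.map φ) hBK
    beta_reduce at h4
    rw [Matrix.map_mul, kry_map, kry_map, h1, h3] at h4
    have h5 : A'.map φ = B2 * A2 * B2⁻¹ := by
      simp only [A']
      rw [Matrix.map_mul, h1, h2, mul_assoc _ A2⁻¹ A2,
        Matrix.nonsing_inv_mul _ ((Matrix.isUnit_iff_isUnit_det _).1 hA2), mul_one]
    rw [h5] at h4
    have h6 : B2 * kry A2 1 = kry (B2 * A2 * B2⁻¹) (B2 *ᵥ 1) := by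
      apply mul_kry
      rw [mul_assoc (B2 * A2), Matrix.nonsing_inv_mul _ ((Matrix.isUnit_iff_isUnit_det _).1 hB2),
        mul_one]
    have h7 : (fun i => φ ((1 : Fin r → T01) i)) = (1 : Fin r → ℂ) := by
      funext i; simp
    rw [h7, ← h6] at h4
    exact hK2.mul_right_cancel h4
  have hBev0 : B.map ev0 = B0 :=
    hBev ev0 A0 B0 hA0 hB0 hK0 hAev0 hWev0 (by funext i; simp [w])
  have hBev1 : B.map ev1 = B1 :=
    hBev ev1 A1 B1 hA1 hB1 hK1 hAev1 hWev1 (by funext i; simp [w])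
  have hBu : IsUnit B := isUnit_mat _ (by rw [hBev0]; exact hB0) (by rw [hBev1]; exact hB1)
  have hBd := (Matrix.isUnit_iff_isUnit_det _).1 hBu
  have hcomm : B * A = A' * B := krylov_comm A A' 1 w hchar B hBK hKu
  -- the relation
  have hXY : ∀ k, addH y A B k * addH (fun k => (y k)⁻¹) A⁻¹ B⁻¹ k = 1 := by
    rintro ⟨i, b⟩
    refine Fin.lastCases ?_ (fun i => ?_) i
    · cases b
      · simp only [addH_last_false]; exact Matrix.mul_nonsing_inv _ hAd
      · simp only [addH_last_true]; exact Matrix.mul_nonsing_inv _ hBd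
    · simp only [addH_castSucc]; exact Matrix.mul_nonsing_inv _ (hyd _)
  have hrel : relI (addH y A B) (addH (fun k => (y k)⁻¹) A⁻¹ B⁻¹) = 1 := by
    rw [relI_addH]
    change W * (A * B * A⁻¹ * B⁻¹) = 1
    have e1 : W * (A * B * A⁻¹ * B⁻¹) = (A' * B) * A⁻¹ * B⁻¹ := by
      simp only [A', mul_assoc]
    rw [e1, ← hcomm, mul_assoc B, Matrix.mul_nonsing_inv _ hAd, mul_one,
      Matrix.mul_nonsing_inv _ hBd]
  have hzero := transfer (T := T01) (h * f) (by
    intro X hX hrelX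
    rw [map_mul]
    exact hfh X hX hrelX) _ _ hXY hrel
  rw [map_mul, mul_eq_zero] at hzero
  have hend : ∀ (φ : T01 →+* ℂ) (hφ : ∀ c : ℂ, φ (algebraMap ℂ T01 c) = c)
      (F : MvPolynomial ((Fin (n + 1) × Bool) × Fin r × Fin r) ℂ)
      (y2 : Fin n × Bool → Mat r ℂ) (A2 B2 : Mat r ℂ), (∀ k, (y k).map φ = y2 k) →
      A.map φ = A2 → B.map φ = B2 →
      φ (MvPolynomial.aeval (fun p : (Fin (n + 1) × Bool) × Fin r × Fin r =>
        addH y A B p.1 p.2.1 p.2.2) F) = evalT (addH y2 A2 B2) F := by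
    intro φ hφ F y2 A2 B2 h1 h2 h3
    rw [evalT_of_map φ hφ]
    congr 2
    funext k
    rw [addH_map, h2, h3]
    congr 1
    funext k
    exact h1 k
  rcases hzero with hz | hz
  · exfalso
    apply hh
    rw [← hend ev0 ev0_C h y0 A0 B0 (fun k => hL0 _ _) hAev0 hBev0, hz, map_zero]
  · rw [← hend ev1 ev1_C f y1 A1 B1 (fun k => hL1 _ _) hAev1 hBev1, hz, map_zero]

end Vale.Agent.P002
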