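import Vale.Agent.P002.BaseDensity

/-! TASK L: reducible representations. -/

namespace Vale.Agent.P002

open Matrix

section SemiSimple

variable {G : Type*} [Group G] {r r₁ r₂ : ℕ}

/-- invariant subspaces -/
def InvS (x : G →* (Mat r ℂ)ˣ) (W : Submodule ℂ (Fin r → ℂ)) : Prop :=
  ∀ w, ∀ v ∈ W, (x w : Mat r ℂ) *ᵥ v ∈ W

/-- relative semisimplicity of an invariant subspace -/
def RelSS (x : G →* (Mat r ℂ)ˣ) (E : Submodule ℂ (Fin r → ℂ)) : Prop :=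
  ∀ W ≤ E, InvS x W → ∃ W' ≤ E, InvS x W' ∧ W ⊓ W' = ⊥ ∧ W ⊔ W' = E

theorem InvS.inf {x : G →* (Mat r ℂ)ˣ} {W W' : Submodule ℂ (Fin r → ℂ)} (h : InvS x W)
    (h' : InvS x W') : InvS x (W ⊓ W') := fun w v hv => ⟨h w v hv.1, h' w v hv.2⟩

theorem InvS.sup {x : G →* (Mat r ℂ)ˣ} {W W' : Submodule ℂ (Fin r → ℂ)} (h : InvS x W)
    (h' : InvS x W') : InvS x (W ⊔ W') := by
  intro w v hv
  obtain ⟨a, ha, b, hb, rfl⟩ := Submodule.mem_sup.mp hv
  rw [mulVec_add]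
  exact Submodule.mem_sup.mpr ⟨_, h w a ha, _, h' w b hb, rfl⟩

theorem ss_iff_relSS_top (x : G →* (Mat r ℂ)ˣ) : SS x ↔ RelSS x ⊤ := by
  constructor
  · intro h W _ hW
    obtain ⟨W', h1, h2⟩ := h W hW
    exact ⟨W', le_top, h1, h2.inf_eq_bot, h2.sup_eq_top⟩
  · intro h W hW
    obtain ⟨W', _, h1, h2, h3⟩ := h W le_top hW
    exact ⟨W', h1, isCompl_iff.mpr ⟨disjoint_iff.mpr h2, codisjoint_iff.mpr h3⟩⟩

theorem RelSS.of_top {x : G →* (Mat r ℂ)ˣ} (h : RelSS x ⊤) {E : Submodule ℂ (Fin r → ℂ)}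
    (hE : InvS x E) : RelSS x E := by
  intro W hW hinv
  obtain ⟨W', _, h1, h2, h3⟩ := h W le_top hinv
  refine ⟨W' ⊓ E, inf_le_right, h1.inf hE, ?_, ?_⟩
  · rw [← inf_assoc, h2, bot_inf_eq]
  · rw [← sup_inf_assoc_of_le W' hW, h3, top_inf_eq]

theorem RelSS.of_compl {x : G →* (Mat r ℂ)ˣ} {E₁ E₂ : Submodule ℂ (Fin r → ℂ)}
    (hc : IsCompl E₁ E₂) (h1 : InvS x E₁) (h2 : InvS x E₂) (s1 : RelSS x E₁) (s2 : RelSS x E₂) :
    RelSS x ⊤ := by
  intro W _ hW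
  obtain ⟨C₁, hC₁, i1, d1, c1⟩ := s1 (W ⊓ E₁) inf_le_right (hW.inf h1)
  obtain ⟨C₂, hC₂, i2, d2, c2⟩ := s2 ((W ⊔ E₁) ⊓ E₂) inf_le_right ((hW.sup h1).inf h2)
  refine ⟨C₁ ⊔ C₂, le_top, i1.sup i2, ?_, ?_⟩
  · rw [eq_bot_iff]
    rintro v ⟨hv, hvC⟩
    obtain ⟨a, ha, b, hb, rfl⟩ := Submodule.mem_sup.mp hvC
    have hbW : b ∈ (W ⊔ E₁) ⊓ E₂ := by
      refine ⟨?_, hC₂ hb⟩
      refine Submodule.mem_sup.mpr ⟨a + b, hv, -a, E₁.neg_mem (hC₁ ha), by abel⟩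
    have hb0 : b ∈ ((W ⊔ E₁) ⊓ E₂) ⊓ C₂ := ⟨hbW, hb⟩
    rw [d2, Submodule.mem_bot] at hb0
    subst hb0
    rw [add_zero] at hv ⊢
    have ha0 : a ∈ (W ⊓ E₁) ⊓ C₁ := ⟨⟨hv, hC₁ ha⟩, ha⟩
    rw [d1] at ha0
    exact ha0
  · rw [eq_top_iff, ← hc.sup_eq_top]
    have hE1 : E₁ ≤ W ⊔ (C₁ ⊔ C₂) := by
      rw [← c1]
      exact sup_le (inf_le_left.trans le_sup_left) (le_sup_left.trans le_sup_right)
    refine sup_le hE1 ?_
    conv_lhs => rw [← c2]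
    refine sup_le (inf_le_left.trans (sup_le le_sup_left hE1)) (le_sup_right.trans le_sup_right)

/-- transport along an injective intertwining map -/
theorem SS.relSS_range {x : G →* (Mat r ℂ)ˣ} {y : G →* (Mat r₁ ℂ)ˣ}
    (ι : (Fin r₁ → ℂ) →ₗ[ℂ] (Fin r → ℂ)) (hι : Function.Injective ι)
    (c : G → ℂ) (hc : ∀ w, c w ≠ 0)
    (hxy : ∀ w v, (x w : Mat r ℂ) *ᵥ ι v = c w • ι ((y w : Mat r₁ ℂ) *ᵥ v)) (h : SS y) :
    RelSS x (LinearMap.range ι) := by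
  intro W hW hinv
  have hinv0 : InvS y (W.comap ι) := by
    intro w v hv
    rw [Submodule.mem_comap] at hv ⊢
    have h1 := hinv w _ hv
    rw [hxy] at h1
    have h2 := W.smul_mem (c w)⁻¹ h1
    rwa [smul_smul, inv_mul_cancel₀ (hc w), one_smul] at h2
  obtain ⟨W', h1, h2⟩ := h _ hinv0
  have hWm : (W.comap ι).map ι = W := by
    rw [Submodule.map_comap_eq, inf_eq_right.mpr hW]
  refine ⟨W'.map ι, ?_, ?_, ?_, ?_⟩
  · exact LinearMap.map_le_range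
  · intro w v hv
    obtain ⟨v', hv', rfl⟩ := Submodule.mem_map.mp hv
    rw [hxy]
    exact Submodule.smul_mem _ _ (Submodule.mem_map_of_mem (h1 w v' hv'))
  · conv_lhs => rw [← hWm]
    rw [← Submodule.map_inf ι hι, h2.inf_eq_bot, Submodule.map_bot]
  · conv_lhs => rw [← hWm]
    rw [← Submodule.map_sup, h2.sup_eq_top, Submodule.map_top]

theorem RelSS.ss_of_range {x : G →* (Mat r ℂ)ˣ} {y : G →* (Mat r₁ ℂ)ˣ}
    (ι : (Fin r₁ → ℂ) →ₗ[ℂ] (Fin r → ℂ)) (hι : Function.Injective ι)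
    (hxy : ∀ w v, (x w : Mat r ℂ) *ᵥ ι v = ι ((y w : Mat r₁ ℂ) *ᵥ v))
    (h : RelSS x (LinearMap.range ι)) : SS y := by
  intro W hinv
  have hinv1 : InvS x (W.map ι) := by
    intro w v hv
    obtain ⟨v', hv', rfl⟩ := Submodule.mem_map.mp hv
    rw [hxy]
    exact Submodule.mem_map_of_mem (hinv w v' hv')
  obtain ⟨W', hle, h1, h2, h3⟩ := h (W.map ι) LinearMap.map_le_range hinv1
  refine ⟨W'.comap ι, ?_, ?_⟩
  · intro w v hv
    rw [Submodule.mem_comap] at hv ⊢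
    rw [← hxy]
    exact h1 w _ hv
  · refine isCompl_iff.mpr ⟨disjoint_iff.mpr ?_, codisjoint_iff.mpr ?_⟩
    · rw [eq_bot_iff]
      rintro v ⟨hv, hv'⟩
      have : ι v ∈ W.map ι ⊓ W' := ⟨Submodule.mem_map_of_mem hv, hv'⟩
      rw [h2, Submodule.mem_bot] at this
      rw [Submodule.mem_bot]
      exact hι (by rw [this, map_zero])
    · rw [eq_top_iff]
      intro v _
      have hv : ι v ∈ W.map ι ⊔ W' := by rw [h3]; exact LinearMap.mem_range_self ι v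
      obtain ⟨a, ha, b, hb, hab⟩ := Submodule.mem_sup.mp hv
      obtain ⟨a', ha', rfl⟩ := Submodule.mem_map.mp ha
      obtain ⟨b', rfl⟩ := hle hb
      rw [← map_add] at hab
      rw [← hι hab]
      exact Submodule.add_mem _ (Submodule.mem_sup_left ha')
        (Submodule.mem_sup_right (by simpa [Submodule.mem_comap] using hb))

end SemiSimple

section Eval

variable {g r : ℕ} {S T : Type*} [CommRing S] [CommRing T] [Algebra ℂ S] [Algebra ℂ T]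

/-- evaluation of a polynomial at a tuple of matrices over an algebra -/
noncomputable def evS (X : Fin g × Bool → Mat r S) :
    MvPolynomial ((Fin g × Bool) × Fin r × Fin r) ℂ →ₐ[ℂ] S :=
  MvPolynomial.aeval fun p => X p.1 p.2.1 p.2.2

theorem evS_map (θ : S →ₐ[ℂ] T) (X : Fin g × Bool → Mat r S)
    (f : MvPolynomial ((Fin g × Bool) × Fin r × Fin r) ℂ) :
    θ (evS X f) = evS (fun k => (X k).map θ) f := by
  unfold evS
  rw [← AlgHom.comp_apply, MvPolynomial.comp_aeval]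
  rfl

theorem evalG_eq_evS (x : F g →* (Mat r S)ˣ)
    (f : MvPolynomial ((Fin g × Bool) × Fin r × Fin r) ℂ) :
    evalG x f = evS (fun k => (x (FreeGroup.of k) : Mat r S)) f := rfl

end Eval

section Dec

/-- a decomposition of `ℂ^r` in two pieces, by matrices -/
structure Dec (r r₁ r₂ : ℕ) where
  P₁ : Matrix (Fin r) (Fin r₁) ℂ
  P₂ : Matrix (Fin r) (Fin r₂) ℂ
  Q₁ : Matrix (Fin r₁) (Fin r) ℂ
  Q₂ : Matrix (Fin r₂) (Fin r) ℂ
  h11 : Q₁ * P₁ = 1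
  h12 : Q₁ * P₂ = 0
  h21 : Q₂ * P₁ = 0
  h22 : Q₂ * P₂ = 1
  hs : P₁ * Q₁ + P₂ * Q₂ = 1

variable {r r₁ r₂ : ℕ} {S T : Type*} [CommRing S] [CommRing T] [Algebra ℂ S] [Algebra ℂ T]

/-- block matrices over an algebra -/
def Dec.blk (D : Dec r r₁ r₂) (A : Mat r₁ S) (B : Mat r₂ S) : Mat r S :=
  D.P₁.map (algebraMap ℂ S) * A * D.Q₁.map (algebraMap ℂ S) +
    D.P₂.map (algebraMap ℂ S) * B * D.Q₂.map (algebraMap ℂ S)

theorem Dec.blk_map (D : Dec r r₁ r₂) (θ : S →ₐ[ℂ] T) (A : Mat r₁ S) (B : Mat r₂ S) :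
    (D.blk A B).map θ = D.blk (A.map θ) (B.map θ) := by
  have h : ∀ {m n : ℕ} (M : Matrix (Fin m) (Fin n) ℂ),
      (M.map (algebraMap ℂ S)).map θ = M.map (algebraMap ℂ T) := by
    intro m n M
    ext i j
    simp
  unfold Dec.blk
  rw [Matrix.map_add _ (map_add θ), Matrix.map_mul, Matrix.map_mul, Matrix.map_mul,
    Matrix.map_mul, h, h, h, h]

theorem Dec.blk_complex (D : Dec r r₁ r₂) (A : Mat r₁ ℂ) (B : Mat r₂ ℂ) :
    D.blk A B = D.P₁ * A * D.Q₁ + D.P₂ * B * D.Q₂ := by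
  have h : ∀ {m n : ℕ} (M : Matrix (Fin m) (Fin n) ℂ), M.map (algebraMap ℂ ℂ) = M := by
    intro m n M
    ext i j
    simp
  unfold Dec.blk
  rw [h, h, h, h]

theorem Dec.blk_mul (D : Dec r r₁ r₂) (A A' : Mat r₁ ℂ) (B B' : Mat r₂ ℂ) :
    D.blk A B * D.blk A' B' = D.blk (A * A') (B * B') := by
  simp only [Dec.blk_complex]
  have e1 : D.P₁ * A * D.Q₁ * (D.P₁ * A' * D.Q₁) = D.P₁ * (A * A') * D.Q₁ := by
    calc D.P₁ * A * D.Q₁ * (D.P₁ * A' * D.Q₁) = D.P₁ * A * (D.Q₁ * D.P₁) * A' * D.Q₁ := by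
          simp only [Matrix.mul_assoc]
      _ = _ := by rw [D.h11]; simp only [Matrix.mul_assoc, Matrix.one_mul]
  have e2 : D.P₁ * A * D.Q₁ * (D.P₂ * B' * D.Q₂) = 0 := by
    calc D.P₁ * A * D.Q₁ * (D.P₂ * B' * D.Q₂) = D.P₁ * A * (D.Q₁ * D.P₂) * B' * D.Q₂ := by
          simp only [Matrix.mul_assoc]
      _ = _ := by rw [D.h12]; simp
  have e3 : D.P₂ * B * D.Q₂ * (D.P₁ * A' * D.Q₁) = 0 := by
    calc D.P₂ * B * D.Q₂ * (D.P₁ * A' * D.Q₁) = D.P₂ * B * (D.Q₂ * D.P₁) * A' * D.Q₁ := by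
          simp only [Matrix.mul_assoc]
      _ = _ := by rw [D.h21]; simp
  have e4 : D.P₂ * B * D.Q₂ * (D.P₂ * B' * D.Q₂) = D.P₂ * (B * B') * D.Q₂ := by
    calc D.P₂ * B * D.Q₂ * (D.P₂ * B' * D.Q₂) = D.P₂ * B * (D.Q₂ * D.P₂) * B' * D.Q₂ := by
          simp only [Matrix.mul_assoc]
      _ = _ := by rw [D.h22]; simp only [Matrix.mul_assoc, Matrix.one_mul]
  rw [Matrix.add_mul, Matrix.mul_add, Matrix.mul_add, e1, e2, e3, e4]
  simp

theorem Dec.blk_one (D : Dec r r₁ r₂) : D.blk (1 : Mat r₁ ℂ) (1 : Mat r₂ ℂ) = 1 := by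
  rw [Dec.blk_complex, Matrix.mul_one, Matrix.mul_one, D.hs]

/-- block sum of two representations -/
noncomputable def Dec.hom {G : Type*} [Group G] (D : Dec r r₁ r₂) (x₁ : G →* (Mat r₁ ℂ)ˣ)
    (x₂ : G →* (Mat r₂ ℂ)ˣ) : G →* (Mat r ℂ)ˣ :=
  MonoidHom.toHomUnits
    { toFun := fun w => D.blk (x₁ w : Mat r₁ ℂ) (x₂ w : Mat r₂ ℂ)
      map_one' := by simp [Dec.blk_one]
      map_mul' := by intro a b; simp [Dec.blk_mul] }

theorem Dec.hom_apply {G : Type*} [Group G] (D : Dec r r₁ r₂) (x₁ : G →* (Mat r₁ ℂ)ˣ)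
    (x₂ : G →* (Mat r₂ ℂ)ˣ) (w : G) :
    (D.hom x₁ x₂ w : Mat r ℂ) = D.blk (x₁ w : Mat r₁ ℂ) (x₂ w : Mat r₂ ℂ) := by
  simp [Dec.hom]

theorem Dec.blk_mulVec₁ (D : Dec r r₁ r₂) (A : Mat r₁ ℂ) (B : Mat r₂ ℂ) (v : Fin r₁ → ℂ) :
    D.blk A B *ᵥ (D.P₁ *ᵥ v) = D.P₁ *ᵥ (A *ᵥ v) := by
  rw [Dec.blk_complex, add_mulVec, mulVec_mulVec, mulVec_mulVec, mulVec_mulVec,
    Matrix.mul_assoc (D.P₁ * A), D.h11, Matrix.mul_assoc (D.P₂ * B), D.h21]
  simp

theorem Dec.blk_mulVec₂ (D : Dec r r₁ r₂) (A : Mat r₁ ℂ) (B : Mat r₂ ℂ) (v : Fin r₂ → ℂ) :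
    D.blk A B *ᵥ (D.P₂ *ᵥ v) = D.P₂ *ᵥ (B *ᵥ v) := by
  rw [Dec.blk_complex, add_mulVec, mulVec_mulVec, mulVec_mulVec, mulVec_mulVec,
    Matrix.mul_assoc (D.P₁ * A), D.h12, Matrix.mul_assoc (D.P₂ * B), D.h22]
  simp

theorem Dec.inj₁ (D : Dec r r₁ r₂) : Function.Injective (Matrix.mulVecLin D.P₁) := by
  intro v v' h
  have h' := congrArg (fun z => D.Q₁ *ᵥ z) h
  simpa [mulVec_mulVec, D.h11] using h'

theorem Dec.inj₂ (D : Dec r r₁ r₂) : Function.Injective (Matrix.mulVecLin D.P₂) := by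
  intro v v' h
  have h' := congrArg (fun z => D.Q₂ *ᵥ z) h
  simpa [mulVec_mulVec, D.h22] using h'

theorem Dec.compl (D : Dec r r₁ r₂) :
    IsCompl (LinearMap.range (Matrix.mulVecLin D.P₁)) (LinearMap.range (Matrix.mulVecLin D.P₂)) := by
  refine isCompl_iff.mpr ⟨disjoint_iff.mpr ?_, codisjoint_iff.mpr ?_⟩
  · rw [eq_bot_iff]
    rintro v ⟨⟨a, rfl⟩, ⟨b, hb⟩⟩
    have h1 : a = 0 := by
      have h' := congrArg (fun z => D.Q₁ *ᵥ z) hb
      simpa [mulVec_mulVec, D.h11, D.h12] using h'.symm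
    rw [h1]; simp
  · rw [eq_top_iff]
    intro v _
    have : v = D.P₁ *ᵥ (D.Q₁ *ᵥ v) + D.P₂ *ᵥ (D.Q₂ *ᵥ v) := by
      rw [mulVec_mulVec, mulVec_mulVec, ← add_mulVec, D.hs, one_mulVec]
    rw [this]
    exact Submodule.add_mem _
      (Submodule.mem_sup_left (LinearMap.mem_range.mpr ⟨D.Q₁ *ᵥ v, by simp⟩))
      (Submodule.mem_sup_right (LinearMap.mem_range.mpr ⟨D.Q₂ *ᵥ v, by simp⟩))

/-- a twisted block sum of semisimple representations is semisimple -/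
theorem Dec.ss {G : Type*} [Group G] (D : Dec r r₁ r₂) (x : G →* (Mat r ℂ)ˣ)
    (x₁ : G →* (Mat r₁ ℂ)ˣ) (x₂ : G →* (Mat r₂ ℂ)ˣ) (c₁ c₂ : G → ℂ) (h₁ : ∀ w, c₁ w ≠ 0)
    (h₂ : ∀ w, c₂ w ≠ 0)
    (hx : ∀ w, (x w : Mat r ℂ) = D.blk (c₁ w • (x₁ w : Mat r₁ ℂ)) (c₂ w • (x₂ w : Mat r₂ ℂ)))
    (s₁ : SS x₁) (s₂ : SS x₂) : SS x := by
  rw [ss_iff_relSS_top]
  have e1 : ∀ w v, (x w : Mat r ℂ) *ᵥ (Matrix.mulVecLin D.P₁ v)
      = c₁ w • Matrix.mulVecLin D.P₁ ((x₁ w : Mat r₁ ℂ) *ᵥ v) := by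
    intro w v
    rw [hx, Matrix.mulVecLin_apply, Dec.blk_mulVec₁, smul_mulVec, mulVec_smul]
    simp
  have e2 : ∀ w v, (x w : Mat r ℂ) *ᵥ (Matrix.mulVecLin D.P₂ v)
      = c₂ w • Matrix.mulVecLin D.P₂ ((x₂ w : Mat r₂ ℂ) *ᵥ v) := by
    intro w v
    rw [hx, Matrix.mulVecLin_apply, Dec.blk_mulVec₂, smul_mulVec, mulVec_smul]
    simp
  refine RelSS.of_compl D.compl ?_ ?_
    (SS.relSS_range (Matrix.mulVecLin D.P₁) D.inj₁ c₁ h₁ e1 s₁)
    (SS.relSS_range (Matrix.mulVecLin D.P₂) D.inj₂ c₂ h₂ e2 s₂)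
  · rintro w v ⟨a, rfl⟩
    rw [e1]
    exact Submodule.smul_mem _ _ (LinearMap.mem_range_self _ _)
  · rintro w v ⟨a, rfl⟩
    rw [e2]
    exact Submodule.smul_mem _ _ (LinearMap.mem_range_self _ _)

theorem SS.scale {G : Type*} [Group G] {r : ℕ} {x y : G →* (Mat r ℂ)ˣ} (c : G → ℂ)
    (hc : ∀ w, c w ≠ 0) (h : ∀ w, (x w : Mat r ℂ) = c w • (y w : Mat r ℂ)) (hy : SS y) : SS x := by
  intro W hW
  have hW' : ∀ w, ∀ v ∈ W, (y w : Mat r ℂ) *ᵥ v ∈ W := by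
    intro w v hv
    have h1 := W.smul_mem (c w)⁻¹ (hW w v hv)
    rw [h, smul_mulVec, smul_smul, inv_mul_cancel₀ (hc w), one_smul] at h1
    exact h1
  obtain ⟨W', h1, h2⟩ := hy W hW'
  refine ⟨W', ?_, h2⟩
  intro w v hv
  rw [h, smul_mulVec]
  exact W'.smul_mem _ (h1 w v hv)

theorem SS.conj {G : Type*} [Group G] {r : ℕ} {x y : G →* (Mat r ℂ)ˣ} (X : (Mat r ℂ)ˣ)
    (h : ∀ w, x w = X * y w * X⁻¹) (hy : SS y) : SS x := by
  rw [ss_iff_relSS_top]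
  have hinj : Function.Injective (Matrix.mulVecLin (X : Mat r ℂ)) := by
    intro v v' h
    have h' := congrArg (fun z => ((X⁻¹ : (Mat r ℂ)ˣ) : Mat r ℂ) *ᵥ z) h
    simpa [mulVec_mulVec] using h'
  have hsurj : LinearMap.range (Matrix.mulVecLin (X : Mat r ℂ)) = ⊤ := by
    rw [LinearMap.range_eq_top]
    intro v
    refine ⟨((X⁻¹ : (Mat r ℂ)ˣ) : Mat r ℂ) *ᵥ v, ?_⟩
    simp [mulVec_mulVec]
  rw [← hsurj]
  refine SS.relSS_range (y := y) (Matrix.mulVecLin (X : Mat r ℂ)) hinj (fun _ => 1)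
    (fun _ => one_ne_zero) ?_ hy
  intro w v
  rw [h]
  simp [mulVec_mulVec, Matrix.mul_assoc]

end Dec

section Homog

theorem exists_homog {σ : Type*} (f : MvPolynomial σ ℂ) :
    ∃ (N : ℕ) (H : MvPolynomial (Option σ) ℂ), ∀ (t : ℂ), t ≠ 0 → ∀ v : σ → ℂ,
      MvPolynomial.eval (fun o => o.elim t v) H =
        t ^ N * MvPolynomial.eval (fun i => t⁻¹ * v i) f := by
  induction f using MvPolynomial.induction_on with
  | C a => exact ⟨0, MvPolynomial.C a, by intro t ht v; simp⟩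
  | add p q hp hq =>
    obtain ⟨N, H, h⟩ := hp
    obtain ⟨M, K, k⟩ := hq
    refine ⟨N + M, MvPolynomial.X none ^ M * H + MvPolynomial.X none ^ N * K, ?_⟩
    intro t ht v
    simp only [map_add, map_mul, map_pow, MvPolynomial.eval_X, Option.elim_none, h t ht v,
      k t ht v]
    ring
  | mul_X p i hp =>
    obtain ⟨N, H, h⟩ := hp
    refine ⟨N + 1, H * MvPolynomial.X (some i), ?_⟩
    intro t ht v
    simp only [map_mul, MvPolynomial.eval_X, Option.elim_some, h t ht v]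
    field_simp
    ring

end Homog

section Conj

variable {g r : ℕ}

/-- conjugate of a representation -/
noncomputable def conjH (U : (Mat r ℂ)ˣ) (y : F g →* (Mat r ℂ)ˣ) : F g →* (Mat r ℂ)ˣ :=
  (MulAut.conj U).toMonoidHom.comp y

theorem conjH_apply (U : (Mat r ℂ)ˣ) (y : F g →* (Mat r ℂ)ˣ) (w : F g) :
    conjH U y w = U * y w * U⁻¹ := by
  simp [conjH, MulAut.conj_apply]

theorem conjH_mem {R : Type*} [CommRing R] (φ : R →+* ℂ) {y : F g →* (Mat r ℂ)ˣ}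
    (hy : y ∈ DInt g r φ) (X : SpecialLinearGroup (Fin r) ℤ) :
    conjH (slU (Int.castRingHom ℂ) X) y ∈ DInt g r φ := by
  obtain ⟨z, hz, χ, h⟩ := hy
  have hX : slU (Int.castRingHom ℂ) X =
      slU φ (SpecialLinearGroup.map (Int.castRingHom R) X) := by
    apply Units.ext
    ext i j
    simp [slU]
  refine ⟨(MulAut.conj (SpecialLinearGroup.map (Int.castRingHom R) X)).toMonoidHom.comp z,
    ?_, χ, ?_⟩
  · simp [hz]
  · intro w
    rw [conjH_apply, h, hX]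
    have hc : ∀ U : (Mat r ℂ)ˣ, U * scalarU (χ w) = scalarU (χ w) * U := by
      intro U
      apply Units.ext
      simp only [Units.val_mul, scalarU, Units.coe_map, RingHom.toMonoidHom_eq_coe,
        MonoidHom.coe_coe]
      exact (Algebra.commutes _ _).symm
    simp only [MonoidHom.comp_apply, MulEquiv.coe_toMonoidHom, MulAut.conj_apply, map_mul,
      map_inv]
    rw [← mul_assoc, hc]
    simp only [mul_assoc]

theorem conj_vanish {R : Type*} [CommRing R] (φ : R →+* ℂ)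
    (f : MvPolynomial ((Fin g × Bool) × Fin r × Fin r) ℂ)
    (hf : ∀ y ∈ DInt g r φ, SS y → evalG y f = 0) (y : F g →* (Mat r ℂ)ˣ)
    (hy : y ∈ DInt g r φ) (hs : SS y) (U : (Mat r ℂ)ˣ) : evalG (conjH U y) f = 0 := by
  classical
  obtain ⟨N, H, hH⟩ := exists_homog f
  let 𝕏 : Mat r (MvPolynomial (Fin r × Fin r) ℂ) := Matrix.of fun i j => MvPolynomial.X (i, j)
  let Y : Fin g × Bool → Mat r ℂ := fun k => (y (FreeGroup.of k) : Mat r ℂ)
  let Z : Fin g × Bool → Mat r (MvPolynomial (Fin r × Fin r) ℂ) := fun k =>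
    𝕏 * (Y k).map MvPolynomial.C * 𝕏.adjugate
  let G : MvPolynomial (Fin r × Fin r) ℂ :=
    MvPolynomial.aeval (fun o : Option ((Fin g × Bool) × Fin r × Fin r) =>
      o.elim 𝕏.det fun p => Z p.1 p.2.1 p.2.2) H
  have key : ∀ U : (Mat r ℂ)ˣ, MvPolynomial.eval (fun p => (U : Mat r ℂ) p.1 p.2) G =
      (U : Mat r ℂ).det ^ N * evalG (conjH U y) f := by
    intro U
    let ev : MvPolynomial (Fin r × Fin r) ℂ →ₐ[ℂ] ℂ :=
      MvPolynomial.aeval fun p => (U : Mat r ℂ) p.1 p.2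
    have hev : ∀ q, MvPolynomial.eval (fun p => (U : Mat r ℂ) p.1 p.2) q = ev q := by
      intro q
      rw [← MvPolynomial.coe_aeval_eq_eval]
      rfl
    have h1 : 𝕏.map ev = (U : Mat r ℂ) := by
      ext i j
      simp [𝕏, ev]
    have hdet : ev 𝕏.det = (U : Mat r ℂ).det := by
      rw [← h1]
      exact AlgHom.map_det ev 𝕏
    have hadj : 𝕏.adjugate.map ev = (U : Mat r ℂ).adjugate := by
      rw [← h1]
      exact AlgHom.map_adjugate ev 𝕏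
    have hY : ∀ k, ((Y k).map MvPolynomial.C).map ev = Y k := by
      intro k
      ext i j
      simp [ev]
    have hd0 : (U : Mat r ℂ).det ≠ 0 := by
      have := (Matrix.isUnit_iff_isUnit_det _).mp U.isUnit
      exact this.ne_zero
    rw [hev]
    simp only [G]
    rw [← AlgHom.comp_apply, MvPolynomial.comp_aeval]
    have h2 : (fun o : Option ((Fin g × Bool) × Fin r × Fin r) =>
        ev (o.elim 𝕏.det fun p => Z p.1 p.2.1 p.2.2)) =
        fun o => o.elim (U : Mat r ℂ).det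
          fun p => ((U : Mat r ℂ) * Y p.1 * (U : Mat r ℂ).adjugate) p.2.1 p.2.2 := by
      funext o
      cases o with
      | none => simpa using hdet
      | some p =>
        simp only [Option.elim_some]
        have h3 : (Z p.1).map ev =
            (U : Mat r ℂ) * Y p.1 * (U : Mat r ℂ).adjugate := by
          simp only [Z]
          rw [Matrix.map_mul, Matrix.map_mul, h1, hY, hadj]
        rw [← h3]
        rfl
    have h4 := hH (U : Mat r ℂ).det hd0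
      (fun p => ((U : Mat r ℂ) * Y p.1 * (U : Mat r ℂ).adjugate) p.2.1 p.2.2)
    rw [← MvPolynomial.coe_aeval_eq_eval] at h4
    rw [h2]
    refine h4.trans ?_
    congr 1
    rw [evalG_eq_evS, ← MvPolynomial.coe_aeval_eq_eval]
    unfold evS
    have h5 : (fun p : (Fin g × Bool) × Fin r × Fin r => (U : Mat r ℂ).det⁻¹ *
        ((U : Mat r ℂ) * Y p.1 * (U : Mat r ℂ).adjugate) p.2.1 p.2.2) =
        fun p => ((conjH U y (FreeGroup.of p.1) : (Mat r ℂ)ˣ) : Mat r ℂ) p.2.1 p.2.2 := by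
      funext p
      have h6 : ((U⁻¹ : (Mat r ℂ)ˣ) : Mat r ℂ) =
          (U : Mat r ℂ).det⁻¹ • (U : Mat r ℂ).adjugate := by
        rw [Matrix.coe_units_inv, Matrix.inv_def, Ring.inverse_eq_inv']
      rw [conjH_apply, Units.val_mul, Units.val_mul, h6, Matrix.mul_smul, Matrix.smul_apply,
        smul_eq_mul]
    rw [h5]
    rfl
  have hG : G = 0 := by
    apply scaledSL_dense
    intro c X
    let U : (Mat r ℂ)ˣ := scalarU c * slU (Int.castRingHom ℂ) X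
    have hU : (fun p : Fin r × Fin r => (c : ℂ) * ((X.1 p.1 p.2 : ℤ) : ℂ)) =
        fun p => (U : Mat r ℂ) p.1 p.2 := by
      funext p
      simp only [U, Units.val_mul, scalarU, Units.coe_map, RingHom.toMonoidHom_eq_coe,
        MonoidHom.coe_coe]
      rw [← Algebra.smul_def, Matrix.smul_apply, smul_eq_mul]
      simp [slU]
    rw [hU, key]
    have hc : conjH U y = conjH (slU (Int.castRingHom ℂ) X) y := by
      ext1 w
      rw [conjH_apply, conjH_apply]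
      have hcc : ∀ V : (Mat r ℂ)ˣ, V * scalarU c = scalarU c * V := by
        intro V
        apply Units.ext
        simp only [Units.val_mul, scalarU, Units.coe_map, RingHom.toMonoidHom_eq_coe,
          MonoidHom.coe_coe]
        exact (Algebra.commutes _ _).symm
      have : U * y (FreeGroup.of w) * U⁻¹ = scalarU c * (slU (Int.castRingHom ℂ) X *
          y (FreeGroup.of w) * (slU (Int.castRingHom ℂ) X)⁻¹) * (scalarU c)⁻¹ := by
        simp only [U]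
        group
      rw [this, ← hcc]
      group
    rw [hc, hf _ (conjH_mem φ hy X) (SS.conj (slU (Int.castRingHom ℂ) X)
      (fun w => conjH_apply _ _ w) hs), mul_zero]
  have h := key U
  rw [hG, map_zero] at h
  have hd0 : (U : Mat r ℂ).det ≠ 0 := by
    have := (Matrix.isUnit_iff_isUnit_det _).mp U.isUnit
    exact this.ne_zero
  rcases mul_eq_zero.mp h.symm with h | h
  · exact absurd h (pow_ne_zero _ hd0)
  · exact h

end Conj


section Std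

variable {r r₁ r₂ : ℕ}

/-- the standard decomposition attached to a bijection -/
noncomputable def stdDec (e : Fin r₁ ⊕ Fin r₂ ≃ Fin r) : Dec r r₁ r₂ where
  P₁ := Matrix.of fun i j => if e (Sum.inl j) = i then 1 else 0
  P₂ := Matrix.of fun i j => if e (Sum.inr j) = i then 1 else 0
  Q₁ := Matrix.of fun j i => if e (Sum.inl j) = i then 1 else 0
  Q₂ := Matrix.of fun j i => if e (Sum.inr j) = i then 1 else 0
  h11 := by
    ext i j
    simp [Matrix.mul_apply, Matrix.one_apply, eq_comm]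
  h12 := by
    ext i j
    simp [Matrix.mul_apply]
  h21 := by
    ext i j
    simp [Matrix.mul_apply]
  h22 := by
    ext i j
    simp [Matrix.mul_apply, Matrix.one_apply, eq_comm]
  hs := by
    ext i j
    obtain ⟨i, rfl⟩ := e.surjective i
    obtain ⟨j, rfl⟩ := e.surjective j
    rcases i with i | i <;> rcases j with j | j <;>
      simp [Matrix.mul_apply, Matrix.one_apply, eq_comm]

theorem stdDec_blk (e : Fin r₁ ⊕ Fin r₂ ≃ Fin r) (A : Mat r₁ ℂ) (B : Mat r₂ ℂ) :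
    (stdDec e).blk A B = Matrix.reindex e e (fromBlocks A 0 0 B) := by
  rw [Dec.blk_complex]
  ext i j
  obtain ⟨i, rfl⟩ := e.surjective i
  obtain ⟨j, rfl⟩ := e.surjective j
  rcases i with i | i <;> rcases j with j | j <;>
    simp [Matrix.mul_apply, stdDec]

/-- change of decomposition -/
noncomputable def Dec.change (D D' : Dec r r₁ r₂) : (Mat r ℂ)ˣ where
  val := D.P₁ * D'.Q₁ + D.P₂ * D'.Q₂
  inv := D'.P₁ * D.Q₁ + D'.P₂ * D.Q₂
  val_inv := by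
    have e1 : D.P₁ * D'.Q₁ * (D'.P₁ * D.Q₁) = D.P₁ * D.Q₁ := by
      rw [Matrix.mul_assoc, ← Matrix.mul_assoc D'.Q₁, D'.h11, Matrix.one_mul]
    have e2 : D.P₁ * D'.Q₁ * (D'.P₂ * D.Q₂) = 0 := by
      rw [Matrix.mul_assoc, ← Matrix.mul_assoc D'.Q₁, D'.h12, Matrix.zero_mul, Matrix.mul_zero]
    have e3 : D.P₂ * D'.Q₂ * (D'.P₁ * D.Q₁) = 0 := by
      rw [Matrix.mul_assoc, ← Matrix.mul_assoc D'.Q₂, D'.h21, Matrix.zero_mul, Matrix.mul_zero]
    have e4 : D.P₂ * D'.Q₂ * (D'.P₂ * D.Q₂) = D.P₂ * D.Q₂ := by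
      rw [Matrix.mul_assoc, ← Matrix.mul_assoc D'.Q₂, D'.h22, Matrix.one_mul]
    rw [Matrix.add_mul, Matrix.mul_add, Matrix.mul_add, e1, e2, e3, e4, add_zero, zero_add, D.hs]
  inv_val := by
    have e1 : D'.P₁ * D.Q₁ * (D.P₁ * D'.Q₁) = D'.P₁ * D'.Q₁ := by
      rw [Matrix.mul_assoc, ← Matrix.mul_assoc D.Q₁, D.h11, Matrix.one_mul]
    have e2 : D'.P₁ * D.Q₁ * (D.P₂ * D'.Q₂) = 0 := by
      rw [Matrix.mul_assoc, ← Matrix.mul_assoc D.Q₁, D.h12, Matrix.zero_mul, Matrix.mul_zero]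
    have e3 : D'.P₂ * D.Q₂ * (D.P₁ * D'.Q₁) = 0 := by
      rw [Matrix.mul_assoc, ← Matrix.mul_assoc D.Q₂, D.h21, Matrix.zero_mul, Matrix.mul_zero]
    have e4 : D'.P₂ * D.Q₂ * (D.P₂ * D'.Q₂) = D'.P₂ * D'.Q₂ := by
      rw [Matrix.mul_assoc, ← Matrix.mul_assoc D.Q₂, D.h22, Matrix.one_mul]
    rw [Matrix.add_mul, Matrix.mul_add, Matrix.mul_add, e1, e2, e3, e4, add_zero, zero_add, D'.hs]

theorem Dec.change_conj (D D' : Dec r r₁ r₂) (A : Mat r₁ ℂ) (B : Mat r₂ ℂ) :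
    (D.change D' : Mat r ℂ) * D'.blk A B * (((D.change D')⁻¹ : (Mat r ℂ)ˣ) : Mat r ℂ) =
      D.blk A B := by
  change (D.P₁ * D'.Q₁ + D.P₂ * D'.Q₂) * D'.blk A B * (D'.P₁ * D.Q₁ + D'.P₂ * D.Q₂) = _
  simp only [Dec.blk_complex]
  have e1 : (D.P₁ * D'.Q₁ + D.P₂ * D'.Q₂) * (D'.P₁ * A * D'.Q₁ + D'.P₂ * B * D'.Q₂) =
      D.P₁ * A * D'.Q₁ + D.P₂ * B * D'.Q₂ := by
    have a1 : D.P₁ * D'.Q₁ * (D'.P₁ * A * D'.Q₁) = D.P₁ * (D'.Q₁ * D'.P₁) * A * D'.Q₁ := by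
      simp only [Matrix.mul_assoc]
    have a2 : D.P₁ * D'.Q₁ * (D'.P₂ * B * D'.Q₂) = D.P₁ * (D'.Q₁ * D'.P₂) * B * D'.Q₂ := by
      simp only [Matrix.mul_assoc]
    have a3 : D.P₂ * D'.Q₂ * (D'.P₁ * A * D'.Q₁) = D.P₂ * (D'.Q₂ * D'.P₁) * A * D'.Q₁ := by
      simp only [Matrix.mul_assoc]
    have a4 : D.P₂ * D'.Q₂ * (D'.P₂ * B * D'.Q₂) = D.P₂ * (D'.Q₂ * D'.P₂) * B * D'.Q₂ := by
      simp only [Matrix.mul_assoc]
    rw [Matrix.add_mul, Matrix.mul_add, Matrix.mul_add, a1, a2, a3, a4, D'.h11, D'.h12, D'.h21,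
      D'.h22]
    simp
  rw [e1]
  have b1 : D.P₁ * A * D'.Q₁ * (D'.P₁ * D.Q₁) = D.P₁ * A * (D'.Q₁ * D'.P₁) * D.Q₁ := by
    simp only [Matrix.mul_assoc]
  have b2 : D.P₁ * A * D'.Q₁ * (D'.P₂ * D.Q₂) = D.P₁ * A * (D'.Q₁ * D'.P₂) * D.Q₂ := by
    simp only [Matrix.mul_assoc]
  have b3 : D.P₂ * B * D'.Q₂ * (D'.P₁ * D.Q₁) = D.P₂ * B * (D'.Q₂ * D'.P₁) * D.Q₁ := by
    simp only [Matrix.mul_assoc]
  have b4 : D.P₂ * B * D'.Q₂ * (D'.P₂ * D.Q₂) = D.P₂ * B * (D'.Q₂ * D'.P₂) * D.Q₂ := by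
    simp only [Matrix.mul_assoc]
  rw [Matrix.add_mul, Matrix.mul_add, Matrix.mul_add, b1, b2, b3, b4, D'.h11, D'.h12, D'.h21,
      D'.h22]
  simp

end Std

section SLBlock

variable {r r₁ r₂ : ℕ} {R : Type*} [CommRing R]

theorem sl_ext {A B : SpecialLinearGroup (Fin r) R} (h : (A : Mat r R) = (B : Mat r R)) :
    A = B := by
  apply Matrix.SpecialLinearGroup.ext
  intro i j
  exact congrFun (congrFun h i) j

/-- the block diagonal matrix `(u^(n r₂) A, u^(-n r₁) B)` in `SL_r(R)` -/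
noncomputable def slBlk (e : Fin r₁ ⊕ Fin r₂ ≃ Fin r) (u : Rˣ) (n : Multiplicative ℤ)
    (A : SpecialLinearGroup (Fin r₁) R) (B : SpecialLinearGroup (Fin r₂) R) :
    SpecialLinearGroup (Fin r) R :=
  ⟨Matrix.reindex e e (fromBlocks (((u ^ (n.toAdd * r₂) : Rˣ) : R) • (A : Mat r₁ R)) 0 0
      (((u ^ (-(n.toAdd * r₁)) : Rˣ) : R) • (B : Mat r₂ R))), by
    rw [Matrix.det_reindex_self, Matrix.det_fromBlocks_zero₂₁, Matrix.det_smul, Matrix.det_smul,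
      A.det_coe, B.det_coe, mul_one, mul_one, Fintype.card_fin, Fintype.card_fin, ← Units.val_pow_eq_pow_val,
      ← Units.val_pow_eq_pow_val, ← Units.val_mul, ← zpow_natCast, ← zpow_natCast,
      ← _root_.zpow_mul, ← _root_.zpow_mul, ← _root_.zpow_add]
    have : n.toAdd * (r₂ : ℤ) * (r₁ : ℤ) + -(n.toAdd * (r₁ : ℤ)) * (r₂ : ℤ) = 0 := by ring
    rw [this, zpow_zero, Units.val_one]⟩

theorem slBlk_coe (e : Fin r₁ ⊕ Fin r₂ ≃ Fin r) (u : Rˣ) (n : Multiplicative ℤ)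
    (A : SpecialLinearGroup (Fin r₁) R) (B : SpecialLinearGroup (Fin r₂) R) :
    (slBlk e u n A B : Mat r R) = Matrix.reindex e e (fromBlocks
      (((u ^ (n.toAdd * r₂) : Rˣ) : R) • (A : Mat r₁ R)) 0 0
      (((u ^ (-(n.toAdd * r₁)) : Rˣ) : R) • (B : Mat r₂ R))) := rfl

theorem slBlk_mul (e : Fin r₁ ⊕ Fin r₂ ≃ Fin r) (u : Rˣ) (n n' : Multiplicative ℤ)
    (A A' : SpecialLinearGroup (Fin r₁) R) (B B' : SpecialLinearGroup (Fin r₂) R) :
    slBlk e u (n * n') (A * A') (B * B') = slBlk e u n A B * slBlk e u n' A' B' := by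
  have e1 : u ^ ((n * n').toAdd * (r₂ : ℤ)) = u ^ (n.toAdd * (r₂ : ℤ)) *
      u ^ (n'.toAdd * (r₂ : ℤ)) := by
    rw [← _root_.zpow_add, toAdd_mul, add_mul]
  have e2 : u ^ (-((n * n').toAdd * (r₁ : ℤ))) = u ^ (-(n.toAdd * (r₁ : ℤ))) *
      u ^ (-(n'.toAdd * (r₁ : ℤ))) := by
    rw [← _root_.zpow_add, toAdd_mul, add_mul, neg_add]
  apply sl_ext
  rw [Matrix.SpecialLinearGroup.coe_mul, slBlk_coe, slBlk_coe, slBlk_coe, Matrix.reindex_apply,
    Matrix.reindex_apply, Matrix.reindex_apply, Matrix.submatrix_mul_equiv,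
    Matrix.fromBlocks_multiply, e1, e2]
  simp only [Matrix.mul_zero, Matrix.zero_mul, add_zero, zero_add, Matrix.smul_mul,
    Matrix.mul_smul, smul_smul, Matrix.SpecialLinearGroup.coe_mul, Units.val_mul, smul_zero]
  rw [mul_comm ((u ^ (n.toAdd * (r₂ : ℤ)) : Rˣ) : R), mul_comm ((u ^ (-(n.toAdd * (r₁ : ℤ))) : Rˣ) : R)]

theorem slBlk_one (e : Fin r₁ ⊕ Fin r₂ ≃ Fin r) (u : Rˣ) :
    slBlk e u 1 1 1 = (1 : SpecialLinearGroup (Fin r) R) := by
  apply sl_ext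
  rw [slBlk_coe]
  simp

end SLBlock

section TwoBlock

variable {g r r₁ r₂ : ℕ} {R : Type*} [CommRing R]

/-- the block sum, twisted by powers of a unit -/
noncomputable def blkHom (e : Fin r₁ ⊕ Fin r₂ ≃ Fin r) (u : Rˣ) (ν : F g →* Multiplicative ℤ)
    (z₁ : F g →* SpecialLinearGroup (Fin r₁) R) (z₂ : F g →* SpecialLinearGroup (Fin r₂) R) :
    F g →* SpecialLinearGroup (Fin r) R where
  toFun w := slBlk e u (ν w) (z₁ w) (z₂ w)
  map_one' := by rw [map_one, map_one, map_one, slBlk_one]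
  map_mul' a b := by rw [map_mul, map_mul, map_mul, slBlk_mul]

theorem hom_comm_relator {A : Type*} [CommGroup A] (ν : F g →* A) : ν (relator g) = 1 := by
  unfold relator
  rw [map_list_prod]
  apply List.prod_eq_one
  intro a ha
  simp only [List.mem_map, List.mem_ofFn] at ha
  obtain ⟨b, ⟨i, rfl⟩, rfl⟩ := ha
  simp only [hcomm, map_mul, map_inv]
  rw [mul_right_comm (ν (ga i)), mul_inv_cancel, one_mul, mul_inv_cancel]

theorem slU_coe (φ : R →+* ℂ) (A : SpecialLinearGroup (Fin r) R) :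
    (slU φ A : Mat r ℂ) = (A : Mat r R).map φ := by
  ext i j
  simp [slU]

theorem scalarU_mul_coe (c : ℂˣ) (U : (Mat r ℂ)ˣ) :
    ((scalarU c * U : (Mat r ℂ)ˣ) : Mat r ℂ) = (c : ℂ) • (U : Mat r ℂ) := by
  simp only [Units.val_mul, scalarU, Units.coe_map, RingHom.toMonoidHom_eq_coe,
    MonoidHom.coe_coe]
  rw [← Algebra.smul_def]

theorem slU_slBlk (φ : R →+* ℂ) (e : Fin r₁ ⊕ Fin r₂ ≃ Fin r) (u : Rˣ) (n : Multiplicative ℤ)
    (A : SpecialLinearGroup (Fin r₁) R) (B : SpecialLinearGroup (Fin r₂) R) :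
    (slU φ (slBlk e u n A B) : Mat r ℂ) = (stdDec e).blk
      (φ (u ^ (n.toAdd * (r₂ : ℤ)) : Rˣ) • (slU φ A : Mat r₁ ℂ))
      (φ (u ^ (-(n.toAdd * (r₁ : ℤ))) : Rˣ) • (slU φ B : Mat r₂ ℂ)) := by
  rw [stdDec_blk, slU_coe, slU_coe, slU_coe, slBlk_coe]
  ext i j
  obtain ⟨i, rfl⟩ := e.surjective i
  obtain ⟨j, rfl⟩ := e.surjective j
  rcases i with i | i <;> rcases j with j | j <;> simp

theorem two_block_special (φ : R →+* ℂ) (u : Rˣ) (D : Dec r r₁ r₂) (hr : r₁ + r₂ = r)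
    (z₁ : F g →* SpecialLinearGroup (Fin r₁) R) (z₂ : F g →* SpecialLinearGroup (Fin r₂) R)
    (h₁ : z₁ (relator g) = 1) (h₂ : z₂ (relator g) = 1)
    (s₁ : SS ((slU φ).comp z₁)) (s₂ : SS ((slU φ).comp z₂))
    (f : MvPolynomial ((Fin g × Bool) × Fin r × Fin r) ℂ)
    (hf : ∀ y ∈ DInt g r φ, SS y → evalG y f = 0)
    (n : Fin g × Bool → ℤ) (c : Fin g × Bool → ℂˣ) :
    evS (fun k => D.blk
      (((c k : ℂ) * φ (u ^ (n k * (r₂ : ℤ)) : Rˣ)) • (slU φ (z₁ (FreeGroup.of k)) : Mat r₁ ℂ))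
      (((c k : ℂ) * φ (u ^ (-(n k * (r₁ : ℤ))) : Rˣ)) •
        (slU φ (z₂ (FreeGroup.of k)) : Mat r₂ ℂ))) f = 0 := by
  let e : Fin r₁ ⊕ Fin r₂ ≃ Fin r := finSumFinEquiv.trans (finCongr hr)
  let ν : F g →* Multiplicative ℤ := FreeGroup.lift fun k => Multiplicative.ofAdd (n k)
  let χ : F g →* ℂˣ := FreeGroup.lift c
  let z : F g →* SpecialLinearGroup (Fin r) R := blkHom e u ν z₁ z₂
  let y : F g →* (Mat r ℂ)ˣ :=
    { toFun := fun w => scalarU (χ w) * slU φ (z w)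
      map_one' := by simp
      map_mul' := by
        intro a b
        rw [map_mul, map_mul, map_mul, map_mul]
        have hc : slU φ (z a) * scalarU (χ b) = scalarU (χ b) * slU φ (z a) := by
          apply Units.ext
          simp only [Units.val_mul, scalarU, Units.coe_map, RingHom.toMonoidHom_eq_coe,
            MonoidHom.coe_coe]
          exact (Algebra.commutes _ _).symm
        rw [mul_assoc, mul_assoc, ← mul_assoc (scalarU (χ b)), ← hc, mul_assoc] }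
  have hy : y ∈ DInt g r φ := by
    refine ⟨z, ?_, χ, fun w => rfl⟩
    change slBlk e u (ν (relator g)) (z₁ (relator g)) (z₂ (relator g)) = 1
    rw [hom_comm_relator, h₁, h₂, slBlk_one]
  have hyw : ∀ w, (y w : Mat r ℂ) = (stdDec e).blk
      (((χ w : ℂ) * φ (u ^ ((ν w).toAdd * (r₂ : ℤ)) : Rˣ)) • (slU φ (z₁ w) : Mat r₁ ℂ))
      (((χ w : ℂ) * φ (u ^ (-((ν w).toAdd * (r₁ : ℤ))) : Rˣ)) • (slU φ (z₂ w) : Mat r₂ ℂ)) := by
    intro w
    change ((scalarU (χ w) * slU φ (slBlk e u (ν w) (z₁ w) (z₂ w)) : (Mat r ℂ)ˣ) : Mat r ℂ) = _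
    rw [scalarU_mul_coe, slU_slBlk, Dec.blk_complex, Dec.blk_complex, smul_add]
    simp only [Matrix.mul_smul, Matrix.smul_mul, smul_smul]
  have hunit : ∀ (w : F g) (m : ℤ), (χ w : ℂ) * φ (u ^ m : Rˣ) ≠ 0 := by
    intro w m
    refine mul_ne_zero (χ w).ne_zero ?_
    exact ((u ^ m).isUnit.map φ).ne_zero
  have hys : SS y := Dec.ss (stdDec e) y ((slU φ).comp z₁) ((slU φ).comp z₂) _ _
    (fun w => hunit w _) (fun w => hunit w _) hyw s₁ s₂
  have h := conj_vanish φ f hf y hy hys (D.change (stdDec e))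
  rw [evalG_eq_evS] at h
  refine Eq.trans ?_ h
  congr 1
  congr 1
  funext k
  rw [conjH_apply, Units.val_mul, Units.val_mul, hyw, Dec.change_conj]
  simp [χ, ν]


theorem two_block_all (φ : R →+* ℂ) (u : Rˣ) (hu : ∀ n : ℕ, 0 < n → φ (u : R) ^ n ≠ 1)
    (hr0 : 0 < r) (D : Dec r r₁ r₂) (hr : r₁ + r₂ = r)
    (z₁ : F g →* SpecialLinearGroup (Fin r₁) R) (z₂ : F g →* SpecialLinearGroup (Fin r₂) R)
    (h₁ : z₁ (relator g) = 1) (h₂ : z₂ (relator g) = 1)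
    (s₁ : SS ((slU φ).comp z₁)) (s₂ : SS ((slU φ).comp z₂))
    (f : MvPolynomial ((Fin g × Bool) × Fin r × Fin r) ℂ)
    (hf : ∀ y ∈ DInt g r φ, SS y → evalG y f = 0)
    (s t : Fin g × Bool → ℂˣ) :
    evS (fun k => D.blk
      ((s k : ℂ) • (slU φ (z₁ (FreeGroup.of k)) : Mat r₁ ℂ))
      ((t k : ℂ) • (slU φ (z₂ (FreeGroup.of k)) : Mat r₂ ℂ))) f = 0 := by
  let L := MvPolynomial (Fin g × Bool) ℂ
  let G : L := evS (fun k => D.blk
    ((MvPolynomial.X k * MvPolynomial.C (t k : ℂ) : L) •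
      (slU φ (z₁ (FreeGroup.of k)) : Mat r₁ ℂ).map MvPolynomial.C)
    ((MvPolynomial.C (t k : ℂ) : L) •
      (slU φ (z₂ (FreeGroup.of k)) : Mat r₂ ℂ).map MvPolynomial.C)) f
  have hG : ∀ ρ : Fin g × Bool → ℂ, MvPolynomial.eval ρ G =
      evS (fun k => D.blk ((ρ k * (t k : ℂ)) • (slU φ (z₁ (FreeGroup.of k)) : Mat r₁ ℂ))
      ((t k : ℂ) • (slU φ (z₂ (FreeGroup.of k)) : Mat r₂ ℂ))) f := by
    intro ρ
    have h0 : MvPolynomial.eval ρ G = (MvPolynomial.aeval ρ : L →ₐ[ℂ] ℂ) G := by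
      rw [← MvPolynomial.coe_aeval_eq_eval]
      rfl
    rw [h0]
    simp only [G]
    rw [evS_map]
    refine congrArg (fun X => evS X f) (funext fun k => ?_)
    rw [Dec.blk_map]
    congr 1
    · ext i j
      simp
    · ext i j
      simp
  have hφu : φ (u : R) ≠ 0 := (u.isUnit.map φ).ne_zero
  let Λ : Set ℂ := Set.range fun m : ℕ => (φ (u : R) ^ r) ^ m
  have hΛ : Λ.Infinite := by
    apply Set.infinite_range_of_injective
    have hne : ∀ m : ℕ, 0 < m → (φ (u : R) ^ r) ^ m ≠ 1 := by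
      intro m hm
      rw [← pow_mul]
      exact hu _ (Nat.mul_pos hr0 hm)
    have aux : ∀ a b : ℕ, a < b → (φ (u : R) ^ r) ^ a ≠ (φ (u : R) ^ r) ^ b := by
      intro a b hab h
      obtain ⟨d, hd, rfl⟩ : ∃ d, 0 < d ∧ b = a + d := ⟨b - a, by omega, by omega⟩
      rw [pow_add] at h
      have h0 : (φ (u : R) ^ r) ^ a ≠ 0 := pow_ne_zero _ (pow_ne_zero _ hφu)
      exact hne d hd (mul_left_cancel₀ h0 (by rw [mul_one]; exact h.symm))
    intro a b h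
    by_contra hab
    rcases lt_or_gt_of_ne hab with h' | h'
    · exact aux a b h' h
    · exact aux b a h' h.symm
  have hG0 : G = 0 := by
    refine MvPolynomial.funext_set (fun _ => Λ) (fun _ => hΛ) ?_
    intro ρ hρ
    rw [map_zero, hG]
    choose m hm using fun k => hρ k (Set.mem_univ k)
    let c : Fin g × Bool → ℂˣ := fun k =>
      t k * (Units.map (φ : R →* ℂ) u) ^ ((m k : ℤ) * (r₁ : ℤ))
    have h := two_block_special φ u D hr z₁ z₂ h₁ h₂ s₁ s₂ f hf (fun k => (m k : ℤ)) c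
    refine Eq.trans (congrArg (fun X => evS X f) (funext fun k => ?_)) h
    have hpow : ∀ a : ℤ, φ ((u ^ a : Rˣ) : R) = (((Units.map (φ : R →* ℂ) u) ^ a : ℂˣ) : ℂ) := by
      intro a
      rw [← map_zpow]
      rfl
    have e1 : ρ k * (t k : ℂ) = (c k : ℂ) * φ ((u ^ ((m k : ℤ) * (r₂ : ℤ)) : Rˣ) : R) := by
      rw [hpow]
      simp only [c]
      rw [← Units.val_mul, mul_assoc, ← _root_.zpow_add]
      have : (m k : ℤ) * (r₁ : ℤ) + (m k : ℤ) * (r₂ : ℤ) = ((r * m k : ℕ) : ℤ) := by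
        push_cast [← hr]
        ring
      have hmk : ρ k = φ (u : R) ^ (r * m k) := by
        rw [← hm k]
        exact (pow_mul _ _ _).symm
      rw [this, zpow_natCast, hmk, Units.val_mul, Units.val_pow_eq_pow_val, mul_comm]
      rfl
    have e2 : (t k : ℂ) = (c k : ℂ) * φ ((u ^ (-((m k : ℤ) * (r₁ : ℤ))) : Rˣ) : R) := by
      rw [hpow]
      simp only [c]
      rw [← Units.val_mul, mul_assoc, ← _root_.zpow_add, add_neg_cancel, zpow_zero, mul_one]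
    rw [e1, ← e2]
  have h := hG fun k => (s k : ℂ) * ((t k)⁻¹ : ℂˣ)
  rw [hG0, map_zero] at h
  refine Eq.trans (congrArg (fun X => evS X f) (funext fun k => ?_)) h.symm
  rw [mul_assoc, ← Units.val_mul, inv_mul_cancel, Units.val_one, mul_one]

theorem two_block_DInt (φ : R →+* ℂ) (u : Rˣ) (hu : ∀ n : ℕ, 0 < n → φ (u : R) ^ n ≠ 1)
    (hr0 : 0 < r) (D : Dec r r₁ r₂) (hr : r₁ + r₂ = r)
    (f : MvPolynomial ((Fin g × Bool) × Fin r × Fin r) ℂ)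
    (hf : ∀ y ∈ DInt g r φ, SS y → evalG y f = 0)
    (y₁ : F g →* (Mat r₁ ℂ)ˣ) (hy₁ : y₁ ∈ DInt g r₁ φ) (s₁ : SS y₁)
    (y₂ : F g →* (Mat r₂ ℂ)ˣ) (hy₂ : y₂ ∈ DInt g r₂ φ) (s₂ : SS y₂) :
    evS (fun k => D.blk (y₁ (FreeGroup.of k) : Mat r₁ ℂ) (y₂ (FreeGroup.of k) : Mat r₂ ℂ)) f
      = 0 := by
  obtain ⟨z₁, h₁, χ₁, hw₁⟩ := hy₁
  obtain ⟨z₂, h₂, χ₂, hw₂⟩ := hy₂
  have t₁ : SS ((slU φ).comp z₁) := by
    refine SS.scale (fun w => (((χ₁ w)⁻¹ : ℂˣ) : ℂ)) (fun w => ((χ₁ w)⁻¹).ne_zero) ?_ s₁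
    intro w
    rw [hw₁, scalarU_mul_coe, smul_smul, ← Units.val_mul, inv_mul_cancel, Units.val_one, one_smul]
    rfl
  have t₂ : SS ((slU φ).comp z₂) := by
    refine SS.scale (fun w => (((χ₂ w)⁻¹ : ℂˣ) : ℂ)) (fun w => ((χ₂ w)⁻¹).ne_zero) ?_ s₂
    intro w
    rw [hw₂, scalarU_mul_coe, smul_smul, ← Units.val_mul, inv_mul_cancel, Units.val_one, one_smul]
    rfl
  have h := two_block_all φ u hu hr0 D hr z₁ z₂ h₁ h₂ t₁ t₂ f hf
    (fun k => χ₁ (FreeGroup.of k)) (fun k => χ₂ (FreeGroup.of k))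
  refine Eq.trans (congrArg (fun X => evS X f) (funext fun k => ?_)) h
  rw [hw₁, hw₂, scalarU_mul_coe, scalarU_mul_coe]

/-- the polynomial in the first block -/
theorem exists_poly₁ (D : Dec r r₁ r₂) (f : MvPolynomial ((Fin g × Bool) × Fin r × Fin r) ℂ)
    (Y₂ : Fin g × Bool → Mat r₂ ℂ) :
    ∃ f₁ : MvPolynomial ((Fin g × Bool) × Fin r₁ × Fin r₁) ℂ,
      ∀ y₁ : F g →* (Mat r₁ ℂ)ˣ, evalG y₁ f₁ =
        evS (fun k => D.blk (y₁ (FreeGroup.of k) : Mat r₁ ℂ) (Y₂ k)) f := by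
  let L := MvPolynomial ((Fin g × Bool) × Fin r₁ × Fin r₁) ℂ
  refine ⟨evS (fun k => D.blk (Matrix.of fun i j => (MvPolynomial.X (k, i, j) : L))
    ((Y₂ k).map MvPolynomial.C)) f, ?_⟩
  intro y₁
  unfold evalG
  rw [evS_map]
  refine congrArg (fun X => evS X f) (funext fun k => ?_)
  rw [Dec.blk_map]
  congr 1
  · ext i j
    simp
  · ext i j
    simp

theorem exists_poly₂ (D : Dec r r₁ r₂) (f : MvPolynomial ((Fin g × Bool) × Fin r × Fin r) ℂ)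
    (Y₁ : Fin g × Bool → Mat r₁ ℂ) :
    ∃ f₂ : MvPolynomial ((Fin g × Bool) × Fin r₂ × Fin r₂) ℂ,
      ∀ y₂ : F g →* (Mat r₂ ℂ)ˣ, evalG y₂ f₂ =
        evS (fun k => D.blk (Y₁ k) (y₂ (FreeGroup.of k) : Mat r₂ ℂ)) f := by
  let L := MvPolynomial ((Fin g × Bool) × Fin r₂ × Fin r₂) ℂ
  refine ⟨evS (fun k => D.blk ((Y₁ k).map MvPolynomial.C)
    (Matrix.of fun i j => (MvPolynomial.X (k, i, j) : L))) f, ?_⟩
  intro y₂
  unfold evalG
  rw [evS_map]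
  refine congrArg (fun X => evS X f) (funext fun k => ?_)
  rw [Dec.blk_map]
  congr 1
  · ext i j
    simp
  · ext i j
    simp

end TwoBlock

section Main

variable {g : ℕ}

/-- a decomposition adapted to two complementary subspaces -/
theorem exists_dec {r : ℕ} (E₁ E₂ : Submodule ℂ (Fin r → ℂ)) (h : IsCompl E₁ E₂) :
    ∃ D : Dec r (Module.finrank ℂ E₁) (Module.finrank ℂ E₂),
      LinearMap.range (Matrix.mulVecLin D.P₁) = E₁ ∧
        LinearMap.range (Matrix.mulVecLin D.P₂) = E₂ := by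
  let b₁ := Module.finBasis ℂ E₁
  let b₂ := Module.finBasis ℂ E₂
  let b := Pi.basisFun ℂ (Fin r)
  let P₁ := LinearMap.toMatrix b₁ b E₁.subtype
  let P₂ := LinearMap.toMatrix b₂ b E₂.subtype
  let Q₁ := LinearMap.toMatrix b b₁ (E₁.projectionOnto E₂ h)
  let Q₂ := LinearMap.toMatrix b b₂ (E₂.projectionOnto E₁ h.symm)
  have hr1 : LinearMap.range (Matrix.mulVecLin P₁) = E₁ := by
    have : Matrix.mulVecLin P₁ = E₁.subtype ∘ₗ (b₁.equivFun.symm : _ →ₗ[ℂ] E₁) := by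
      ext i j
      simp [P₁, LinearMap.toMatrix_apply, b]
    rw [this, LinearMap.range_comp, LinearEquiv.range, Submodule.map_top, Submodule.range_subtype]
  have hr2 : LinearMap.range (Matrix.mulVecLin P₂) = E₂ := by
    have : Matrix.mulVecLin P₂ = E₂.subtype ∘ₗ (b₂.equivFun.symm : _ →ₗ[ℂ] E₂) := by
      ext i j
      simp [P₂, LinearMap.toMatrix_apply, b]
    rw [this, LinearMap.range_comp, LinearEquiv.range, Submodule.map_top, Submodule.range_subtype]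
  refine ⟨⟨P₁, P₂, Q₁, Q₂, ?_, ?_, ?_, ?_, ?_⟩, hr1, hr2⟩
  · rw [← LinearMap.toMatrix_comp, Submodule.projectionOnto_comp_subtype, LinearMap.toMatrix_id]
  · rw [← LinearMap.toMatrix_comp]
    have : (E₁.projectionOnto E₂ h) ∘ₗ E₂.subtype = 0 := by
      ext v
      simp
    rw [this, map_zero]
  · rw [← LinearMap.toMatrix_comp]
    have : (E₂.projectionOnto E₁ h.symm) ∘ₗ E₁.subtype = 0 := by
      ext v
      simp
    rw [this, map_zero]
  · rw [← LinearMap.toMatrix_comp, Submodule.projectionOnto_comp_subtype, LinearMap.toMatrix_id]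
  · rw [← LinearMap.toMatrix_comp, ← LinearMap.toMatrix_comp, ← map_add]
    have : E₁.subtype ∘ₗ (E₁.projectionOnto E₂ h) + E₂.subtype ∘ₗ (E₂.projectionOnto E₁ h.symm)
        = LinearMap.id := Submodule.projection_add_projection_eq_id h
    rw [this, LinearMap.toMatrix_id]

theorem Dec.mul_P₁ {r r₁ r₂ : ℕ} (D : Dec r r₁ r₂) (M : Mat r ℂ)
    (h : ∀ v ∈ LinearMap.range (Matrix.mulVecLin D.P₁),
      M *ᵥ v ∈ LinearMap.range (Matrix.mulVecLin D.P₁)) :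
    M * D.P₁ = D.P₁ * (D.Q₁ * M * D.P₁) := by
  have : ∀ v : Fin r₁ → ℂ, (M * D.P₁) *ᵥ v = (D.P₁ * (D.Q₁ * M * D.P₁)) *ᵥ v := by
    intro v
    obtain ⟨a, ha⟩ := h (D.P₁ *ᵥ v) ⟨v, rfl⟩
    rw [Matrix.mulVecLin_apply] at ha
    have e1 : (M * D.P₁) *ᵥ v = D.P₁ *ᵥ a := by rw [ha, mulVec_mulVec]
    have e2 : (D.Q₁ * M * D.P₁) *ᵥ v = a := by
      rw [Matrix.mul_assoc, ← mulVec_mulVec, e1, mulVec_mulVec, D.h11, one_mulVec]
    rw [e1, ← mulVec_mulVec, e2]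
  ext i j
  have := congrFun (this (Pi.single j 1)) i
  simpa using this

theorem Dec.mul_P₂ {r r₁ r₂ : ℕ} (D : Dec r r₁ r₂) (M : Mat r ℂ)
    (h : ∀ v ∈ LinearMap.range (Matrix.mulVecLin D.P₂),
      M *ᵥ v ∈ LinearMap.range (Matrix.mulVecLin D.P₂)) :
    M * D.P₂ = D.P₂ * (D.Q₂ * M * D.P₂) := by
  have : ∀ v : Fin r₂ → ℂ, (M * D.P₂) *ᵥ v = (D.P₂ * (D.Q₂ * M * D.P₂)) *ᵥ v := by
    intro v
    obtain ⟨a, ha⟩ := h (D.P₂ *ᵥ v) ⟨v, rfl⟩
    rw [Matrix.mulVecLin_apply] at ha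
    have e1 : (M * D.P₂) *ᵥ v = D.P₂ *ᵥ a := by rw [ha, mulVec_mulVec]
    have e2 : (D.Q₂ * M * D.P₂) *ᵥ v = a := by
      rw [Matrix.mul_assoc, ← mulVec_mulVec, e1, mulVec_mulVec, D.h22, one_mulVec]
    rw [e1, ← mulVec_mulVec, e2]
  ext i j
  have := congrFun (this (Pi.single j 1)) i
  simpa using this

/-- compression of a representation to an invariant piece -/
noncomputable def compr {G : Type*} [Group G] {r r₁ : ℕ} (x : G →* (Mat r ℂ)ˣ)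
    (P : Matrix (Fin r) (Fin r₁) ℂ) (Q : Matrix (Fin r₁) (Fin r) ℂ) (h1 : Q * P = 1)
    (h : ∀ w, (x w : Mat r ℂ) * P = P * (Q * (x w : Mat r ℂ) * P)) : G →* (Mat r₁ ℂ)ˣ :=
  MonoidHom.toHomUnits
    { toFun := fun w => Q * (x w : Mat r ℂ) * P
      map_one' := by simp [h1]
      map_mul' := by
        intro a b
        rw [map_mul, Units.val_mul]
        calc Q * ((x a : Mat r ℂ) * (x b : Mat r ℂ)) * P
            = Q * (x a : Mat r ℂ) * ((x b : Mat r ℂ) * P) := by simp only [Matrix.mul_assoc]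
          _ = Q * (x a : Mat r ℂ) * (P * (Q * (x b : Mat r ℂ) * P)) := by rw [h b]
          _ = _ := by simp only [Matrix.mul_assoc] }

theorem compr_apply {G : Type*} [Group G] {r r₁ : ℕ} (x : G →* (Mat r ℂ)ˣ)
    (P : Matrix (Fin r) (Fin r₁) ℂ) (Q : Matrix (Fin r₁) (Fin r) ℂ) (h1 : Q * P = 1)
    (h : ∀ w, (x w : Mat r ℂ) * P = P * (Q * (x w : Mat r ℂ) * P)) (w : G) :
    (compr x P Q h1 h w : Mat r₁ ℂ) = Q * (x w : Mat r ℂ) * P := by
  simp [compr]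

theorem compr_ss {G : Type*} [Group G] {r r₁ : ℕ} (x : G →* (Mat r ℂ)ˣ) (hx : SS x)
    (P : Matrix (Fin r) (Fin r₁) ℂ) (Q : Matrix (Fin r₁) (Fin r) ℂ) (h1 : Q * P = 1)
    (h : ∀ w, (x w : Mat r ℂ) * P = P * (Q * (x w : Mat r ℂ) * P)) :
    SS (compr x P Q h1 h) := by
  have hι : Function.Injective (Matrix.mulVecLin P) := by
    intro v v' hv
    have h' := congrArg (fun z => Q *ᵥ z) hv
    simpa [mulVec_mulVec, h1] using h'
  have hxy : ∀ w v, (x w : Mat r ℂ) *ᵥ (Matrix.mulVecLin P v) =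
      Matrix.mulVecLin P ((compr x P Q h1 h w : Mat r₁ ℂ) *ᵥ v) := by
    intro w v
    rw [compr_apply, Matrix.mulVecLin_apply, Matrix.mulVecLin_apply, mulVec_mulVec,
      mulVec_mulVec, ← h]
  refine RelSS.ss_of_range (Matrix.mulVecLin P) hι hxy ?_
  refine RelSS.of_top ((ss_iff_relSS_top x).mp hx) ?_
  rintro w v ⟨a, rfl⟩
  rw [hxy]
  exact LinearMap.mem_range_self _ _

/-- TASK L (file Reducible.lean) -/
theorem partIV {R : Type*} [CommRing R] (φ : R →+* ℂ) (u : Rˣ)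
    (hu : ∀ n : ℕ, 0 < n → φ (u : R) ^ n ≠ 1) (r : ℕ)
    (hirr : ∀ r' ≤ r, 0 < r' → ∀ x : F g →* (Mat r' ℂ)ˣ, x (relator g) = 1 →
      (∀ N : Mat r' ℂ, (∀ w, Commute N (x w : Mat r' ℂ)) → ∃ c : ℂ, N = c • (1 : Mat r' ℂ)) →
      ∀ f : MvPolynomial ((Fin g × Bool) × Fin r' × Fin r') ℂ,
        (∀ y ∈ DInt g r' φ, SS y → evalG y f = 0) → evalG x f = 0)
    (x : F g →* (Mat r ℂ)ˣ) (hx : SS x) (hrel : x (relator g) = 1)
    (f : MvPolynomial ((Fin g × Bool) × Fin r × Fin r) ℂ)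
    (hf : ∀ y ∈ DInt g r φ, SS y → evalG y f = 0) : evalG x f = 0 := by
  induction r using Nat.strong_induction_on with
  | _ r ih =>
  rcases Nat.eq_zero_or_pos r with rfl | hr0
  · refine hf x ⟨1, rfl, 1, fun w => ?_⟩ hx
    apply Units.ext
    exact Subsingleton.elim _ _
  by_cases hc : ∀ N : Mat r ℂ, (∀ w, Commute N (x w : Mat r ℂ)) → ∃ c : ℂ, N = c • (1 : Mat r ℂ)
  · exact hirr r le_rfl hr0 x hrel hc f hf
  push Not at hc
  obtain ⟨N, hN, hNs⟩ := hc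
  have : Nonempty (Fin r) := ⟨⟨0, hr0⟩⟩
  obtain ⟨μ, hμ⟩ := Module.End.exists_eigenvalue (Matrix.mulVecLin N)
  let E₁ : Submodule ℂ (Fin r → ℂ) := Module.End.eigenspace (Matrix.mulVecLin N) μ
  have hE1 : E₁ ≠ ⊥ := hμ
  have hE1' : E₁ ≠ ⊤ := by
    intro htop
    apply hNs μ
    ext i j
    have hm : (Pi.single j 1 : Fin r → ℂ) ∈ E₁ := by rw [htop]; trivial
    rw [Module.End.mem_eigenspace_iff, Matrix.mulVecLin_apply] at hm
    have := congrFun hm i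
    simpa [Matrix.one_apply, Pi.single_apply, eq_comm] using this
  have hinv1 : InvS x E₁ := by
    intro w v hv
    rw [Module.End.mem_eigenspace_iff, Matrix.mulVecLin_apply] at hv ⊢
    rw [mulVec_mulVec, (hN w).eq, ← mulVec_mulVec, hv, mulVec_smul]
  obtain ⟨E₂, hinv2, hcompl⟩ := hx E₁ hinv1
  obtain ⟨D, hD1, hD2⟩ := exists_dec E₁ E₂ hcompl
  have hsum : Module.finrank ℂ E₁ + Module.finrank ℂ E₂ = r := by
    rw [Submodule.finrank_add_eq_of_isCompl hcompl]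
    simp
  have hlt1 : Module.finrank ℂ E₁ < r := by
    have := Submodule.finrank_lt hE1'
    simpa using this
  have hpos1 : 0 < Module.finrank ℂ E₁ := by
    rw [Module.finrank_pos_iff]
    exact Submodule.nontrivial_iff_ne_bot.mpr hE1
  have hlt2 : Module.finrank ℂ E₂ < r := by omega
  have hm1 : ∀ w, (x w : Mat r ℂ) * D.P₁ = D.P₁ * (D.Q₁ * (x w : Mat r ℂ) * D.P₁) := by
    intro w
    apply D.mul_P₁
    rw [hD1]
    exact hinv1 w
  have hm2 : ∀ w, (x w : Mat r ℂ) * D.P₂ = D.P₂ * (D.Q₂ * (x w : Mat r ℂ) * D.P₂) := by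
    intro w
    apply D.mul_P₂
    rw [hD2]
    exact hinv2 w
  set x₁ := compr x D.P₁ D.Q₁ D.h11 hm1 with hx1
  set x₂ := compr x D.P₂ D.Q₂ D.h22 hm2 with hx2
  have hs1 : SS x₁ := compr_ss x hx _ _ _ _
  have hs2 : SS x₂ := compr_ss x hx _ _ _ _
  have hrel1 : x₁ (relator g) = 1 := by
    apply Units.ext
    rw [hx1, compr_apply, hrel]
    simp [D.h11]
  have hrel2 : x₂ (relator g) = 1 := by
    apply Units.ext
    rw [hx2, compr_apply, hrel]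
    simp [D.h22]
  have hblk : ∀ w, (x w : Mat r ℂ) = D.blk (x₁ w : Mat _ ℂ) (x₂ w : Mat _ ℂ) := by
    intro w
    rw [Dec.blk_complex, hx1, hx2, compr_apply, compr_apply, ← hm1, ← hm2, Matrix.mul_assoc,
      Matrix.mul_assoc, ← Matrix.mul_add, D.hs, Matrix.mul_one]
  have step1 : ∀ y₂ ∈ DInt g (Module.finrank ℂ E₂) φ, SS y₂ →
      evS (fun k => D.blk (x₁ (FreeGroup.of k) : Mat _ ℂ) (y₂ (FreeGroup.of k) : Mat _ ℂ)) f
        = 0 := by
    intro y₂ hy₂ hsy₂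
    obtain ⟨f₁, hf₁⟩ := exists_poly₁ D f (fun k => (y₂ (FreeGroup.of k) : Mat _ ℂ))
    rw [← hf₁]
    refine ih _ hlt1 (fun r' hr' => hirr r' (hr'.trans hlt1.le)) x₁ hs1 hrel1 f₁ ?_
    intro y₁ hy₁ hsy₁
    rw [hf₁]
    exact two_block_DInt φ u hu hr0 D hsum f hf y₁ hy₁ hsy₁ y₂ hy₂ hsy₂
  have step2 : evS (fun k => D.blk (x₁ (FreeGroup.of k) : Mat _ ℂ)
      (x₂ (FreeGroup.of k) : Mat _ ℂ)) f = 0 := by
    obtain ⟨f₂, hf₂⟩ := exists_poly₂ D f (fun k => (x₁ (FreeGroup.of k) : Mat _ ℂ))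
    rw [← hf₂]
    refine ih _ hlt2 (fun r' hr' => hirr r' (hr'.trans hlt2.le)) x₂ hs2 hrel2 f₂ ?_
    intro y₂ hy₂ hsy₂
    rw [hf₂]
    exact step1 y₂ hy₂ hsy₂
  rw [evalG_eq_evS]
  refine Eq.trans (congrArg (fun X => evS X f) (funext fun k => ?_)) step2
  exact hblk _

end Main

end Vale.Agent.P002
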