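import Vale.Agent.P002.Defs

/-!
# P002 TASK M: from scaled representations to representations into `SL_r`
-/

namespace Vale.Agent.P002

open Matrix

variable {g r : ℕ}

/-- Fourier inversion over a product of groups of `r`-th roots of unity. -/
theorem fourier_inversion {G M : Type*} [Fintype G] [DecidableEq G] {z : ℂ}
    (hz : IsPrimitiveRoot z r) (hr : 0 < r) (s : Finset M) (a : M → G → ℕ) (T : M → ℂ)
    (h : ∀ e : G → ℕ, ∑ m ∈ s, (∏ k, (z ^ e k) ^ a m k) * T m = 0) (δ : G → ℕ) :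
    ∑ m ∈ s with (fun k => z ^ a m k) = (fun k => z ^ δ k), T m = 0 := by
  classical
  have hz0 : z ≠ 0 := hz.ne_zero hr.ne'
  have hsum : ∀ m ∈ s, ∏ k, ∑ j : Fin r, ((z ^ δ k)⁻¹ * z ^ a m k) ^ (j : ℕ) =
      if (fun k => z ^ a m k) = (fun k => z ^ δ k) then (r : ℂ) ^ Fintype.card G else 0 := by
    intro m _
    split_ifs with hm
    · have : ∀ k, ∑ j : Fin r, ((z ^ δ k)⁻¹ * z ^ a m k) ^ (j : ℕ) = (r : ℂ) := by
        intro k
        have h1 : z ^ a m k = z ^ δ k := congrFun hm k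
        rw [h1, inv_mul_cancel₀ (pow_ne_zero _ hz0)]
        simp
      rw [Finset.prod_congr rfl fun k _ => this k, Finset.prod_const, Finset.card_univ]
    · obtain ⟨k, hk⟩ : ∃ k, z ^ a m k ≠ z ^ δ k := by
        by_contra hcon
        push Not at hcon
        exact hm (funext hcon)
      refine Finset.prod_eq_zero (Finset.mem_univ k) ?_
      rw [Fin.sum_univ_eq_sum_range (fun j => ((z ^ δ k)⁻¹ * z ^ a m k) ^ j) r]
      have hu : (z ^ δ k)⁻¹ * z ^ a m k ≠ 1 := by
        intro h1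
        apply hk
        rw [inv_mul_eq_one₀ (pow_ne_zero _ hz0)] at h1
        exact h1.symm
      have hur : ((z ^ δ k)⁻¹ * z ^ a m k) ^ r = 1 := by
        rw [mul_pow, inv_pow, ← pow_mul, ← pow_mul, mul_comm (δ k), mul_comm (a m k), pow_mul,
          pow_mul, hz.pow_eq_one, one_pow, one_pow, inv_one, one_mul]
      rw [geom_sum_eq hu, hur, sub_self, zero_div]
  have h1 : ∑ e : G → Fin r, (∏ k, ((z ^ δ k)⁻¹) ^ (e k : ℕ)) *
      ∑ m ∈ s, (∏ k, (z ^ (e k : ℕ)) ^ a m k) * T m = 0 :=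
    Finset.sum_eq_zero fun e _ => by rw [h fun k => (e k : ℕ), mul_zero]
  have h2 : ∑ e : G → Fin r, (∏ k, ((z ^ δ k)⁻¹) ^ (e k : ℕ)) *
      ∑ m ∈ s, (∏ k, (z ^ (e k : ℕ)) ^ a m k) * T m =
      ∑ m ∈ s, (∏ k, ∑ j : Fin r, ((z ^ δ k)⁻¹ * z ^ a m k) ^ (j : ℕ)) * T m := by
    simp only [Finset.mul_sum]
    rw [Finset.sum_comm]
    refine Finset.sum_congr rfl fun m _ => ?_
    rw [Fintype.prod_sum, Finset.sum_mul]
    refine Finset.sum_congr rfl fun e _ => ?_
    rw [← mul_assoc, ← Finset.prod_mul_distrib]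
    congr 1
    refine Finset.prod_congr rfl fun k _ => ?_
    rw [mul_pow, ← pow_mul, ← pow_mul, mul_comm (e k : ℕ)]
  rw [h2, Finset.sum_congr rfl fun m hm => by rw [hsum m hm]] at h1
  simp only [ite_mul, zero_mul] at h1
  rw [← Finset.sum_filter, ← Finset.mul_sum] at h1
  have h3 : (r : ℂ) ^ Fintype.card G ≠ 0 := pow_ne_zero _ (Nat.cast_ne_zero.2 hr.ne')
  exact (mul_eq_zero.1 h1).resolve_left h3

/-- Multidegree of an exponent with respect to the matrices. -/
noncomputable def mdeg (m : ((Fin g × Bool) × Fin r × Fin r) →₀ ℕ) : (Fin g × Bool) →₀ ℕ :=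
  Finsupp.mapDomain Prod.fst m

theorem evalG_monomial_twist (x x' : F g →* (Mat r ℂ)ˣ) (t : Fin g × Bool → ℂ)
    (h : ∀ k, (x' (FreeGroup.of k) : Mat r ℂ) = t k • (x (FreeGroup.of k) : Mat r ℂ))
    (m : ((Fin g × Bool) × Fin r × Fin r) →₀ ℕ) (c : ℂ) :
    evalG x' (MvPolynomial.monomial m c) =
      (∏ k, t k ^ mdeg m k) * evalG x (MvPolynomial.monomial m c) := by
  unfold evalG
  rw [MvPolynomial.aeval_monomial, MvPolynomial.aeval_monomial]
  have h1 : (m.prod fun p n => ((x' (FreeGroup.of p.1) : Mat r ℂ) p.2.1 p.2.2) ^ n) =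
      (m.prod fun p n => t p.1 ^ n) *
        m.prod fun p n => ((x (FreeGroup.of p.1) : Mat r ℂ) p.2.1 p.2.2) ^ n := by
    rw [← Finsupp.prod_mul]
    refine Finsupp.prod_congr fun p _ => ?_
    rw [h, Matrix.smul_apply, smul_eq_mul, mul_pow]
  have h2 : (m.prod fun p n => t p.1 ^ n) = ∏ k, t k ^ mdeg m k := by
    rw [mdeg, ← Finsupp.prod_fintype (Finsupp.mapDomain Prod.fst m) (fun k n => t k ^ n)
      (fun k => pow_zero _), Finsupp.prod_mapDomain_index (fun k => pow_zero _)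
        (fun k a b => pow_add _ _ _)]
  rw [h1, h2]
  ring

theorem evalG_eq_sum (x : F g →* (Mat r ℂ)ˣ)
    (f : MvPolynomial ((Fin g × Bool) × Fin r × Fin r) ℂ) :
    evalG x f = ∑ m ∈ f.support, evalG x (MvPolynomial.monomial m (MvPolynomial.coeff m f)) := by
  conv_lhs => rw [MvPolynomial.as_sum f]
  rw [map_sum]

/-- Semisimplicity is unchanged under twisting. -/
theorem SS.twist {x x' : F g →* (Mat r ℂ)ˣ} (c : F g → ℂ) (hc : ∀ w, c w ≠ 0)
    (h : ∀ w, (x' w : Mat r ℂ) = c w • (x w : Mat r ℂ)) (hx : SS x) : SS x' := by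
  have key : ∀ W : Submodule ℂ (Fin r → ℂ), (∀ w, ∀ v ∈ W, (x' w : Mat r ℂ) *ᵥ v ∈ W) ↔
      (∀ w, ∀ v ∈ W, (x w : Mat r ℂ) *ᵥ v ∈ W) := by
    intro W
    refine forall_congr' fun w => forall_congr' fun v => forall_congr' fun hv => ?_
    rw [h, Matrix.smul_mulVec, Submodule.smul_mem_iff _ (hc w)]
  intro W hW
  obtain ⟨W', h1, h2⟩ := hx W ((key W).1 hW)
  exact ⟨W', (key W').2 h1, h2⟩

/-- The determinant of the generic matrix of a generator. -/
noncomputable def detX (k : Fin g × Bool) : MvPolynomial ((Fin g × Bool) × Fin r × Fin r) ℂ :=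
  det (Matrix.of fun i j => (MvPolynomial.X (k, i, j) :
    MvPolynomial ((Fin g × Bool) × Fin r × Fin r) ℂ))

theorem evalG_detX (x : F g →* (Mat r ℂ)ˣ) (k : Fin g × Bool) :
    evalG x (detX k) = (x (FreeGroup.of k) : Mat r ℂ).det := by
  unfold detX
  rw [AlgHom.map_det]
  congr 1
  ext i j
  simp [evalG]

theorem coe_scalarU_mul (c : ℂˣ) (u : (Mat r ℂ)ˣ) :
    ((scalarU c * u : (Mat r ℂ)ˣ) : Mat r ℂ) = (c : ℂ) • (u : Mat r ℂ) := by
  rw [Units.val_mul]
  show algebraMap ℂ (Mat r ℂ) (c : ℂ) * (u : Mat r ℂ) = _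
  rw [Algebra.algebraMap_eq_smul_one, Matrix.smul_mul, Matrix.one_mul]

theorem coe_slU {R : Type*} [CommRing R] (φ : R →+* ℂ) (y : SpecialLinearGroup (Fin r) R) :
    ((slU φ y : (Mat r ℂ)ˣ) : Mat r ℂ) = (y : Mat r R).map φ := rfl

/-- Twisting an integral representation by powers of a root of unity. -/
theorem exists_twist {R : Type*} [CommRing R] (ζ : R) (hζ : ζ ^ r = 1) (hr : 0 < r)
    (y : F g →* SpecialLinearGroup (Fin r) R) (e : Fin g × Bool → ℕ) :
    ∃ (y' : F g →* SpecialLinearGroup (Fin r) R) (χ : F g →* Rˣ),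
      (∀ w, (y' w : Mat r R) = (χ w : R) • (y w : Mat r R)) ∧
        ∀ k, (χ (FreeGroup.of k) : R) = ζ ^ e k := by
  obtain ⟨ζu, hζu⟩ : ∃ ζu : Rˣ, (ζu : R) = ζ := by
    refine ⟨⟨ζ, ζ ^ (r - 1), ?_, ?_⟩, rfl⟩
    · rw [← pow_succ', Nat.sub_add_cancel hr, hζ]
    · rw [← pow_succ, Nat.sub_add_cancel hr, hζ]
  obtain ⟨χ, hχ⟩ : ∃ χ : F g →* Rˣ, ∀ k, χ (FreeGroup.of k) = ζu ^ e k :=
    ⟨FreeGroup.lift fun k => ζu ^ e k, fun k => FreeGroup.lift_apply_of⟩
  have hχr : ∀ w, (χ w) ^ r = 1 := by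
    intro w
    have : (powMonoidHom r).comp χ = 1 := by
      refine FreeGroup.ext_hom _ _ fun k => ?_
      rw [MonoidHom.comp_apply, hχ, powMonoidHom_apply, MonoidHom.one_apply, ← pow_mul,
        mul_comm, pow_mul]
      have : ζu ^ r = 1 := by
        apply Units.ext
        rw [Units.val_pow_eq_pow_val, hζu, hζ, Units.val_one]
      rw [this, one_pow]
    exact DFunLike.congr_fun this w
  have hdet : ∀ w, ((χ w : R) • (y w : Mat r R)).det = 1 := by
    intro w
    rw [det_smul, Fintype.card_fin, Matrix.SpecialLinearGroup.det_coe, mul_one,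
      ← Units.val_pow_eq_pow_val, hχr, Units.val_one]
  refine ⟨⟨⟨fun w => ⟨(χ w : R) • (y w : Mat r R), hdet w⟩, ?_⟩, ?_⟩, χ, fun w => rfl,
    fun k => ?_⟩
  · apply Subtype.ext
    show (χ 1 : R) • (y 1 : Mat r R) = 1
    rw [map_one, map_one, Units.val_one, one_smul]
    rfl
  · intro w w'
    apply Subtype.ext
    show (χ (w * w') : R) • (y (w * w') : Mat r R) =
      ((χ w : R) • (y w : Mat r R)) * ((χ w' : R) • (y w' : Mat r R))
    rw [map_mul, map_mul, Units.val_mul, Matrix.SpecialLinearGroup.coe_mul, Matrix.smul_mul,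
      Matrix.mul_smul, smul_smul]
  · rw [hχ, Units.val_pow_eq_pow_val, hζu]

/-- TASK M -/
theorem unscale {R : Type*} [CommRing R] (φ : R →+* ℂ) (ζ : R) (hζ : ζ ^ r = 1)
    (hζ' : IsPrimitiveRoot (φ ζ) r) (hr : 0 < r)
    (f : MvPolynomial ((Fin g × Bool) × Fin r × Fin r) ℂ)
    (hf : ∀ y : F g →* SpecialLinearGroup (Fin r) R, y (relator g) = 1 →
      SS ((slU φ).comp y) → evalG ((slU φ).comp y) f = 0)
    (x : F g →* (Mat r ℂ)ˣ) (hdet : ∀ w, (x w : Mat r ℂ).det = 1)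
    (hall : ∀ f' : MvPolynomial ((Fin g × Bool) × Fin r × Fin r) ℂ,
      (∀ y ∈ DInt g r φ, SS y → evalG y f' = 0) → evalG x f' = 0) :
    evalG x f = 0 := by
  classical
  obtain ⟨z, hz⟩ : ∃ z, z = φ ζ := ⟨_, rfl⟩
  rw [← hz] at hζ'
  have hz0 : z ≠ 0 := hζ'.ne_zero hr.ne'
  -- the components of `f` vanish at integral representations
  have comp : ∀ y : F g →* SpecialLinearGroup (Fin r) R, y (relator g) = 1 →
      SS ((slU φ).comp y) → ∀ δ : Fin g × Bool → ℕ,
        ∑ m ∈ f.support with (fun k => z ^ mdeg m k) = (fun k => z ^ δ k),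
          evalG ((slU φ).comp y) (MvPolynomial.monomial m (MvPolynomial.coeff m f)) = 0 := by
    intro y hy hyS
    refine fourier_inversion hζ' hr f.support (fun m k => mdeg m k) _ fun e => ?_
    obtain ⟨y', χ, h1, h2⟩ := exists_twist ζ hζ hr y e
    have hy' : y' (relator g) = 1 := by
      apply Subtype.ext
      rw [h1, hy]
      have : χ (relator g) = 1 := by
        rw [relator, map_list_prod]
        refine List.prod_eq_one fun c hc => ?_
        rw [List.mem_map] at hc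
        obtain ⟨w, hw, rfl⟩ := hc
        rw [List.mem_ofFn] at hw
        obtain ⟨i, rfl⟩ := hw
        rw [hcomm, map_mul, map_mul, map_mul, map_inv, map_inv, mul_inv_cancel_comm,
          mul_inv_cancel]
      rw [this, Units.val_one, one_smul]
    have h3 : ∀ w, (((slU φ).comp y' w : (Mat r ℂ)ˣ) : Mat r ℂ) =
        φ (χ w : R) • (((slU φ).comp y w : (Mat r ℂ)ˣ) : Mat r ℂ) := by
      intro w
      rw [MonoidHom.comp_apply, MonoidHom.comp_apply, coe_slU, coe_slU, h1]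
      ext i j
      simp
    have hy'S : SS ((slU φ).comp y') :=
      hyS.twist (fun w => φ (χ w : R)) (fun w => ((χ w).isUnit.map φ).ne_zero) h3
    have h4 := hf y' hy' hy'S
    rw [evalG_eq_sum] at h4
    rw [← h4]
    refine Finset.sum_congr rfl fun m _ => ?_
    rw [evalG_monomial_twist ((slU φ).comp y) ((slU φ).comp y') (fun k => z ^ e k) ?_]
    intro k
    rw [h3, h2, map_pow, hz]
  -- now the components of `f` vanish at `x`
  have compx : ∀ m₀ ∈ f.support,
      ∑ m ∈ f.support with (fun k => z ^ mdeg m k) = (fun k => z ^ mdeg m₀ k),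
        evalG x (MvPolynomial.monomial m (MvPolynomial.coeff m f)) = 0 := by
    intro m₀ hm₀
    obtain ⟨B, hB⟩ : ∃ B : ℕ, ∀ m ∈ f.support, ∀ k, mdeg m k ≤ B := by
      refine ⟨∑ m ∈ f.support, ∑ k, mdeg m k, fun m hm k => ?_⟩
      exact (Finset.single_le_sum (f := fun k => mdeg m k) (fun _ _ => Nat.zero_le _)
        (Finset.mem_univ k)).trans (Finset.single_le_sum (f := fun m => ∑ k, mdeg m k)
          (fun _ _ => Nat.zero_le _) hm)
    obtain ⟨N, hN⟩ : ∃ N : Fin g × Bool → ℕ, ∀ k, N k = mdeg m₀ k + r * B := ⟨_, fun k => rfl⟩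
    obtain ⟨q, hq⟩ : ∃ q : (((Fin g × Bool) × Fin r × Fin r) →₀ ℕ) → Fin g × Bool → ℕ,
        ∀ m ∈ f.support, (fun k => z ^ mdeg m k) = (fun k => z ^ mdeg m₀ k) →
          ∀ k, N k = mdeg m k + r * q m k := by
      have : ∀ m : ((Fin g × Bool) × Fin r × Fin r) →₀ ℕ, ∀ k, ∃ q : ℕ, m ∈ f.support →
          (fun k => z ^ mdeg m k) = (fun k => z ^ mdeg m₀ k) → N k = mdeg m k + r * q := by
        intro m k
        by_cases hm : m ∈ f.support ∧ (fun k => z ^ mdeg m k) = (fun k => z ^ mdeg m₀ k)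
        · have h1 : z ^ mdeg m k = z ^ mdeg m₀ k := congrFun hm.2 k
          have h2 : z ^ mdeg m k = z ^ N k := by
            rw [h1, hN, pow_add, pow_mul, hζ'.pow_eq_one, one_pow, mul_one]
          have hfin : IsOfFinOrder z := isOfFinOrder_iff_pow_eq_one.2 ⟨r, hr, hζ'.pow_eq_one⟩
          rw [hfin.pow_eq_pow_iff_modEq, ← hζ'.eq_orderOf] at h2
          have h3 : mdeg m k ≤ N k := by
            rw [hN]
            calc mdeg m k ≤ B := hB m hm.1 k
              _ ≤ r * B := Nat.le_mul_of_pos_left B hr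
              _ ≤ _ := Nat.le_add_left _ _
          obtain ⟨q, hq⟩ := (Nat.modEq_iff_dvd' h3).1 h2
          exact ⟨q, fun _ _ => by omega⟩
        · exact ⟨0, fun h1 h2 => absurd ⟨h1, h2⟩ hm⟩
      choose q hq using this
      exact ⟨q, fun m h1 h2 k => hq m k h1 h2⟩
    -- the homogenized component
    obtain ⟨f', hf'⟩ : ∃ f' : MvPolynomial ((Fin g × Bool) × Fin r × Fin r) ℂ, f' =
        ∑ m ∈ f.support with (fun k => z ^ mdeg m k) = (fun k => z ^ mdeg m₀ k),
          MvPolynomial.monomial m (MvPolynomial.coeff m f) * ∏ k, detX k ^ q m k := ⟨_, rfl⟩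
    have heval : ∀ (x₀ x' : F g →* (Mat r ℂ)ˣ) (t : Fin g × Bool → ℂ),
        (∀ k, (x' (FreeGroup.of k) : Mat r ℂ) = t k • (x₀ (FreeGroup.of k) : Mat r ℂ)) →
        (∀ k, (x₀ (FreeGroup.of k) : Mat r ℂ).det = 1) →
        evalG x' f' = (∏ k, t k ^ N k) *
          ∑ m ∈ f.support with (fun k => z ^ mdeg m k) = (fun k => z ^ mdeg m₀ k),
            evalG x₀ (MvPolynomial.monomial m (MvPolynomial.coeff m f)) := by
      intro x₀ x' t h1 h2
      rw [hf', map_sum, Finset.mul_sum]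
      refine Finset.sum_congr rfl fun m hm => ?_
      rw [Finset.mem_filter] at hm
      rw [map_mul, map_prod, evalG_monomial_twist x₀ x' t h1, mul_right_comm]
      congr 1
      rw [← Finset.prod_mul_distrib]
      refine Finset.prod_congr rfl fun k _ => ?_
      rw [map_pow, evalG_detX, h1, det_smul, h2, mul_one, Fintype.card_fin, ← pow_mul, ← pow_add,
        hq m hm.1 hm.2 k]
    have hx' := hall f' ?_
    · rw [heval x x (fun _ => 1) (fun k => (one_smul _ _).symm) (fun k => hdet _)] at hx'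
      simpa using hx'
    · rintro y' ⟨y, hy, χ, hχ⟩ hyS
      have h1 : ∀ w, (y' w : Mat r ℂ) = (χ w : ℂ) • (((slU φ).comp y w : (Mat r ℂ)ˣ) : Mat r ℂ) := by
        intro w
        rw [hχ, coe_scalarU_mul, MonoidHom.comp_apply]
      have hyS' : SS ((slU φ).comp y) := by
        refine hyS.twist (fun w => ((χ w)⁻¹ : ℂˣ)) (fun w => Units.ne_zero _) fun w => ?_
        rw [h1, smul_smul, Units.inv_mul, one_smul]
      rw [heval ((slU φ).comp y) y' (fun k => (χ (FreeGroup.of k) : ℂ)) (fun k => h1 _)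
        (fun k => ?_), comp y hy hyS' (fun k => mdeg m₀ k), mul_zero]
      rw [MonoidHom.comp_apply, coe_slU]
      have := (φ.map_det (y (FreeGroup.of k) : Mat r R))
      rw [Matrix.SpecialLinearGroup.det_coe, map_one] at this
      exact this.symm
  rw [evalG_eq_sum, ← Finset.sum_fiberwise_of_maps_to
    (g := fun m => (fun k => z ^ mdeg m k : Fin g × Bool → ℂ))
    (t := f.support.image fun m => (fun k => z ^ mdeg m k : Fin g × Bool → ℂ))
    (fun m hm => Finset.mem_image_of_mem _ hm)]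
  refine Finset.sum_eq_zero fun δ hδ => ?_
  rw [Finset.mem_image] at hδ
  obtain ⟨m₀, hm₀, rfl⟩ := hδ
  exact compx m₀ hm₀

end Vale.Agent.P002
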